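import Mathlib

/-!
A measurable map to a finite set agrees, outside a small set, with a map that is constant near
every point.
-/

namespace Vale.Agent.P309

open MeasureTheory Metric

/-- approximation of a finite-valued measurable map by a map that is stable under small moves -/
theorem exists_stable {α κ : Type*} [MetricSpace α] [MeasurableSpace α] [BorelSpace α]
    [Fintype κ] [Nonempty κ] (μ : Measure α) [IsFiniteMeasure μ] [μ.InnerRegularCompactLTTop]
    (F : α → κ) (hF : ∀ k, MeasurableSet (F ⁻¹' {k})) {τ : ℝ} (hτ : 0 < τ) :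
    ∃ δ : ℝ, 0 < δ ∧ ∃ φ : α → κ, ∃ G : Set α, MeasurableSet G ∧ μ.real Gᶜ ≤ τ ∧
      ∀ p ∈ G, ∀ u, dist u p < δ → φ u = F p := by
  classical
  have hτ' : ENNReal.ofReal (τ / Fintype.card κ) ≠ 0 := by
    have : 0 < τ / Fintype.card κ := div_pos hτ (by exact_mod_cast Fintype.card_pos)
    simpa using this
  choose C hCs hCc hCm using fun k =>
    (hF k).exists_isCompact_sdiff_lt (μ := μ) (measure_ne_top μ _) hτ'
  have hd : ∀ k l, k ≠ l → ∃ δ : ℝ, 0 < δ ∧
      Disjoint (thickening δ (C k)) (thickening δ (C l)) := fun k l h => by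
    refine Disjoint.exists_thickenings ?_ (hCc k) (hCc l).isClosed
    exact Disjoint.mono (hCs k) (hCs l) ((Set.disjoint_singleton.2 h).preimage F)
  let e : κ × κ → ℝ := fun q => if h : q.1 ≠ q.2 then (hd q.1 q.2 h).choose else 1
  have he : ∀ q, 0 < e q := fun q => by
    simp only [e]
    split_ifs with h
    · exact (hd q.1 q.2 h).choose_spec.1
    · exact one_pos
  obtain ⟨q₀, hq₀⟩ := Finite.exists_min e
  refine ⟨e q₀, he q₀,
    fun u => if h : ∃ k, u ∈ thickening (e q₀) (C k) then h.choose else Classical.arbitrary κ,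
    ⋃ k, C k, ?_, ?_, ?_⟩
  · exact MeasurableSet.iUnion fun k => (hCc k).isClosed.measurableSet
  · have h1 : μ (⋃ k, C k)ᶜ ≤ ∑ _k : κ, ENNReal.ofReal (τ / Fintype.card κ) := by
      refine le_trans (measure_mono (t := ⋃ k, (F ⁻¹' {k}) \ C k) ?_) ?_
      · intro p hp
        exact Set.mem_iUnion.2 ⟨F p, rfl, fun h => hp (Set.mem_iUnion.2 ⟨F p, h⟩)⟩
      · exact (measure_iUnion_fintype_le μ _).trans (Finset.sum_le_sum fun k _ => (hCm k).le)
    rw [← ENNReal.ofReal_sum_of_nonneg fun _ _ => by positivity] at h1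
    simp only [Finset.sum_const, Finset.card_univ, nsmul_eq_mul] at h1
    rw [mul_div_cancel₀ _ (by exact_mod_cast Fintype.card_pos.ne')] at h1
    exact ENNReal.toReal_le_of_le_ofReal hτ.le h1
  · intro p hp u hu
    obtain ⟨k, hk⟩ := Set.mem_iUnion.1 hp
    have hFp : F p = k := hCs k hk
    have hu' : u ∈ thickening (e q₀) (C k) := mem_thickening_iff.2 ⟨p, hk, hu⟩
    have hex : ∃ k, u ∈ thickening (e q₀) (C k) := ⟨k, hu'⟩
    simp only [dif_pos hex, hFp]
    by_contra hne
    have hh : e (hex.choose, k) = (hd hex.choose k hne).choose := dif_pos hne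
    have hdis := (hd hex.choose k hne).choose_spec.2
    rw [← hh] at hdis
    exact Set.disjoint_left.1 hdis (thickening_mono (hq₀ _) _ hex.choose_spec)
      (thickening_mono (hq₀ _) _ hu')

end Vale.Agent.P309
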