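import Vale.Agent.P262.Tail

/-!
The uniform law on the sphere gives little mass to small balls.
-/

namespace Vale.Agent.P309

open MeasureTheory ProbabilityTheory Finset
open scoped InnerProductSpace

variable {d : ℕ}

/-- normalisation, with a fixed unit vector at the origin -/
noncomputable def sph (e u : EuclideanSpace ℝ (Fin d)) : EuclideanSpace ℝ (Fin d) :=
  if u = 0 then e else ‖u‖⁻¹ • u

theorem measurable_sph (e : EuclideanSpace ℝ (Fin d)) : Measurable (sph e) := by
  unfold sph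
  exact Measurable.ite (measurableSet_singleton 0) measurable_const (by fun_prop)

theorem norm_sph {e : EuclideanSpace ℝ (Fin d)} (he : ‖e‖ = 1) (u : EuclideanSpace ℝ (Fin d)) :
    ‖sph e u‖ = 1 := by
  unfold sph
  split_ifs with h
  · exact he
  · simp [norm_smul, h]

/-- mass of a cap -/
theorem cap_le (hd : 2 ≤ d) (e : EuclideanSpace ℝ (Fin d))
    {a : EuclideanSpace ℝ (Fin d)} (ha : ‖a‖ = 1) {r : ℝ} (hr : 0 < r) :
    (stdGaussian (EuclideanSpace ℝ (Fin d))).real {u | ‖sph e u - a‖ ≤ r} ≤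
      (4 * r) ^ (d - 1) := by
  classical
  rcases le_or_gt (1 / 4) r with hr4 | hr4
  · exact measureReal_le_one.trans (one_le_pow₀ (by linarith))
  let i₀ : Fin d := ⟨0, by omega⟩
  have ho : Orthonormal ℝ (({i₀} : Set (Fin d)).domRestrict fun _ : Fin d => a) := by
    refine ⟨fun i => ha, fun i j hij => ?_⟩
    exact absurd (Subsingleton.elim i j) hij
  obtain ⟨b, hb⟩ := ho.exists_orthonormalBasis_extension_of_card_eq
    (by simp : Module.finrank ℝ (EuclideanSpace ℝ (Fin d)) = Fintype.card (Fin d))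
  have hb0 : b i₀ = a := hb i₀ rfl
  set K2 := r ^ 2 / (1 - r ^ 2) with hK2
  have hr2 : r ^ 2 < 1 / 16 := by nlinarith
  have hK2pos : 0 < K2 := div_pos (by positivity) (by linarith)
  set l := 1 / (4 * K2) with hl
  have hlpos : 0 < l := by positivity
  let c : Fin d → ℝ := fun i => if i = i₀ then 1 / 4 else -l
  have hc : ∀ i, c i < 1 / 2 := fun i => by simp only [c]; split_ifs <;> linarith
  let F : (Fin d → ℝ) → ℝ := fun x => ∏ i, Real.exp (c i * x i ^ 2)
  have hFi : Integrable F (Measure.pi fun _ : Fin d => gaussianReal 0 1) :=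
    Integrable.fintype_prod (f := fun i t => Real.exp (c i * t ^ 2)) fun i =>
      (P262.gaussianReal_exp_sq (hc i)).1
  have hFv : ∫ x, F x ∂(Measure.pi fun _ : Fin d => gaussianReal 0 1)
      = √2 * √(1 / (1 + 2 * l)) ^ (d - 1) := by
    rw [integral_fintype_prod_eq_prod (f := fun i t => Real.exp (c i * t ^ 2)),
      prod_congr rfl fun i _ => (P262.gaussianReal_exp_sq (hc i)).2,
      ← mul_prod_erase univ _ (mem_univ i₀),
      prod_congr rfl (g := fun _ => √(1 / (1 + 2 * l))) fun i hi => by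
        simp only [c, if_neg (mem_erase.1 hi).1]; congr 2; ring,
      prod_const, card_erase_of_mem (mem_univ _), card_univ, Fintype.card_fin]
    norm_num [c]
  rw [stdGaussian_eq_map_pi_orthonormalBasis b, map_measureReal_apply (by fun_prop)
    (measurableSet_le (by have := measurable_sph e; fun_prop) measurable_const)]
  have key : (fun x => ∑ i, x i • b i) ⁻¹' {u | ‖sph e u - a‖ ≤ r} ⊆ {x | 1 ≤ F x} := by
    intro x hx
    set u := ∑ i, x i • b i with hu
    change ‖sph e u - a‖ ≤ r at hx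
    change 1 ≤ F x
    have hsq : ‖u‖ ^ 2 = ∑ i, x i ^ 2 := by
      rw [← real_inner_self_eq_norm_sq, hu, b.orthonormal.inner_sum]
      simp [sq]
    have hin : ⟪a, u⟫_ℝ = x i₀ := by
      rw [← hb0, hu]; exact b.orthonormal.inner_right_fintype x i₀
    have hmain : ‖u‖ ^ 2 - x i₀ ^ 2 ≤ r ^ 2 * ‖u‖ ^ 2 := by
      by_cases h0 : u = 0
      · have hx0 : x i₀ = 0 := by rw [← hin, h0, inner_zero_right]
        simp [h0, hx0]
      · have hn : 0 < ‖u‖ := norm_pos_iff.2 h0
        have h2 := pow_le_pow_left₀ (norm_nonneg _) hx 2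
        rw [sph, if_neg h0, norm_sub_sq_real, real_inner_smul_left, real_inner_comm, hin,
          norm_smul, Real.norm_eq_abs, abs_inv, abs_norm, inv_mul_cancel₀ hn.ne', ha] at h2
        have h4 : 2 * (1 - r ^ 2 / 2) * ‖u‖ ≤ 2 * x i₀ := by
          have : ‖u‖⁻¹ * x i₀ ≥ 1 - r ^ 2 / 2 := by linarith
          rw [ge_iff_le, inv_mul_eq_div, le_div_iff₀ hn] at this
          linarith
        have h5 : (1 - r ^ 2 / 2) ^ 2 * ‖u‖ ^ 2 ≤ x i₀ ^ 2 := by
          rw [← mul_pow]
          exact pow_le_pow_left₀ (mul_nonneg (by linarith) hn.le) (by linarith) 2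
        have h6 : 0 ≤ (r ^ 2 / 2) ^ 2 * ‖u‖ ^ 2 := by positivity
        nlinarith
    have hexp : 0 ≤ ∑ i, c i * x i ^ 2 := by
      rw [← add_sum_erase univ _ (mem_univ i₀),
        sum_congr rfl (g := fun i => -l * x i ^ 2) fun i hi => by
          simp only [c, if_neg (mem_erase.1 hi).1],
        ← mul_sum]
      have hS : ∑ i ∈ univ.erase i₀, x i ^ 2 = ‖u‖ ^ 2 - x i₀ ^ 2 := by
        rw [hsq, ← add_sum_erase univ _ (mem_univ i₀)]; ring
      rw [hS]
      simp only [c, if_true]
      have hle : ‖u‖ ^ 2 - x i₀ ^ 2 ≤ K2 * x i₀ ^ 2 := by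
        rw [hK2, div_mul_eq_mul_div, le_div_iff₀ (by linarith)]
        nlinarith
      have : l * (‖u‖ ^ 2 - x i₀ ^ 2) ≤ l * (K2 * x i₀ ^ 2) :=
        mul_le_mul_of_nonneg_left hle hlpos.le
      have e1 : l * (K2 * x i₀ ^ 2) = 1 / 4 * x i₀ ^ 2 := by rw [hl]; field_simp
      nlinarith
    calc (1 : ℝ) ≤ Real.exp (∑ i, c i * x i ^ 2) := Real.one_le_exp hexp
      _ = F x := Real.exp_sum _ _
  calc (Measure.pi fun _ : Fin d => gaussianReal 0 1).real
        ((fun x => ∑ i, x i • b i) ⁻¹' {u | ‖sph e u - a‖ ≤ r})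
      ≤ (Measure.pi fun _ : Fin d => gaussianReal 0 1).real {x | 1 ≤ F x} :=
        measureReal_mono key
    _ ≤ √2 * √(1 / (1 + 2 * l)) ^ (d - 1) := by
        have := mul_meas_ge_le_integral_of_nonneg
          (ae_of_all _ fun x => show 0 ≤ F x from prod_nonneg fun _ _ => (Real.exp_pos _).le)
          hFi 1
        rwa [one_mul, hFv] at this
    _ ≤ (√2 * √(1 / (1 + 2 * l))) ^ (d - 1) := by
        rw [mul_pow]
        refine mul_le_mul_of_nonneg_right ?_ (by positivity)
        calc (√2) = √2 ^ 1 := (pow_one _).symm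
          _ ≤ √2 ^ (d - 1) := pow_le_pow_right₀ (Real.one_le_sqrt.2 (by norm_num)) (by omega)
    _ ≤ (4 * r) ^ (d - 1) := by
        refine pow_le_pow_left₀ (by positivity) ?_ _
        rw [← Real.sqrt_mul (by norm_num)]
        refine (Real.sqrt_le_iff).2 ⟨by positivity, ?_⟩
        have : K2 ≤ 2 * r ^ 2 := by
          rw [hK2, div_le_iff₀ (by linarith)]; nlinarith
        have e1 : 1 + 2 * l = (2 * K2 + 1) / (2 * K2) := by rw [hl]; field_simp; ring
        rw [e1, mul_one_div, div_div_eq_mul_div, div_le_iff₀ (by positivity)]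
        nlinarith

end Vale.Agent.P309
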