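import Vale.Agent.P309.Code

/-!
A learner seen through quantised data: finitely many rows, signals and states.
-/

namespace Vale.Agent.P309

open Finset Real

/-- states: an index at which reading ended, or the current index, with the stored state -/
abbrev St (M T : ℕ) := Fin (T + 1) × Fin (2 ^ M)

/-- A quantised learner with horizon `T` that finds the signal to within `2 * 2 ^ (-ℓ)` with
probability three fifths. -/
structure FModel (d M T ℓ : ℕ) where
  /-- level of the signal -/
  L : ℕ
  /-- level of the labels -/
  L₀ : ℕ
  /-- mesh of the rows -/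
  η : ℝ
  ℓ_le : ℓ ≤ L
  L₀_le : L₀ ≤ L
  η_pos : 0 < η
  η_le : η * (2 ^ L₀ * (2 * d)) ≤ 1
  /-- the rows -/
  S : Finset (Fin d → ℤ)
  /-- their law -/
  ρ : S → ℝ
  rows : RowHyp η S ρ
  /-- the signals -/
  Z : Finset (Fin d → ℤ)
  /-- their law -/
  prior : Z → ℝ
  prior_pmf : IsPmf prior
  near : NearSphere L Z
  spread : ∀ z, prior z ≤ (8 / 2 ^ L) ^ (d - 1)
  /-- the initial state -/
  init : St M T
  /-- the transition at an index, from a row and a label -/
  step : Fin T → St M T → S → ℤ → St M T
  /-- the first component only records the index of the last transition made -/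
  step_idx : ∀ t p x y, (step t p x y).1 = p.1 ∨ (step t p x y).1 = t.succ
  /-- the output -/
  guess : St M T → EuclideanSpace ℝ (Fin d)
  /-- the probability of success -/
  success : 3 / 5 ≤ ∑ z : Z, ∑ x : Fin T → S,
    if ‖guess ((List.finRange T).foldl
        (fun p t => step t p (x t) (lab η L L₀ (x t).1 z.1)) init) - vec (mesh d L) z.1‖
          ≤ 2 / 2 ^ ℓ
    then prior z * ∏ t, ρ (x t) else 0

end Vale.Agent.P309
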