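import Vale.Agent.P309.Step
import Vale.Agent.P309.FModel

/-!
Laws of the state of a quantised learner along the blocks.
-/

namespace Vale.Agent.P309

open Finset Real

section push

variable {Ω Ω' : Type*} [Fintype Ω] [Fintype Ω']

theorem joint_push {X : Type*} [Fintype X] (P : Ω → ℝ) (ρ : X → ℝ) (φ : Ω → Ω') :
    (fun o : Ω' × X => push P φ o.1 * ρ o.2)
      = push (fun o : Ω × X => P o.1 * ρ o.2) fun o => (φ o.1, o.2) := by
  classical
  funext o
  simp only [push, pr]
  rw [sum_mul, Fintype.sum_prod_type]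
  refine sum_congr rfl fun w _ => ?_
  rw [sum_eq_single o.2]
  · by_cases h : φ w = o.1 <;> simp [h, Prod.ext_iff]
  · intro x _ hx; simp [hx, Prod.ext_iff]
  · simp

theorem push_equiv (P : Ω → ℝ) (e : Ω' ≃ Ω) {α : Type*} (φ : Ω → α) :
    push P φ = push (P ∘ e) (φ ∘ e) := by
  classical
  funext a
  simp only [push, pr]
  exact (Fintype.sum_equiv e _ _ fun _ => rfl).symm

theorem push_fst {X : Type*} [Fintype X] (P : Ω → ℝ) {ρ : X → ℝ} (hρ : ∑ x, ρ x = 1) :
    push (fun o : Ω × X => P o.1 * ρ o.2) Prod.fst = P := by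
  classical
  funext a
  simp only [push, pr]
  rw [Fintype.sum_prod_type, sum_eq_single a]
  · simp [← mul_sum, hρ]
  · intro b _ hb; simp [hb]
  · simp

end push

variable {d M T ℓ : ℕ} (F : FModel d M T ℓ)

/-- the transition at any index, trivial from the horizon on -/
def FModel.stepAt (t : ℕ) (w : St M T) (x : F.S) (y : ℤ) : St M T :=
  if h : t < T then F.step ⟨t, h⟩ w x y else w

/-- `k` transitions from the index `n` on -/
def FModel.steps (n : ℕ) : (k : ℕ) → St M T → (Fin k → F.S) → (Fin k → ℤ) → St M T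
  | 0, w, _, _ => w
  | k + 1, w, x, y => F.stepAt (n + k)
      (FModel.steps n k w (fun r => x r.castSucc) fun r => y r.castSucc) (x (Fin.last k))
      (y (Fin.last k))

/-- the law of the state and the signal after `k` transitions from the index `n` on -/
noncomputable def FModel.lawFrom (μ : St M T × F.Z → ℝ) (n k : ℕ) : St M T × F.Z → ℝ :=
  blockLaw F.η F.L F.L₀ μ F.ρ (F.steps n k)

/-- one transition of the law -/
noncomputable def FModel.lawStep (μ : St M T × F.Z → ℝ) (t : ℕ) : St M T × F.Z → ℝ :=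
  push (fun o : (St M T × F.Z) × F.S => μ o.1 * F.ρ o.2)
    fun o => (F.stepAt t o.1.1 o.2 (lab F.η F.L F.L₀ o.2.1 o.1.2.1), o.1.2)

theorem FModel.lawFrom_zero (μ : St M T × F.Z → ℝ) (n : ℕ) : F.lawFrom μ n 0 = μ := by
  have h : ∑ x : Fin 0 → F.S, iid F.ρ 0 x = 1 := by simp [iid]
  conv_rhs => rw [← push_fst μ h]
  rfl

theorem FModel.lawFrom_succ (μ : St M T × F.Z → ℝ) (n k : ℕ) :
    F.lawFrom μ n (k + 1) = F.lawStep (F.lawFrom μ n k) (n + k) := by
  rw [FModel.lawStep, FModel.lawFrom, FModel.lawFrom, blockLaw, blockLaw,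
    joint_push (fun o : (St M T × F.Z) × (Fin k → F.S) => μ o.1 * iid F.ρ k o.2), push_push]
  let e : ((St M T × F.Z) × (Fin k → F.S)) × F.S ≃ (St M T × F.Z) × (Fin (k + 1) → F.S) :=
    (Equiv.prodAssoc _ _ _).trans (Equiv.prodCongr (Equiv.refl _)
      ((Equiv.prodComm _ _).trans (Fin.snocEquiv fun _ => F.S)))
  rw [push_equiv _ e]
  congr 1
  · funext o
    simp [e, iid, Fin.prod_univ_castSucc, mul_assoc]
  · funext o
    simp [e, FModel.steps]

theorem FModel.lawFrom_add (μ : St M T × F.Z → ℝ) (a : ℕ) :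
    ∀ b, F.lawFrom (F.lawFrom μ 0 a) a b = F.lawFrom μ 0 (a + b)
  | 0 => F.lawFrom_zero _ _
  | b + 1 => by
    rw [FModel.lawFrom_succ, FModel.lawFrom_add μ a b, show a + (b + 1) = (a + b) + 1 from rfl,
      FModel.lawFrom_succ, zero_add]

theorem FModel.lawFrom_past (μ : St M T × F.Z → ℝ) {n : ℕ} (hn : T ≤ n) :
    ∀ m, F.lawFrom μ n m = μ
  | 0 => F.lawFrom_zero _ _
  | m + 1 => by
    rw [FModel.lawFrom_succ, FModel.lawFrom_past μ hn m, FModel.lawStep]
    conv_rhs => rw [← push_fst μ F.rows.pmf.sum_one]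
    congr 1
    funext o
    simp [FModel.stepAt, show ¬n + m < T by omega]

theorem FModel.isPmf_lawFrom {μ : St M T × F.Z → ℝ} (hμ : IsPmf μ) (n k : ℕ) :
    IsPmf (F.lawFrom μ n k) :=
  blockLaw_isPmf hμ F.rows.pmf _

/-- the law before any row -/
noncomputable def FModel.law₀ : St M T × F.Z → ℝ := push F.prior fun z => (F.init, z)

theorem FModel.isPmf_law₀ : IsPmf F.law₀ := push_isPmf F.prior_pmf _

theorem FModel.steps_eq_foldl (z : F.Z) (x : Fin T → F.S) : ∀ k, (hk : k ≤ T) →
    F.steps 0 k F.init (fun r => x (Fin.castLE hk r))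
        (fun r => lab F.η F.L F.L₀ (x (Fin.castLE hk r)).1 z.1)
      = ((List.finRange T).take k).foldl
          (fun p t => F.step t p (x t) (lab F.η F.L F.L₀ (x t).1 z.1)) F.init
  | 0, _ => rfl
  | k + 1, hk => by
    have ih := FModel.steps_eq_foldl z x k (by omega)
    have hk' : k < T := hk
    have hl : k < (List.finRange T).length := by simpa using hk'
    rw [List.take_succ_eq_append_getElem hl, List.foldl_append, ← ih]
    simp only [FModel.steps, List.foldl_cons, List.foldl_nil, List.getElem_finRange, zero_add,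
      FModel.stepAt, dif_pos hk']
    rfl

/-- the last law is the law that decides success -/
theorem FModel.success_law :
    3 / 5 ≤ ∑ o : St M T × F.Z,
      if ‖F.guess o.1 - vec (mesh d F.L) o.2.1‖ ≤ 2 / 2 ^ ℓ
        then F.lawFrom F.law₀ 0 T o else 0 := by
  classical
  refine le_trans F.success (le_of_eq ?_)
  let g : St M T × F.Z → ℝ := fun o =>
    if ‖F.guess o.1 - vec (mesh d F.L) o.2.1‖ ≤ 2 / 2 ^ ℓ then 1 else 0
  have e : (∑ o : St M T × F.Z,
      if ‖F.guess o.1 - vec (mesh d F.L) o.2.1‖ ≤ 2 / 2 ^ ℓ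
        then F.lawFrom F.law₀ 0 T o else 0) = ev (F.lawFrom F.law₀ 0 T) g := by
    refine sum_congr rfl fun o _ => ?_
    simp only [g]; split_ifs <;> simp
  rw [e, FModel.lawFrom, blockLaw, ev_push, FModel.law₀,
    joint_push F.prior (iid F.ρ T) fun z => (F.init, z), ev_push, ev, Fintype.sum_prod_type]
  refine sum_congr rfl fun z _ => sum_congr rfl fun x _ => ?_
  have h := F.steps_eq_foldl z x T le_rfl
  rw [List.take_of_length_le (by simp)] at h
  simp only [Fin.castLE_refl, id_eq] at h
  simp only [Function.comp_apply, g, h]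
  split_ifs <;> simp [iid]

/-- the states that `k` transitions from the index `n` on can reach -/
def FModel.reach (_F : FModel d M T ℓ) (n k : ℕ) (w : St M T) : Finset (St M T) :=
  (insert w.1 (univ.filter fun i : Fin (T + 1) => n < i.val ∧ i.val ≤ n + k)) ×ˢ univ

theorem FModel.steps_mem (n : ℕ) : ∀ k w x y, F.steps n k w x y ∈ F.reach n k w
  | 0, w, _, _ => by simp [FModel.steps, FModel.reach]
  | k + 1, w, x, y => by
    have ih := FModel.steps_mem n k w (fun r => x r.castSucc) fun r => y r.castSucc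
    simp only [FModel.reach, mem_product, mem_insert, mem_filter, mem_univ, true_and,
      and_true] at ih ⊢
    simp only [FModel.steps, FModel.stepAt]
    split_ifs with h
    · rcases F.step_idx ⟨n + k, h⟩
        (F.steps n k w (fun r => x r.castSucc) fun r => y r.castSucc) (x (Fin.last k))
        (y (Fin.last k)) with e | e
      · rw [e]
        rcases ih with e' | e'
        · exact Or.inl e'
        · exact Or.inr ⟨e'.1, by omega⟩
      · rw [e]
        refine Or.inr ?_
        simp only [Fin.val_succ]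
        omega
    · rcases ih with e' | e'
      · exact Or.inl e'
      · exact Or.inr ⟨e'.1, by omega⟩

theorem FModel.card_reach (n k : ℕ) (w : St M T) :
    ((F.reach n k w).card : ℝ) ≤ ((k + 1 : ℕ) : ℝ) * 2 ^ M := by
  have h1 : (univ.filter fun i : Fin (T + 1) => n < i.val ∧ i.val ≤ n + k).card ≤ k := by
    calc _ ≤ (Finset.Ioc n (n + k)).card :=
          card_le_card_of_injOn (fun i : Fin (T + 1) => i.val)
            (fun i hi => by simpa using hi) fun i _ j _ e => Fin.ext e
      _ = k := by simp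
  have h2 : (F.reach n k w).card ≤ (k + 1) * 2 ^ M := by
    rw [FModel.reach, card_product, card_univ, Fintype.card_fin]
    exact Nat.mul_le_mul_right _ ((card_insert_le _ _).trans (by omega))
  calc ((F.reach n k w).card : ℝ) ≤ (((k + 1) * 2 ^ M : ℕ) : ℝ) := by exact_mod_cast h2
    _ = _ := by push_cast; ring

theorem FModel.pot_blocks (hd : 2 ≤ d) {p k : ℕ} (hp : 2 ≤ p) (hp4 : 4 * p ≤ d - 1)
    (hk : 16 * k ≤ d - 1) : ∀ j : ℕ,
    pot F.L (F.lawFrom F.law₀ 0 (j * k)) ≤ 10 * d
      + j * (1 + (log (((k + 1 : ℕ) : ℝ) * 2 ^ M) + 80 * (k * d)) / p)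
  | 0 => by
    rw [zero_mul, FModel.lawFrom_zero]
    simpa [FModel.law₀] using pot_start hd F.near F.prior_pmf F.spread F.init
  | j + 1 => by
    have h := pot_step hd F.η_pos F.η_le F.L₀_le F.rows F.near hp hp4 hk
      (F.isPmf_lawFrom F.isPmf_law₀ 0 (j * k)) (F.steps (j * k) k)
      (fun w => F.reach (j * k) k w) (fun w x y => F.steps_mem _ _ w x y)
      (fun w => F.card_reach _ _ w)
    change pot F.L (F.lawFrom (F.lawFrom F.law₀ 0 (j * k)) (j * k) k) ≤ _ at h
    rw [FModel.lawFrom_add] at h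
    rw [show (j + 1) * k = j * k + k by ring]
    have ih := FModel.pot_blocks hd hp hp4 hk j
    push_cast at h ih ⊢
    linarith

theorem FModel.lawFrom_le (μ : St M T × F.Z → ℝ) {m : ℕ} (hm : T ≤ m) :
    F.lawFrom μ 0 m = F.lawFrom μ 0 T := by
  obtain ⟨b, rfl⟩ := Nat.exists_eq_add_of_le hm
  rw [← FModel.lawFrom_add, F.lawFrom_past _ le_rfl]

end Vale.Agent.P309
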