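import Vale.Agent.P309.Ent

/-!
The quantised model: rows are integer vectors at mesh `η`, signals integer vectors at level `L`,
labels integers at level `L₀`.
-/

namespace Vale.Agent.P309

open Finset Real
open scoped InnerProductSpace

variable {d : ℕ}

/-- the mesh of level `m` -/
noncomputable def mesh (d m : ℕ) : ℝ := (2 ^ m * √d)⁻¹

/-- a multiple of an integer vector -/
noncomputable def vec (h : ℝ) (z : Fin d → ℤ) : EuclideanSpace ℝ (Fin d) :=
  WithLp.toLp 2 fun i => h * z i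

/-- the cell at level `m` of a point at level `L` -/
def cell (L m : ℕ) (z : Fin d → ℤ) : Fin d → ℤ := fun i => z i / 2 ^ (L - m)

/-- the label at level `L₀` -/
noncomputable def lab (η : ℝ) (L L₀ : ℕ) (x z : Fin d → ℤ) : ℤ :=
  ⌊2 ^ L₀ * ⟪vec η x, vec (mesh d L) z⟫_ℝ⌋

theorem vec_apply (h : ℝ) (z : Fin d → ℤ) (i : Fin d) : vec h z i = h * z i := rfl

theorem inner_eq_sum (x y : EuclideanSpace ℝ (Fin d)) : ⟪x, y⟫_ℝ = ∑ i, x i * y i := by
  simp [PiLp.inner_apply, mul_comm]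

theorem mesh_pos (hd : 0 < d) (m : ℕ) : 0 < mesh d m := by
  have : (0 : ℝ) < d := by exact_mod_cast hd
  rw [mesh]; positivity

theorem sum_abs_le (v : EuclideanSpace ℝ (Fin d)) : ∑ i, |v i| ≤ √d * ‖v‖ := by
  rw [EuclideanSpace.norm_eq, ← sqrt_mul (by positivity)]
  refine le_sqrt_of_sq_le ?_
  have := sq_sum_le_card_mul_sum_sq (s := (univ : Finset (Fin d))) (f := fun i => |v i|)
  simpa [sq_abs, Real.norm_eq_abs] using this

theorem norm_le_of_abs_le {v : EuclideanSpace ℝ (Fin d)} {b : ℝ} (hb : 0 ≤ b)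
    (h : ∀ i, |v i| ≤ b) : ‖v‖ ≤ √d * b := by
  rw [EuclideanSpace.norm_eq]
  refine (sqrt_le_iff).2 ⟨by positivity, ?_⟩
  rw [mul_pow, sq_sqrt (by positivity)]
  calc ∑ i, ‖v i‖ ^ 2 ≤ ∑ _i : Fin d, b ^ 2 := sum_le_sum fun i _ => by
        rw [Real.norm_eq_abs]; exact pow_le_pow_left₀ (abs_nonneg _) (h i) 2
    _ = d * b ^ 2 := by simp

theorem mesh_eq (hd : 0 < d) {m L : ℕ} (h : m ≤ L) :
    mesh d m = 2 ^ (L - m) * mesh d L := by
  have : (0 : ℝ) < √d := sqrt_pos.2 (by exact_mod_cast hd)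
  have e : (2 : ℝ) ^ L = 2 ^ (L - m) * 2 ^ m := by rw [← pow_add, Nat.sub_add_cancel h]
  rw [mesh, mesh, e]
  field_simp

/-- a point is within `2 ^ (-m)` of the corner of its cell -/
theorem norm_vec_sub_cell (hd : 0 < d) {m L : ℕ} (h : m ≤ L) (z : Fin d → ℤ) :
    ‖vec (mesh d L) z - vec (mesh d m) (cell L m z)‖ ≤ ((2 : ℝ) ^ m)⁻¹ := by
  have hm := mesh_pos hd m
  have hsd : (0 : ℝ) < √d := sqrt_pos.2 (by exact_mod_cast hd)
  refine (norm_le_of_abs_le (b := mesh d m) hm.le fun i => ?_).trans (le_of_eq ?_)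
  · rw [PiLp.sub_apply, vec_apply, vec_apply, cell, mesh_eq hd h]
    have hk : (0 : ℤ) < 2 ^ (L - m) := by positivity
    have e : ((z i : ℤ) : ℝ) = (2 : ℝ) ^ (L - m) * ((z i / 2 ^ (L - m) : ℤ) : ℝ)
        + ((z i % 2 ^ (L - m) : ℤ) : ℝ) := by
      exact_mod_cast (Int.mul_ediv_add_emod (z i) (2 ^ (L - m))).symm
    have r0 : (0 : ℝ) ≤ ((z i % 2 ^ (L - m) : ℤ) : ℝ) := by
      exact_mod_cast Int.emod_nonneg _ hk.ne'
    have r1 : ((z i % 2 ^ (L - m) : ℤ) : ℝ) ≤ (2 : ℝ) ^ (L - m) := by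
      exact_mod_cast (Int.emod_lt_of_pos _ hk).le
    have := mesh_pos hd L
    rw [e, show mesh d L * (2 ^ (L - m) * ((z i / 2 ^ (L - m) : ℤ) : ℝ)
        + ((z i % 2 ^ (L - m) : ℤ) : ℝ))
        - 2 ^ (L - m) * mesh d L * ((z i / 2 ^ (L - m) : ℤ) : ℝ)
        = mesh d L * ((z i % 2 ^ (L - m) : ℤ) : ℝ) by ring, abs_of_nonneg (by positivity),
      mul_comm (2 ^ (L - m) : ℝ)]
    exact mul_le_mul_of_nonneg_left r1 this.le
  · rw [mesh]; field_simp

theorem cell_self (L : ℕ) (z : Fin d → ℤ) : cell L L z = z := by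
  funext i; simp [cell]

/-- cells are nested -/
theorem cell_cell {m m' L : ℕ} (h : m ≤ m') (h' : m' ≤ L) (z : Fin d → ℤ) :
    cell m' m (cell L m' z) = cell L m z := by
  funext i
  simp only [cell]
  rw [Int.ediv_ediv_of_nonneg (by positivity), ← pow_add]
  congr 2
  omega

/-- what the analysis uses about a law of rows -/
structure RowHyp (η : ℝ) (S : Finset (Fin d → ℤ)) (ρ : S → ℝ) : Prop where
  pmf : IsPmf ρ
  sq : ∀ v : EuclideanSpace ℝ (Fin d), ev ρ (fun x => ⟪vec η x.1, v⟫_ℝ ^ 2) ≤ ‖v‖ ^ 2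
  ent_ge : (d : ℝ) * (log η⁻¹ - 1) ≤ ent ρ id

/-- points at level `L` next to the unit sphere -/
def NearSphere (L : ℕ) (Z : Finset (Fin d → ℤ)) : Prop :=
  ∀ z ∈ Z, |‖vec (mesh d L) z‖ - 1| ≤ ((2 : ℝ) ^ L)⁻¹

/-- the norm of a row has mean square at most the dimension -/
theorem RowHyp.norm_sq {η : ℝ} {S : Finset (Fin d → ℤ)} {ρ : S → ℝ} (h : RowHyp η S ρ) :
    ev ρ (fun x => ‖vec η x.1‖ ^ 2) ≤ d := by
  calc ev ρ (fun x => ‖vec η x.1‖ ^ 2)
      = ∑ i : Fin d, ev ρ (fun x => ⟪vec η x.1, EuclideanSpace.single i (1 : ℝ)⟫_ℝ ^ 2) := by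
        simp only [ev]
        rw [sum_comm]
        refine sum_congr rfl fun x _ => ?_
        rw [← mul_sum, EuclideanSpace.norm_eq, sq_sqrt (by positivity)]
        simp [EuclideanSpace.inner_single_right]
    _ ≤ ∑ _i : Fin d, (1 : ℝ) := sum_le_sum fun i _ => (h.sq _).trans (by simp)
    _ = d := by simp

end Vale.Agent.P309
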