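import Vale.Agent.P309.Code

/-!
The potential of a law of a state and a signal.
-/

namespace Vale.Agent.P309

open Finset Real

variable {d : ℕ}

/-- the product law of `k` rows -/
def iid {X : Type*} (ρ : X → ℝ) (k : ℕ) : (Fin k → X) → ℝ := fun x => ∏ r, ρ (x r)

theorem ev_iid {X : Type*} [Fintype X] {ρ : X → ℝ} (hρ : IsPmf ρ) {k : ℕ} (r : Fin k) (g : X → ℝ) :
    ev (iid ρ k) (fun x => g (x r)) = ev ρ g := by
  classical
  have h : ∑ x : Fin k → X, (∏ j, ρ (x j)) * g (x r)
      = ∏ j, ∑ a, ρ a * (if j = r then g a else 1) := by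
    rw [Fintype.prod_sum]
    refine sum_congr rfl fun x _ => ?_
    rw [prod_mul_distrib]
    congr 1
    rw [prod_eq_single r (fun j _ hj => if_neg hj) (by simp), if_pos rfl]
  simp only [ev, iid, h]
  rw [prod_eq_single r (fun j _ hj => by simp [hj, hρ.sum_one]) (by simp)]
  simp

theorem iid_isPmf {X : Type*} [Fintype X] {ρ : X → ℝ} (hρ : IsPmf ρ) (k : ℕ) :
    IsPmf (iid ρ k) := by
  classical
  refine ⟨fun x => prod_nonneg fun r _ => hρ.nonneg _, ?_⟩
  simp only [iid]
  rw [← Fintype.prod_sum]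
  simp [hρ.sum_one]

theorem pr_id {Ω : Type*} [Fintype Ω] (P : Ω → ℝ) (ω : Ω) : pr P id ω = P ω := by
  classical
  simp [pr]

theorem ent_iid {X : Type*} [Fintype X] {ρ : X → ℝ} (hρ : IsPmf ρ) (k : ℕ) :
    ent (iid ρ k) id = k * ent ρ id := by
  have h : ent (iid ρ k) id = ∑ r, ev (iid ρ k) (fun x => -log (ρ (x r))) := by
    simp only [ent, ev, id, pr_id]
    rw [sum_comm]
    refine sum_congr rfl fun x _ => ?_
    rw [← mul_sum, sum_neg_distrib]
    rcases eq_or_ne (iid ρ k x) 0 with e | e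
    · simp [e]
    · rw [← log_prod fun r _ => prod_ne_zero_iff.1 e r (mem_univ r)]
      rfl
  have h2 : ∀ r, ev (iid ρ k) (fun x : Fin k → X => -log (ρ (x r))) = ent ρ id := fun r => by
    rw [ev_iid hρ r fun a => -log (ρ a)]
    simp [ev, ent, pr_id]
  simp [h, h2]

theorem push_push {Ω Ω' Ω'' : Type*} [Fintype Ω] [Fintype Ω'] (P : Ω → ℝ) (φ : Ω → Ω')
    (ψ : Ω' → Ω'') : push (push P φ) ψ = push P (ψ ∘ φ) :=
  funext fun a => pr_push φ ψ a

/-- a family costs at most each member given the earlier ones -/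
theorem cent_pi_le_prefix {Ω : Type*} {α : Type} [Fintype Ω] {P : Ω → ℝ} (hP : IsPmf P) :
    ∀ {k : ℕ} {β : Type} (f : Fin k → Ω → α) (g : Ω → β),
      cent P (fun ω r => f r ω) g
        ≤ ∑ r, cent P (f r) (fun ω => ((fun j => if j < r then some (f j ω) else none), g ω))
  | 0, _, f, g => by
    rw [cent_eq_zero fun x y _ => funext fun r => r.elim0]
    simp
  | k + 1, _, f, g => by
    have e : cent P (fun ω r => f r ω) g
        = cent P (fun ω => (fun r : Fin k => f r.succ ω, f 0 ω)) g := by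
      refine cent_congr (fun x y => and_congr_left' ?_) fun _ _ => Iff.rfl
      simp only [funext_iff, Prod.mk.injEq]
      exact Fin.forall_fin_succ.trans and_comm
    rw [e, cent_chain, Fin.sum_univ_succ, add_comm]
    refine add_le_add (le_of_eq ?_) ?_
    · refine cent_congr (fun x y => and_congr_right' ?_) fun x y => ?_ <;>
        simp [funext_iff]
    refine (cent_pi_le_prefix hP (fun r => f r.succ) fun ω => (f 0 ω, g ω)).trans
      (sum_le_sum fun r _ => le_of_eq ?_)
    have hg : ∀ x y, ((fun j : Fin k => if j < r then some (f j.succ x) else none) =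
          (fun j : Fin k => if j < r then some (f j.succ y) else none) ∧
          f 0 x = f 0 y ∧ g x = g y) ↔
        ((fun j : Fin (k + 1) => if j < r.succ then some (f j x) else none) =
          (fun j : Fin (k + 1) => if j < r.succ then some (f j y) else none) ∧ g x = g y) := by
      intro x y
      simp only [funext_iff, Fin.forall_fin_succ (n := k), Fin.succ_lt_succ_iff,
        Fin.succ_pos, if_true, Option.some.injEq]
      tauto
    refine cent_congr (fun x y => and_congr_right' ?_) fun x y => ?_ <;>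
      simpa [Prod.mk.injEq] using hg x y

variable {W : Type*} [Fintype W] (L : ℕ) {Z : Finset (Fin d → ℤ)}

/-- the cost of cutting at a random level -/
noncomputable def cutCost {Ω : Type*} [Fintype Ω] (P : Ω → ℝ) (w : Ω → W) (z : Ω → Z)
    (σ : Ω → ℕ) : ℝ :=
  ((d : ℝ) - 1) * log 2 * L - 3 / 4 * ((d : ℝ) - 1) * log 2 * ev P (fun ω => (σ ω : ℝ))
    - cent P z (fun ω => (w ω, σ ω, cell L (σ ω) (z ω).1))

/-- couplings of a law of a state and a signal with a level -/
def Cut (μ : W × Z → ℝ) : Type _ :=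
  {κ : (W × Z) × Fin (L + 1) → ℝ // IsPmf κ ∧ push κ Prod.fst = μ}

/-- the potential -/
noncomputable def pot (μ : W × Z → ℝ) : ℝ :=
  ⨅ κ : Cut L μ, cutCost L κ.1 (fun o => o.1.1) (fun o => o.1.2) (fun o => (o.2 : ℕ))

variable {L}

theorem cutCost_push {Ω Ω' : Type*} [Fintype Ω] [Fintype Ω'] (P : Ω → ℝ) (φ : Ω → Ω')
    (w : Ω' → W) (z : Ω' → Z) (σ : Ω' → ℕ) :
    cutCost L (push P φ) w z σ = cutCost L P (w ∘ φ) (z ∘ φ) (σ ∘ φ) := by
  simp only [cutCost, cent_push, ev_push]
  rfl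

/-- the potential is at most the cost of any coupling -/
theorem pot_le {μ : W × Z → ℝ}
    (hb : BddBelow (Set.range fun κ : Cut L μ =>
      cutCost L κ.1 (fun o => o.1.1) (fun o => o.1.2) (fun o => (o.2 : ℕ))))
    {Ω : Type*} [Fintype Ω] {P : Ω → ℝ} (hP : IsPmf P) (w : Ω → W) (z : Ω → Z) (σ : Ω → ℕ)
    (hσ : ∀ ω, σ ω ≤ L) (hμ : push P (fun ω => (w ω, z ω)) = μ) :
    pot L μ ≤ cutCost L P w z σ := by
  let φ : Ω → (W × Z) × Fin (L + 1) := fun ω => ((w ω, z ω), ⟨σ ω, Nat.lt_succ_of_le (hσ ω)⟩)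
  have h : IsPmf (push P φ) ∧ push (push P φ) Prod.fst = μ :=
    ⟨push_isPmf hP φ, (push_push P φ Prod.fst).trans hμ⟩
  refine (ciInf_le hb ⟨_, h⟩).trans_eq ?_
  rw [cutCost_push]
  rfl

/-- the potential is nearly attained -/
theorem exists_cut {μ : W × Z → ℝ} (hμ : IsPmf μ) :
    ∃ κ : Cut L μ, cutCost L κ.1 (fun o => o.1.1) (fun o => o.1.2) (fun o => (o.2 : ℕ))
      < pot L μ + 1 := by
  let φ : W × Z → (W × Z) × Fin (L + 1) := fun o => (o, 0)
  have h : push (push μ φ) Prod.fst = μ :=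
    (push_push μ φ Prod.fst).trans (funext fun a => pr_id μ a)
  haveI : Nonempty (Cut L μ) := ⟨⟨_, push_isPmf hμ φ, h⟩⟩
  exact exists_lt_of_ciInf_lt (lt_add_one _)

end Vale.Agent.P309
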