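import Vale.Agent.P309.Code

/-!
Coding with respect to the span of earlier replicas.
-/

namespace Vale.Agent.P309

open Finset Real InnerProductSpace

variable {d : ℕ}

/-- the distance of a vector from the span of the earlier ones -/
noncomputable def res (f : Fin d → EuclideanSpace ℝ (Fin d)) (i : Fin d) : ℝ :=
  ‖gramSchmidt ℝ f i‖

/-- the earlier vectors, padded with zeros -/
noncomputable def pre (f : Fin d → EuclideanSpace ℝ (Fin d)) (i : Fin d) :
    Fin d → EuclideanSpace ℝ (Fin d) := fun j => if j < i then f j else 0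

/-- the basis given by a family -/
noncomputable def basisOf (f : Fin d → EuclideanSpace ℝ (Fin d)) :
    OrthonormalBasis (Fin d) ℝ (EuclideanSpace ℝ (Fin d)) :=
  gramSchmidtOrthonormalBasis (by simp) f

theorem gramSchmidt_agree {f g : Fin d → EuclideanSpace ℝ (Fin d)} (i : Fin d)
    (h : ∀ j, j ≤ i → f j = g j) : gramSchmidt ℝ f i = gramSchmidt ℝ g i := by
  induction i using WellFoundedLT.induction with
  | ind i ih =>
    rw [gramSchmidt_def ℝ f i, gramSchmidt_def ℝ g i, h i le_rfl]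
    congr 1
    refine sum_congr rfl fun j hj => ?_
    rw [ih j (mem_Iio.1 hj) fun l hl => h l (hl.trans (mem_Iio.1 hj).le)]

/-- a vector is its residual and a combination of the earlier basis vectors -/
theorem exists_coeff (f : Fin d → EuclideanSpace ℝ (Fin d)) (i : Fin d) :
    ∃ c : Fin d → ℝ, (∀ j, ¬ j < i → c j = 0) ∧ ∑ j, c j ^ 2 ≤ ‖f i‖ ^ 2 ∧
      ‖f i - ∑ j, c j • basisOf (pre f i) j‖ = res f i := by
  let u : Fin d → EuclideanSpace ℝ (Fin d) := gramSchmidtNormed ℝ f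
  let c : Fin d → ℝ := fun j => if j < i then ⟪u j, f i⟫_ℝ else 0
  have hu : ∀ j, j < i → gramSchmidtNormed ℝ (pre f i) j = u j := by
    intro j hj
    simp only [u, gramSchmidtNormed]
    rw [gramSchmidt_agree (f := pre f i) (g := f) j
      fun l hl => if_pos (lt_of_le_of_lt hl hj)]
  have key : ∀ j, c j • basisOf (pre f i) j =
      if j < i then (⟪gramSchmidt ℝ f j, f i⟫_ℝ / ‖gramSchmidt ℝ f j‖ ^ 2) •
        gramSchmidt ℝ f j else 0 := by
    intro j
    by_cases hj : j < i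
    · simp only [c, if_pos hj]
      by_cases h0 : u j = 0
      · have h1 : gramSchmidt ℝ f j = 0 := by
          simp only [u, gramSchmidtNormed, smul_eq_zero, inv_eq_zero] at h0
          rcases h0 with h | h
          · exact norm_eq_zero.1 (by simpa using h)
          · exact h
        simp [h0, h1]
      · rw [basisOf, gramSchmidtOrthonormalBasis_apply _ (by rw [hu j hj]; exact h0), hu j hj]
        simp only [u, gramSchmidtNormed, RCLike.ofReal_real_eq_id, id_eq, real_inner_smul_left,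
          smul_smul]
        congr 1
        field_simp
    · simp [c, hj]
  have hsum : f i - ∑ j, c j • basisOf (pre f i) j = gramSchmidt ℝ f i := by
    simp only [key]
    rw [← sum_filter, show univ.filter (fun j => j < i) = Iio i by ext; simp]
    have h := gramSchmidt_def'' ℝ f i
    exact sub_eq_iff_eq_add.2 h
  refine ⟨c, fun j hj => if_neg hj, ?_, by rw [res, hsum]⟩
  have hc : ∀ j, c j ^ 2 ≤ ⟪basisOf (pre f i) j, f i⟫_ℝ ^ 2 := by
    intro j
    by_cases hj : j < i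
    · simp only [c, if_pos hj]
      by_cases h0 : u j = 0
      · simp [h0, sq_nonneg]
      · rw [basisOf, gramSchmidtOrthonormalBasis_apply _ (by rw [hu j hj]; exact h0), hu j hj]
    · simp [c, hj, sq_nonneg]
  refine (sum_le_sum fun j _ => hc j).trans_eq ?_
  have h := (basisOf (pre f i)).sum_sq_norm_inner_right (f i)
  simpa [Real.norm_eq_abs, sq_abs] using h

theorem sum_abs_le_of_sq {ι : Type*} (s : Finset ι) (c : ι → ℝ) {a : ℝ} (ha : 0 ≤ a)
    (h : ∑ j ∈ s, c j ^ 2 ≤ a ^ 2) : ∑ j ∈ s, |c j| ≤ √(s.card : ℝ) * a := by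
  have h1 := sq_sum_le_card_mul_sum_sq (s := s) (f := fun j => |c j|)
  simp only [sq_abs] at h1
  rw [← sqrt_sq ha, ← sqrt_mul (Nat.cast_nonneg _)]
  exact le_sqrt_of_sq_le (h1.trans (mul_le_mul_of_nonneg_left h (Nat.cast_nonneg _)))

theorem norm_sum_basis (b : OrthonormalBasis (Fin d) ℝ (EuclideanSpace ℝ (Fin d))) (c : Fin d → ℝ) :
    ‖∑ j, c j • b j‖ ^ 2 = ∑ j, c j ^ 2 := by
  rw [← b.sum_sq_norm_inner_right]
  refine sum_congr rfl fun j _ => ?_
  rw [b.orthonormal.inner_right_fintype, Real.norm_eq_abs, sq_abs]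

theorem abs_sub_floor_le (a : ℝ) : |a - ⌊a⌋| ≤ 1 := by
  rw [abs_le]
  constructor <;> linarith [Int.floor_le a, Int.lt_floor_add_one a]

/-- the cell of a point near an affine span costs the dimension times the depth -/
theorem cent_cell_tube {Ω : Type*} [Fintype Ω] {P : Ω → ℝ} (hP : IsPmf P) (hd : 0 < d) (L : ℕ)
    (z : Ω → Fin d → ℤ) (f : Ω → Fin d → EuclideanSpace ℝ (Fin d))
    (base : Ω → EuclideanSpace ℝ (Fin d)) (σ B : Ω → ℕ) (i : Fin d) (hL : ∀ ω, σ ω + B ω ≤ L)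
    (hf : ∀ ω, f ω i = vec (mesh d L) (z ω) - base ω)
    (hnorm : ∀ ω, P ω ≠ 0 → ‖f ω i‖ ≤ 2 / 2 ^ σ ω)
    (hres : ∀ ω, P ω ≠ 0 → res (f ω) i ≤ 2 / 2 ^ (σ ω + B ω)) :
    cent P (fun ω => cell L (σ ω + B ω) (z ω)) (fun ω => (pre (f ω) i, base ω, σ ω, B ω))
      ≤ i * log 2 * ev P (fun ω => (B ω : ℝ)) + 14 * d := by
  classical
  have hd' : (0 : ℝ) < d := by exact_mod_cast hd
  have hsd : (0 : ℝ) < √d := sqrt_pos.2 hd'
  set g := fun ω => (pre (f ω) i, base ω, σ ω, B ω) with hg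
  choose c hc0 hc2 hcres using fun ω => exists_coeff (f ω) i
  let s : ℕ × ℕ → ℝ := fun m => (2 ^ (m.1 + m.2) * √d)⁻¹
  have hs : ∀ m, 0 < s m := fun m => by positivity
  let t : Ω → Fin d → ℤ := fun ω j => ⌊c ω j / s (σ ω, B ω)⌋
  let R : (Fin d → EuclideanSpace ℝ (Fin d)) × EuclideanSpace ℝ (Fin d) × ℕ × ℕ → Fin d → ℝ :=
    fun q j => if j < i then 2 ^ q.2.2.2 else 1
  let A : (Fin d → ℤ) × ((Fin d → EuclideanSpace ℝ (Fin d)) × EuclideanSpace ℝ (Fin d) × ℕ × ℕ)
      → Fin d → ℝ := fun q l =>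
    (q.2.2.1 + ∑ j, ((q.1 j : ℝ) * s q.2.2.2) • basisOf q.2.1 j) l / mesh d (q.2.2.2.1 + q.2.2.2.2)
  have h1 := cent_le_laplace hP t g (fun _ _ => 0) R fun q j => by
    simp only [R]; split_ifs
    · exact one_le_pow₀ (by norm_num)
    · exact le_rfl
  have h2 := cent_le_laplace hP (fun ω => cell L (σ ω + B ω) (z ω)) (fun ω => (t ω, g ω)) A
    (fun _ _ => 1) fun _ _ => le_rfl
  refine (cent_le_add hP _ t g).trans ((add_le_add h1 h2).trans ?_)
  rw [ev, mul_sum, ← sum_add_distrib,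
    show (14 * d : ℝ) = ∑ ω, P ω * (14 * d) by rw [← sum_mul, hP.sum_one, one_mul],
    ← sum_add_distrib]
  refine sum_le_sum fun ω _ => ?_
  rcases eq_or_ne (P ω) 0 with e | e
  · simp [e]
  rw [← mul_add, mul_left_comm, ← mul_add]
  refine mul_le_mul_of_nonneg_left ?_ (hP.nonneg ω)
  simp only [hg]
  set m := σ ω + B ω with hm
  have hsm := hs (σ ω, B ω)
  have hsnorm : √d * s (σ ω, B ω) = ((2 : ℝ) ^ m)⁻¹ := by
    simp only [s, hm]; field_simp
  -- the coefficients
  have ht : ∑ j, (|(t ω j : ℝ) - 0| / R (g ω) j + log (R (g ω) j) + 3)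
      ≤ i * log 2 * B ω + 7 * d := by
    have hterm : ∀ j, |(t ω j : ℝ) - 0| / R (g ω) j + log (R (g ω) j) + 3
        ≤ |c ω j| / (s (σ ω, B ω) * 2 ^ B ω) + (if j < i then log 2 * B ω else 0) + 4 := by
      intro j
      by_cases hj : j < i
      · simp only [R, hg, if_pos hj, log_pow, sub_zero]
        have h : |(t ω j : ℝ)| ≤ |c ω j| / s (σ ω, B ω) + 1 := by
          have := abs_sub_floor_le (c ω j / s (σ ω, B ω))
          have h' := abs_sub_abs_le_abs_sub ((t ω j : ℝ)) (c ω j / s (σ ω, B ω))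
          rw [abs_sub_comm] at this
          rw [abs_div, abs_of_pos hsm] at h'
          linarith
        have hB : (1 : ℝ) ≤ 2 ^ B ω := one_le_pow₀ (by norm_num)
        have h5 := div_le_div_of_nonneg_right h (by positivity : (0 : ℝ) ≤ 2 ^ B ω)
        rw [add_div, div_div] at h5
        have : 1 / (2 : ℝ) ^ B ω ≤ 1 := by rw [div_le_one (by positivity)]; exact hB
        nlinarith [h5]
      · simp [R, hg, if_neg hj, t, hc0 ω j hj]
        norm_num
    refine (sum_le_sum fun j _ => hterm j).trans ?_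
    rw [sum_add_distrib, sum_add_distrib, ← sum_div, ← sum_filter,
      show univ.filter (fun j : Fin d => j < i) = Iio i by ext; simp]
    simp only [sum_const, Fin.card_Iio, card_univ, Fintype.card_fin, nsmul_eq_mul]
    have hb := sum_abs_le_of_sq univ (c ω) (by positivity) ((hc2 ω).trans
      (pow_le_pow_left₀ (norm_nonneg _) (hnorm ω e) 2))
    rw [card_univ, Fintype.card_fin] at hb
    have : (∑ j, |c ω j|) / (s (σ ω, B ω) * 2 ^ B ω) ≤ 2 * d := by
      rw [div_le_iff₀ (by positivity)]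
      refine hb.trans (le_of_eq ?_)
      simp only [s, pow_add]
      field_simp
      rw [sq_sqrt hd'.le]
    linarith [mul_comm (log 2) (B ω : ℝ)]
  -- the cell given the coefficients
  have hq : ∑ l, (|(cell L m (z ω) l : ℝ) - A (t ω, g ω) l| / (1 : ℝ) + log 1 + 3)
      ≤ 7 * d := by
    simp only [div_one, log_one, add_zero, sum_add_distrib, sum_const, card_univ,
      Fintype.card_fin, nsmul_eq_mul]
    set b := basisOf (pre (f ω) i)
    set v := base ω + ∑ j, ((t ω j : ℝ) * s (σ ω, B ω)) • b j with hv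
    have hM := mesh_pos hd m
    have e1 : ∀ l, |(cell L m (z ω) l : ℝ) - A (t ω, g ω) l|
        = |(vec (mesh d m) (cell L m (z ω)) - v) l| / mesh d m := by
      intro l
      show |(cell L m (z ω) l : ℝ) - v l / mesh d m| = _
      rw [PiLp.sub_apply, vec_apply, ← abs_of_pos hM, ← abs_div, abs_of_pos hM, sub_div,
        mul_div_cancel_left₀ _ hM.ne']
    simp only [e1, ← sum_div]
    have hn : ‖vec (mesh d m) (cell L m (z ω)) - v‖ ≤ 4 / 2 ^ m := by
      have a1 := norm_vec_sub_cell hd (hL ω) (z ω)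
      have a2 : ‖∑ j, (c ω j - (t ω j : ℝ) * s (σ ω, B ω)) • b j‖ ≤ ((2 : ℝ) ^ m)⁻¹ := by
        rw [← hsnorm]
        refine le_of_pow_le_pow_left₀ two_ne_zero (by positivity) ?_
        rw [norm_sum_basis]
        calc ∑ j, (c ω j - (t ω j : ℝ) * s (σ ω, B ω)) ^ 2 ≤ ∑ _j : Fin d, s (σ ω, B ω) ^ 2 := by
              refine sum_le_sum fun j _ => ?_
              rw [sq_le_sq, abs_of_pos hsm]
              have := abs_sub_floor_le (c ω j / s (σ ω, B ω))
              have h' := mul_le_mul_of_nonneg_right this hsm.le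
              rw [← abs_of_pos hsm, ← abs_mul, abs_of_pos hsm, sub_mul,
                div_mul_cancel₀ _ hsm.ne', one_mul] at h'
              exact h'
          _ = _ := by rw [mul_pow, sq_sqrt hd'.le]; simp
      have e2 : vec (mesh d m) (cell L m (z ω)) - v
          = (vec (mesh d m) (cell L m (z ω)) - vec (mesh d L) (z ω))
            + ((f ω i - ∑ j, c ω j • b j)
              + ∑ j, (c ω j - (t ω j : ℝ) * s (σ ω, B ω)) • b j) := by
        simp only [hv, hf ω, sub_smul, sum_sub_distrib]; abel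
      have a3 : ‖f ω i - ∑ j, c ω j • b j‖ ≤ 2 / 2 ^ m := (hcres ω).trans_le (hres ω e)
      rw [e2, ← add_assoc]
      refine norm_add₃_le.trans ?_
      rw [norm_sub_rev] at a1
      have : (4 : ℝ) / 2 ^ m = ((2 : ℝ) ^ m)⁻¹ + 2 / 2 ^ m + ((2 : ℝ) ^ m)⁻¹ := by ring
      linarith
    have h4 := (sum_abs_le (vec (mesh d m) (cell L m (z ω)) - v)).trans
      (mul_le_mul_of_nonneg_left hn hsd.le)
    have : (∑ l, |(vec (mesh d m) (cell L m (z ω)) - v) l|) / mesh d m ≤ 4 * d := by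
      rw [div_le_iff₀ hM]
      refine h4.trans (le_of_eq ?_)
      rw [mesh]
      field_simp
      rw [sq_sqrt hd'.le]
    linarith
  linarith

/-- a row consistent with the labels of the replicas saves the depth of each constraint -/
theorem cent_row_span {Ω : Type*} [Fintype Ω] {P : Ω → ℝ} (hP : IsPmf P) {η : ℝ} (hη : 0 < η)
    (hη1 : η ≤ 1) (L₀ : ℕ) (hη2 : η * (2 ^ L₀ * (2 * d)) ≤ 1)
    (x : Ω → Fin d → ℤ) (f : Ω → Fin d → EuclideanSpace ℝ (Fin d)) (K : Ω → Fin d → ℕ)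
    (hK : ∀ ω i, η * 2 ^ K ω i ≤ 1)
    (hnorm : ∀ ω i, P ω ≠ 0 → ‖f ω i‖ ≤ 2)
    (hres : ∀ ω i, P ω ≠ 0 → 0 < K ω i → 2 ^ K ω i / 2 ^ L₀ ≤ res (f ω) i)
    (hcons : ∀ ω i, P ω ≠ 0 → 0 < K ω i →
      |⟪vec η (x ω), f ω i⟫_ℝ| ≤ ((2 : ℝ) ^ L₀)⁻¹) :
    cent P x (fun ω => (f ω, K ω)) ≤ d * (log η⁻¹ + 14)
      + ev P (fun ω => ‖vec η (x ω)‖ ^ 2) - log 2 * ev P (fun ω => ∑ i, (K ω i : ℝ)) := by
  classical
  let nu : Ω → Fin d → ℤ := fun ω j => ⌊⟪basisOf (f ω) j, vec η (x ω)⟫_ℝ / η⌋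
  let g := fun ω => (f ω, K ω)
  let pred : (Fin d → EuclideanSpace ℝ (Fin d)) → (Fin d → ℤ) → Fin d → ℝ :=
    fun F w i => -(∑ j ∈ Iio i, ⟪basisOf F j, F i⟫_ℝ * w j) / res F i
  let y : Ω → Fin d → ℤ := fun ω i =>
    if 0 < K ω i then nu ω i - ⌊pred (f ω) (nu ω) i⌋ else nu ω i
  let R : (Fin d → EuclideanSpace ℝ (Fin d)) × (Fin d → ℕ) → Fin d → ℝ :=
    fun q j => max 1 (η * 2 ^ q.2 j)⁻¹
  have hR : ∀ ω j, R (g ω) j = (η * 2 ^ K ω j)⁻¹ := fun ω j =>
    max_eq_right ((one_le_inv₀ (by positivity)).2 (hK ω j))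
  -- the coordinates are determined by the corrections
  have hdet : cent P nu (fun ω => (y ω, g ω)) = 0 := by
    refine cent_eq_zero fun u v e => ?_
    simp only [g, Prod.mk.injEq] at e
    obtain ⟨ey, ef, ek⟩ := e
    funext i
    induction i using WellFoundedLT.induction with
    | ind i ih =>
      have e1 : y u i = y v i := congrFun ey i
      have e2 : pred (f u) (nu u) i = pred (f v) (nu v) i := by
        simp only [pred, ef]
        rw [sum_congr rfl fun j hj => by rw [ih j (mem_Iio.1 hj)]]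
      simp only [y, ← ek, e2] at e1
      split_ifs at e1
      · exact sub_left_inj.1 e1
      · exact e1
  -- the vector given its coordinates
  let A : (Fin d → ℤ) × ((Fin d → EuclideanSpace ℝ (Fin d)) × (Fin d → ℕ)) → Fin d → ℝ :=
    fun q l => (∑ j, (η * (q.1 j : ℝ)) • basisOf q.2.1 j) l / η
  have h1 := cent_le_laplace hP y g (fun _ _ => 0) R fun q j => le_max_left _ _
  have h2 := cent_le_laplace hP x (fun ω => (nu ω, g ω)) A (fun _ _ => 1) fun _ _ => le_rfl
  have h3 := cent_le_add hP nu y g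
  rw [hdet, add_zero] at h3
  refine (cent_le_add hP x nu g).trans
    ((add_le_add (h3.trans h1) h2).trans ?_)
  simp only [ev, mul_sum (a := log 2)]
  rw [← sum_add_distrib, show (d : ℝ) * (log η⁻¹ + 14) = ∑ ω, P ω * (d * (log η⁻¹ + 14)) by
    rw [← sum_mul, hP.sum_one, one_mul], ← sum_add_distrib, ← sum_sub_distrib]
  refine sum_le_sum fun ω _ => ?_
  rcases eq_or_ne (P ω) 0 with e | e
  · simp [e]
  rw [← mul_add, show P ω * (↑d * (log η⁻¹ + 14)) + P ω * ‖vec η (x ω)‖ ^ 2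
      - log 2 * (P ω * ∑ i, (K ω i : ℝ))
      = P ω * (↑d * (log η⁻¹ + 14) + ‖vec η (x ω)‖ ^ 2 - log 2 * ∑ i, (K ω i : ℝ)) by ring]
  refine mul_le_mul_of_nonneg_left ?_ (hP.nonneg ω)
  set bb := basisOf (f ω) with hbb
  set X := vec η (x ω) with hX
  have hnu : ∀ j, |⟪bb j, X⟫_ℝ - η * nu ω j| ≤ η := by
    intro j
    have := mul_le_mul_of_nonneg_left (abs_sub_floor_le (⟪bb j, X⟫_ℝ / η)) hη.le
    rw [mul_one, ← abs_of_pos hη, ← abs_mul, abs_of_pos hη, mul_sub,
      mul_div_cancel₀ _ hη.ne'] at this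
    exact this
  -- one coordinate
  have hcoord : ∀ i, |(y ω i : ℝ) - 0| / R (g ω) i + log (R (g ω) i) + 3
      ≤ |⟪bb i, X⟫_ℝ| + (log η⁻¹ + 8) - log 2 * K ω i := by
    intro i
    rw [hR, sub_zero, div_inv_eq_mul, log_inv, log_mul hη.ne' (by positivity), log_pow, log_inv]
    suffices |(y ω i : ℝ)| * (η * 2 ^ K ω i) ≤ |⟪bb i, X⟫_ℝ| + 5 by linarith
    rcases Nat.eq_zero_or_pos (K ω i) with h | h
    · simp only [y, h, lt_irrefl, if_false, pow_zero, mul_one]
      have h4 := abs_sub_abs_le_abs_sub (η * nu ω i : ℝ) ⟪bb i, X⟫_ℝ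
      rw [abs_sub_comm] at h4
      rw [abs_mul, abs_of_pos hη] at h4
      have := hnu i
      linarith [mul_comm η |(nu ω i : ℝ)|]
    simp only [y, if_pos h]
    set D := res (f ω) i with hD
    have hD' := hres ω i e h
    have hD0 : 0 < D := lt_of_lt_of_le (by positivity) hD'
    have hgs : gramSchmidtNormed ℝ (f ω) i ≠ 0 := by
      simp only [gramSchmidtNormed, ne_eq, smul_eq_zero, inv_eq_zero, not_or]
      have : gramSchmidt ℝ (f ω) i ≠ 0 := norm_ne_zero_iff.1 hD0.ne'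
      exact ⟨by simpa using this, this⟩
    have hii : ⟪bb i, f ω i⟫_ℝ = D := by
      rw [hbb, basisOf, gramSchmidtOrthonormalBasis_apply _ hgs, gramSchmidtNormed]
      simp only [RCLike.ofReal_real_eq_id, id_eq, real_inner_smul_left]
      have h5 := gramSchmidt_def'' ℝ (f ω) i
      conv_lhs => rw [h5]
      rw [inner_add_right, inner_sum]
      rw [sum_eq_zero fun j hj => by
        rw [real_inner_smul_right, gramSchmidt_orthogonal ℝ (f ω) (mem_Iio.1 hj).ne', mul_zero],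
        add_zero, real_inner_self_eq_norm_sq]
      rw [hD, res]
      field_simp
    have hexp : ⟪X, f ω i⟫_ℝ
        = ⟪bb i, X⟫_ℝ * D + ∑ j ∈ Iio i, ⟪bb j, X⟫_ℝ * ⟪bb j, f ω i⟫_ℝ := by
      rw [← bb.sum_inner_mul_inner X (f ω i)]
      rw [← sum_subset (subset_univ (insert i (Iio i))) (fun j _ hj => ?_), sum_insert (by simp),
        hii]
      · simp only [real_inner_comm X]
      · simp only [mem_insert, mem_Iio, not_or, not_lt] at hj
        rw [hbb, basisOf, gramSchmidtOrthonormalBasis_inv_triangular _ _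
          (lt_of_le_of_ne hj.2 (Ne.symm hj.1)), mul_zero]
    have hsum : ∑ j ∈ Iio i, |⟪bb j, f ω i⟫_ℝ| ≤ 2 * d := by
      refine (sum_le_sum_of_subset_of_nonneg (subset_univ _) fun _ _ _ => abs_nonneg _).trans ?_
      refine (sum_abs_le_of_sq univ _ (norm_nonneg (f ω i)) ?_).trans ?_
      · rw [← bb.sum_sq_norm_inner_right (f ω i)]
        simp [Real.norm_eq_abs, sq_abs]
      · rw [card_univ, Fintype.card_fin]
        have h6 : √(d : ℝ) ≤ d := by
          rcases Nat.eq_zero_or_pos d with h0 | h0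
          · simp [h0]
          · exact (sqrt_le_left (by positivity)).2
              (le_self_pow₀ (by exact_mod_cast h0) two_ne_zero)
        calc √(d : ℝ) * ‖f ω i‖ ≤ d * 2 :=
              mul_le_mul h6 (hnorm ω i e) (norm_nonneg _) (by positivity)
          _ = 2 * d := mul_comm _ _
    -- the error of the prediction
    have herr : |η * nu ω i - η * pred (f ω) (nu ω) i| * D ≤ 2 * ((2 : ℝ) ^ L₀)⁻¹ + η * D := by
      have e4 : (η * nu ω i - η * pred (f ω) (nu ω) i) * D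
          = ⟪X, f ω i⟫_ℝ + (η * nu ω i - ⟪bb i, X⟫_ℝ) * D
            + ∑ j ∈ Iio i, (η * nu ω j - ⟪bb j, X⟫_ℝ) * ⟪bb j, f ω i⟫_ℝ := by
        rw [hexp]
        simp only [pred, sub_mul, sum_sub_distrib, mul_assoc, ← mul_sum, ← hbb, ← hD]
        rw [div_mul_cancel₀ _ hD0.ne']
        simp only [mul_comm (nu ω _ : ℝ)]
        ring
      rw [← abs_of_pos hD0, ← abs_mul, e4, abs_of_pos hD0]
      have a1 := hcons ω i e h
      have a2 : |(η * nu ω i - ⟪bb i, X⟫_ℝ) * D| ≤ η * D := by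
        rw [abs_mul, abs_of_pos hD0, abs_sub_comm]
        exact mul_le_mul_of_nonneg_right (hnu i) hD0.le
      have a3 : |∑ j ∈ Iio i, (η * nu ω j - ⟪bb j, X⟫_ℝ) * ⟪bb j, f ω i⟫_ℝ|
          ≤ ((2 : ℝ) ^ L₀)⁻¹ := by
        refine (abs_sum_le_sum_abs _ _).trans ?_
        refine (sum_le_sum (g := fun j => η * |⟪bb j, f ω i⟫_ℝ|) fun j _ => ?_).trans ?_
        · rw [abs_mul, abs_sub_comm]
          exact mul_le_mul_of_nonneg_right (hnu j) (abs_nonneg _)
        · rw [← mul_sum]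
          refine (mul_le_mul_of_nonneg_left hsum hη.le).trans ?_
          rw [← one_div, le_div_iff₀ (by positivity)]
          linarith
      have := abs_add_three ⟪X, f ω i⟫_ℝ ((η * nu ω i - ⟪bb i, X⟫_ℝ) * D)
        (∑ j ∈ Iio i, (η * nu ω j - ⟪bb j, X⟫_ℝ) * ⟪bb j, f ω i⟫_ℝ)
      linarith
    have hy : |((nu ω i - ⌊pred (f ω) (nu ω) i⌋ : ℤ) : ℝ)|
        ≤ |(nu ω i : ℝ) - pred (f ω) (nu ω) i| + 1 := by
      push_cast
      exact (abs_sub_le _ (pred (f ω) (nu ω) i) _).trans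
        (add_le_add le_rfl (abs_sub_floor_le _))
    rw [← mul_sub, abs_mul, abs_of_pos hη] at herr
    have h2k : η * 2 ^ K ω i ≤ 1 := hK ω i
    have hk : (0 : ℝ) < 2 ^ K ω i := by positivity
    have h7 : η * |(nu ω i : ℝ) - pred (f ω) (nu ω) i| * 2 ^ K ω i ≤ 3 := by
      rw [div_le_iff₀ (by positivity)] at hD'
      have hL : (0 : ℝ) < 2 ^ L₀ := by positivity
      have h8 : η * |(nu ω i : ℝ) - pred (f ω) (nu ω) i| * D * 2 ^ K ω i
          ≤ (2 * ((2 : ℝ) ^ L₀)⁻¹ + η * D) * 2 ^ K ω i :=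
        mul_le_mul_of_nonneg_right herr hk.le
      refine le_of_mul_le_mul_right ?_ hD0
      calc η * |(nu ω i : ℝ) - pred (f ω) (nu ω) i| * 2 ^ K ω i * D
          ≤ 2 * (2 ^ K ω i * ((2 : ℝ) ^ L₀)⁻¹) + (η * 2 ^ K ω i) * D := by linarith
        _ ≤ 2 * D + 1 * D := by
            refine add_le_add (mul_le_mul_of_nonneg_left ?_ (by norm_num))
              (mul_le_mul_of_nonneg_right h2k hD0.le)
            rw [← div_eq_mul_inv, div_le_iff₀ hL]
            exact hD'
        _ = 3 * D := by ring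
    have hb := abs_nonneg ⟪bb i, X⟫_ℝ
    have := mul_le_mul_of_nonneg_right hy (by positivity : (0 : ℝ) ≤ η * 2 ^ K ω i)
    linarith
  -- the remainder
  have hrest : ∑ l, (|(x ω l : ℝ) - A (nu ω, g ω) l| / (1 : ℝ) + log 1 + 3) ≤ 4 * d := by
    simp only [div_one, log_one, add_zero, sum_add_distrib, sum_const, card_univ,
      Fintype.card_fin, nsmul_eq_mul]
    set v := ∑ j, (η * (nu ω j : ℝ)) • bb j with hv
    have e1 : ∀ l, |(x ω l : ℝ) - A (nu ω, g ω) l| = |(X - v) l| / η := by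
      intro l
      show |(x ω l : ℝ) - v l / η| = _
      rw [PiLp.sub_apply, hX, vec_apply, ← abs_of_pos hη, ← abs_div, abs_of_pos hη, sub_div,
        mul_div_cancel_left₀ _ hη.ne']
    simp only [e1, ← sum_div]
    have e2 : X - v = ∑ j, (⟪bb j, X⟫_ℝ - η * nu ω j) • bb j := by
      simp only [hv, sub_smul, sum_sub_distrib, bb.sum_repr']
    have hn : ‖X - v‖ ≤ √d * η := by
      rw [e2]
      refine le_of_pow_le_pow_left₀ two_ne_zero (by positivity) ?_
      rw [norm_sum_basis, mul_pow, sq_sqrt (Nat.cast_nonneg d)]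
      refine (sum_le_sum fun j _ => ?_).trans_eq (b := ∑ _j : Fin d, η ^ 2) (by simp)
      rw [sq_le_sq, abs_of_pos hη]
      exact hnu j
    have h4 := (sum_abs_le (X - v)).trans (mul_le_mul_of_nonneg_left hn (sqrt_nonneg _))
    rw [← mul_assoc, mul_self_sqrt (Nat.cast_nonneg d)] at h4
    have : (∑ l, |(X - v) l|) / η ≤ d := (div_le_iff₀ hη).2 h4
    linarith
  have hX2 : ∑ i, |⟪bb i, X⟫_ℝ| ≤ ‖X‖ ^ 2 + d := by
    calc ∑ i, |⟪bb i, X⟫_ℝ| ≤ ∑ i, (⟪bb i, X⟫_ℝ ^ 2 + 1) :=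
          sum_le_sum fun i _ => by
            have hs := sq_abs (⟪bb i, X⟫_ℝ)
            have := sq_nonneg (|⟪bb i, X⟫_ℝ| - 1)
            have := abs_nonneg (⟪bb i, X⟫_ℝ)
            nlinarith
      _ = ‖X‖ ^ 2 + d := by
          rw [sum_add_distrib, ← bb.sum_sq_norm_inner_right X]
          simp [Real.norm_eq_abs, sq_abs]
  have hc := sum_le_sum (s := univ) fun i _ => hcoord i
  simp only [sum_sub_distrib, sum_add_distrib, sum_const, card_univ, Fintype.card_fin,
    nsmul_eq_mul, ← mul_sum] at hc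
  simp only [sum_add_distrib, sum_const, card_univ, Fintype.card_fin, nsmul_eq_mul] at hrest ⊢
  linarith

end Vale.Agent.P309
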