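import Vale.Agent.P309.Replica
import Vale.Agent.P309.Span
import Vale.Agent.P309.Pot

/-!
The total correlation of replicas that share rows and labels.
-/

namespace Vale.Agent.P309

open Finset Real
open scoped InnerProductSpace

variable {d k p : ℕ} {S Z : Finset (Fin d → ℤ)} {C : Type} [Fintype C]

/-- the differences from the first replica, padded with zeros -/
noncomputable def fam (L : ℕ) (i₀ : Fin p) (zs : Fin p → Z) :
    Fin d → EuclideanSpace ℝ (Fin d) := fun j =>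
  if h : (j : ℕ) < p then vec (mesh d L) (zs ⟨j, h⟩).1 - vec (mesh d L) (zs i₀).1 else 0

open Classical in
/-- the number of levels below `s` that a replica stays next to the span of the earlier ones -/
noncomputable def depth (L s : ℕ) (D : ℝ) : ℕ :=
  Nat.find (⟨L - s, Or.inl rfl⟩ : ∃ m, m = L - s ∨ 1 / 2 ^ (s + m + 1) ≤ D)

theorem depth_le (L s : ℕ) (D : ℝ) : depth L s D ≤ L - s := by
  classical
  exact Nat.find_min' _ (Or.inl rfl)

theorem le_of_depth_lt {L s : ℕ} {D : ℝ} (h : depth L s D < L - s) :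
    1 / 2 ^ (s + depth L s D + 1) ≤ D := by
  classical
  exact (Nat.find_spec (p := fun m => m = L - s ∨ 1 / 2 ^ (s + m + 1) ≤ D) _).resolve_left h.ne

theorem le_depth {L s : ℕ} {D : ℝ} (h : D ≤ 2 / 2 ^ s) :
    D ≤ 2 / 2 ^ (s + depth L s D) := by
  classical
  cases hb : depth L s D with
  | zero => simpa using h
  | succ m =>
    have hm : ¬(m = L - s ∨ 1 / 2 ^ (s + m + 1) ≤ D) :=
      Nat.find_min _ (show m < depth L s D by omega)
    push Not at hm
    refine hm.2.le.trans ?_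
    rw [show s + (m + 1) = s + m + 1 by ring]
    exact div_le_div_of_nonneg_right (by norm_num) (by positivity)

theorem res_le_norm (f : Fin d → EuclideanSpace ℝ (Fin d)) (i : Fin d) : res f i ≤ ‖f i‖ := by
  open InnerProductSpace in
  have h := gramSchmidt_def'' ℝ f i
  set r := gramSchmidt ℝ f i
  set t := ∑ j ∈ Iio i, (⟪gramSchmidt ℝ f j, f i⟫_ℝ / (‖gramSchmidt ℝ f j‖ : ℝ) ^ 2) •
    gramSchmidt ℝ f j
  have e : f i = r + t := h
  have o : ⟪r, t⟫_ℝ = 0 := by
    simp only [t, r, inner_sum]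
    exact sum_eq_zero fun j hj => by
      rw [real_inner_smul_right, gramSchmidt_orthogonal ℝ f (mem_Iio.1 hj).ne', mul_zero]
  have h2 := norm_add_sq_real r t
  rw [o, ← e] at h2
  refine le_of_pow_le_pow_left₀ two_ne_zero (norm_nonneg _) ?_
  show ‖r‖ ^ 2 ≤ _
  nlinarith [sq_nonneg ‖t‖]

theorem ev_iid_row {A : Type*} [Fintype A] {μ : A → ℝ} {ρ : S → ℝ} (hμ : IsPmf μ) (hρ : IsPmf ρ)
    (r : Fin k) (g : S → ℝ) : ev (fun o : A × (Fin k → S) => μ o.1 * iid ρ k o.2)
      (fun o => g (o.2 r)) = ev ρ g := by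
  have h := ev_iid hρ r g
  simp only [ev] at h ⊢
  rw [Fintype.sum_prod_type]
  simp only [mul_assoc, ← mul_sum, h, ← sum_mul, hμ.sum_one, one_mul]

variable {η : ℝ} {L L₀ : ℕ} {μ : C × Z → ℝ} {ρ : S → ℝ} (sg : C → ℕ)
  (ctr : C → EuclideanSpace ℝ (Fin d))

/-- the labels of a block -/
noncomputable def labs (η : ℝ) (L L₀ : ℕ) (x : Fin k → S) (z : Z) : Fin k → ℤ :=
  fun r => lab η L L₀ (x r).1 z.1

/-- given the rows, a label costs the levels below the known one -/
theorem cent_label_le (hμ : IsPmf μ) (hrows : RowHyp η S ρ)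
    (hctr : ∀ c z, μ (c, z) ≠ 0 → ‖vec (mesh d L) z.1 - ctr c‖ ≤ 1 / 2 ^ sg c) :
    cent (joint μ (iid ρ k)) (fun o => labs η L L₀ o.2 o.1.2) (fun o => (o.2, o.1.1))
      ≤ k * (6 + log 2 * ev μ (fun o => ((L₀ - sg o.1 : ℕ) : ℝ))) := by
  classical
  have hρk := iid_isPmf hrows.pmf k
  have hJ := joint_isPmf hμ hρk
  let a : (Fin k → S) × C → Fin k → ℝ := fun q r => 2 ^ L₀ * ⟪vec η (q.1 r).1, ctr q.2⟫_ℝ
  let R : (Fin k → S) × C → Fin k → ℝ := fun q _ => 2 ^ (L₀ - sg q.2)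
  have h := cent_le_laplace hJ (fun o => labs η L L₀ o.2 o.1.2) (fun o => (o.2, o.1.1)) a R
    fun q r => one_le_pow₀ (by norm_num)
  refine h.trans ?_
  let t : (C × Z) × (Fin k → S) → Fin k → ℝ :=
    fun o r => ⟪vec η (o.2 r).1, (2 : ℝ) ^ sg o.1.1 • (vec (mesh d L) o.1.2.1 - ctr o.1.1)⟫_ℝ
  calc ∑ o, joint μ (iid ρ k) o * ∑ r, (|(labs η L L₀ o.2 o.1.2 r : ℝ) - a (o.2, o.1.1) r|
          / R (o.2, o.1.1) r + log (R (o.2, o.1.1) r) + 3)
      ≤ ∑ o, joint μ (iid ρ k) o *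
          ∑ r, (t o r ^ 2 + (6 + log 2 * ((L₀ - sg o.1.1 : ℕ) : ℝ)) - 1) := by
        refine sum_le_sum fun o _ => mul_le_mul_of_nonneg_left (sum_le_sum fun r _ => ?_)
          (hJ.nonneg o)
        simp only [R, log_pow, a, labs, lab]
        set s := ⟪vec η (o.2 r).1, vec (mesh d L) o.1.2.1⟫_ℝ with hs
        set c := ⟪vec η (o.2 r).1, ctr o.1.1⟫_ℝ with hc
        have ht : t o r = 2 ^ sg o.1.1 * (s - c) := by
          simp only [t, real_inner_smul_right, inner_sub_right, hs, hc]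
        have h1 : |(⌊(2 : ℝ) ^ L₀ * s⌋ : ℝ) - 2 ^ L₀ * c| ≤ 2 ^ L₀ * |s - c| + 1 := by
          refine (abs_sub_le _ ((2 : ℝ) ^ L₀ * s) _).trans ?_
          rw [← mul_sub, abs_mul, abs_of_pos (show (0 : ℝ) < 2 ^ L₀ by positivity), abs_sub_comm]
          linarith [abs_sub_floor_le ((2 : ℝ) ^ L₀ * s)]
        have h2 : (2 : ℝ) ^ L₀ ≤ 2 ^ sg o.1.1 * 2 ^ (L₀ - sg o.1.1) := by
          rw [← pow_add]; exact pow_le_pow_right₀ (by norm_num) (by omega)
        have h3 : |(⌊(2 : ℝ) ^ L₀ * s⌋ : ℝ) - 2 ^ L₀ * c| / 2 ^ (L₀ - sg o.1.1)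
            ≤ |t o r| + 1 := by
          rw [div_le_iff₀ (by positivity)]
          refine h1.trans ?_
          rw [ht, abs_mul, abs_of_pos (show (0 : ℝ) < 2 ^ sg o.1.1 by positivity)]
          have h4 : (1 : ℝ) ≤ 2 ^ (L₀ - sg o.1.1) := one_le_pow₀ (by norm_num)
          have h5 := mul_le_mul_of_nonneg_right h2 (abs_nonneg (s - c))
          linarith
        have := sq_nonneg (|t o r| - 1)
        have := sq_abs (t o r)
        nlinarith [abs_nonneg (t o r)]
    _ ≤ k * (6 + log 2 * ev μ (fun o => ((L₀ - sg o.1 : ℕ) : ℝ))) := by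
        have e1 : ∀ r : Fin k, ∑ o, joint μ (iid ρ k) o * t o r ^ 2 ≤ 1 := by
          intro r
          rw [Fintype.sum_prod_type]
          calc ∑ q, ∑ x, joint μ (iid ρ k) (q, x) * t (q, x) r ^ 2 ≤ ∑ q, μ q * 1 := by
                refine sum_le_sum fun q _ => ?_
                simp only [joint, mul_assoc, ← mul_sum]
                rcases eq_or_ne (μ q) 0 with e | e
                · simp [e]
                refine mul_le_mul_of_nonneg_left ?_ (hμ.nonneg q)
                have h := ev_iid (k := k) hrows.pmf r fun a : S =>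
                  ⟪vec η a.1, (2 : ℝ) ^ sg q.1 • (vec (mesh d L) q.2.1 - ctr q.1)⟫_ℝ ^ 2
                refine h.trans_le ((hrows.sq _).trans ?_)
                rw [norm_smul, norm_pow, Real.norm_two, mul_pow, ← mul_pow]
                refine pow_le_one₀ (by positivity) ?_
                have h6 := hctr q.1 q.2 e
                rw [le_div_iff₀ (by positivity)] at h6
                linarith [mul_comm ‖vec (mesh d L) q.2.1 - ctr q.1‖ ((2 : ℝ) ^ sg q.1)]
            _ = 1 := by simp [hμ.sum_one]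
        have e2 := ev_joint_fst (μ := μ) hρk fun q => ((L₀ - sg q.1 : ℕ) : ℝ)
        have e3 := hJ.sum_one
        simp only [ev] at e2
        have e4 : ∀ o, joint μ (iid ρ k) o *
            ∑ r : Fin k, (t o r ^ 2 + (6 + log 2 * ((L₀ - sg o.1.1 : ℕ) : ℝ)) - 1)
            = ∑ r : Fin k, joint μ (iid ρ k) o * t o r ^ 2
              + (k : ℝ) * (5 * joint μ (iid ρ k) o
                + log 2 * (joint μ (iid ρ k) o * ((L₀ - sg o.1.1 : ℕ) : ℝ))) := by
          intro o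
          simp only [sum_sub_distrib, sum_add_distrib, sum_const, card_univ, Fintype.card_fin,
            nsmul_eq_mul, mul_add, mul_sub, mul_sum]
          ring
        rw [sum_congr rfl fun o _ => e4 o, sum_add_distrib, sum_comm, ← mul_sum, sum_add_distrib,
          ← mul_sum, ← mul_sum, e2, e3]
        simp only [ev]
        have := sum_le_sum (s := (univ : Finset (Fin k))) fun r _ => e1 r
        simp only [sum_const, card_univ, Fintype.card_fin, nsmul_eq_mul] at this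
        nlinarith

variable (L) in
/-- the depth of a replica -/
noncomputable def dep (i₀ : Fin p) (hpd : p ≤ d) (o : C × (Fin k → S) × (Fin p → Z))
    (i : Fin p) : ℕ :=
  depth L (sg o.1) (res (fam L i₀ o.2.2) (Fin.castLE hpd i))

theorem fam_apply (hpd : p ≤ d) (i₀ : Fin p) (zs : Fin p → Z) (i : Fin p) :
    fam L i₀ zs (Fin.castLE hpd i) = vec (mesh d L) (zs i).1 - vec (mesh d L) (zs i₀).1 := by
  simp [fam]

theorem supp_repl {U : Type*} {Y : (Fin k → S) → Z → U} {ρk : (Fin k → S) → ℝ}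
    {o : C × (Fin k → S) × (Fin p → Z)} (h : repl Y μ ρk p o ≠ 0) (i : Fin p) :
    μ (o.1, o.2.2 i) ≠ 0 := by
  classical
  intro e
  refine h (sum_eq_zero fun y _ => ?_)
  rw [prod_eq_zero (mem_univ i) (by rw [post, e]; simp), mul_zero]

theorem norm_fam_le (hctr : ∀ c z, μ (c, z) ≠ 0 → ‖vec (mesh d L) z.1 - ctr c‖ ≤ 1 / 2 ^ sg c)
    {U : Type*} {Y : (Fin k → S) → Z → U} {ρk : (Fin k → S) → ℝ} (i₀ : Fin p)
    {o : C × (Fin k → S) × (Fin p → Z)} (h : repl Y μ ρk p o ≠ 0) (j : Fin d) :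
    ‖fam L i₀ o.2.2 j‖ ≤ 2 / 2 ^ sg o.1 := by
  unfold fam
  split_ifs with hj
  · have a1 := hctr _ _ (supp_repl h ⟨j, hj⟩)
    have a2 := hctr _ _ (supp_repl h i₀)
    rw [norm_sub_rev] at a2
    refine (norm_sub_le_norm_sub_add_norm_sub _ (ctr o.1) _).trans ?_
    have : (2 : ℝ) / 2 ^ sg o.1 = 1 / 2 ^ sg o.1 + 1 / 2 ^ sg o.1 := by ring
    linarith
  · rw [norm_zero]; positivity

/-- the rows given all replicas -/
theorem cent_rows_le (hμ : IsPmf μ) (hrows : RowHyp η S ρ) (hη : 0 < η)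
    (hηle : η * (2 ^ L₀ * (2 * d)) ≤ 1) (hd : 0 < d) (hL₀ : L₀ ≤ L)
    (hctr : ∀ c z, μ (c, z) ≠ 0 → ‖vec (mesh d L) z.1 - ctr c‖ ≤ 1 / 2 ^ sg c)
    (hpd : p ≤ d) (i₀ : Fin p) :
    cent (repl (labs η L L₀) μ (iid ρ k) p) (fun o => o.2.1) (fun o => (o.2.2, o.1))
      ≤ k * (d * (log η⁻¹ + 15) - log 2 * ev (repl (labs η L L₀) μ (iid ρ k) p)
          (fun o => ∑ i ∈ univ.erase i₀, ((L₀ - (sg o.1 + dep L sg i₀ hpd o i + 1) : ℕ) : ℝ))) := by
  classical
  have hρk := iid_isPmf hrows.pmf k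
  have hR := repl_isPmf (Y := labs η L L₀) hμ hρk i₀
  set P := repl (labs (Z := Z) η L L₀) μ (iid ρ k) p with hP
  let K : C × (Fin k → S) × (Fin p → Z) → Fin d → ℕ := fun o j =>
    if h : (j : ℕ) < p then
      if (⟨j, h⟩ : Fin p) = i₀ then 0 else L₀ - (sg o.1 + dep L sg i₀ hpd o ⟨j, h⟩ + 1)
    else 0
  have hd1 : (1 : ℝ) ≤ d := by exact_mod_cast hd
  have hη1 : η ≤ 1 := by
    have : (1 : ℝ) ≤ 2 ^ L₀ := one_le_pow₀ (by norm_num)
    have h2 : (1 : ℝ) ≤ 2 ^ L₀ * (2 * d) := by nlinarith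
    nlinarith [mul_le_mul_of_nonneg_left h2 hη.le]
  have hrow : ∀ r : Fin k, cent P (fun o => o.2.1 r) (fun o => (o.2.2, o.1))
      ≤ d * (log η⁻¹ + 15) - log 2 * ev P (fun o => ∑ j, (K o j : ℝ)) := by
    intro r
    have e1 : cent P (fun o => o.2.1 r) (fun o => (o.2.2, o.1))
        = cent P (fun o => (o.2.1 r).1) (fun o => (o.2.2, o.1)) :=
      cent_congr (fun x y => and_congr_left' Subtype.ext_iff) fun _ _ => Iff.rfl
    rw [e1]
    refine (cent_le_of_imp hR _ (g := fun o => (fam L i₀ o.2.2, K o)) fun x y e => ?_).trans ?_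
    · simp only [Prod.mk.injEq] at e ⊢
      refine ⟨by rw [e.1], funext fun j => ?_⟩
      simp only [K, dep, e.1, e.2]
    refine (cent_row_span hR hη hη1 L₀ hηle (fun o => (o.2.1 r).1) (fun o => fam L i₀ o.2.2) K
      (fun o j => ?_) (fun o j h => ?_) (fun o j h hK => ?_) fun o j h hK => ?_).trans ?_
    · have hK : K o j ≤ L₀ := by simp only [K]; split_ifs <;> omega
      have h1 : (2 : ℝ) ^ K o j ≤ 2 ^ L₀ := pow_le_pow_right₀ (by norm_num) hK
      nlinarith [mul_le_mul_of_nonneg_left h1 hη.le,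
        show (1 : ℝ) ≤ 2 * d by linarith, show (0 : ℝ) < 2 ^ L₀ by positivity]
    · refine (norm_fam_le sg ctr hctr i₀ h j).trans (div_le_self zero_le_two ?_)
      exact one_le_pow₀ (by norm_num)
    · simp only [K] at hK ⊢
      split_ifs at hK ⊢ with hj hi
      · omega
      · set B := dep L sg i₀ hpd o ⟨j, hj⟩ with hB
        have hlt : depth L (sg o.1) (res (fam L i₀ o.2.2) (Fin.castLE hpd ⟨j, hj⟩))
            < L - sg o.1 := by
          have : dep L sg i₀ hpd o ⟨j, hj⟩ = B := rfl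
          simp only [dep] at this
          omega
        have h2 := le_of_depth_lt hlt
        rw [show Fin.castLE hpd ⟨j, hj⟩ = j from rfl] at h2
        refine le_trans (le_of_eq ?_) h2
        show (2 : ℝ) ^ (L₀ - (sg o.1 + B + 1)) / 2 ^ L₀ = 1 / 2 ^ (sg o.1 + B + 1)
        rw [div_eq_div_iff (by positivity) (by positivity), one_mul, ← pow_add]
        congr 1
        omega
      · omega
    · simp only [K] at hK
      unfold fam
      split_ifs at hK ⊢ with hj hi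
      · omega
      · have he : lab η L L₀ (o.2.1 r).1 (o.2.2 ⟨j, hj⟩).1 = lab η L L₀ (o.2.1 r).1 (o.2.2 i₀).1 :=
          congrFun (label_eq h ⟨j, hj⟩ i₀) r
        simp only [lab] at he
        rw [inner_sub_right]
        have hpos : (0 : ℝ) < 2 ^ L₀ := by positivity
        have h3 := Int.abs_sub_lt_one_of_floor_eq_floor he
        rw [← mul_sub, abs_mul, abs_of_pos hpos] at h3
        rw [← one_div, le_div_iff₀ hpos]
        linarith
      · omega
    · have h4 : ev P (fun o => ‖vec η (o.2.1 r).1‖ ^ 2) ≤ d := by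
        rw [hP, ev_repl (Y := labs η L L₀) hμ hρk i₀ (fun o => ‖vec η (o.2 r).1‖ ^ 2)]
        exact (ev_iid_row hμ hrows.pmf r fun a => ‖vec η a.1‖ ^ 2).trans_le hrows.norm_sq
      linarith
  have hK : ∀ o, ∑ j, (K o j : ℝ)
      = ∑ i ∈ univ.erase i₀, ((L₀ - (sg o.1 + dep L sg i₀ hpd o i + 1) : ℕ) : ℝ) := by
    intro o
    symm
    refine sum_of_injOn (Fin.castLE hpd) (fun a _ b _ h => Fin.castLE_injective hpd h)
      (fun _ _ => mem_coe.2 (mem_univ _)) (fun j _ hj => ?_) fun i hi => ?_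
    · simp only [K]
      split_ifs with h1 h2
      · simp
      · exact absurd ⟨⟨j, h1⟩, mem_coe.2 (mem_erase.2 ⟨h2, mem_univ _⟩), rfl⟩ hj
      · simp
    · simp [K, (mem_erase.1 hi).1]
  refine (cent_pi_le hR (fun r o => o.2.1 r) fun o => (o.2.2, o.1)).trans
    ((sum_le_sum fun r _ => hrow r).trans (le_of_eq ?_))
  simp only [hK, sum_const, card_univ, Fintype.card_fin, nsmul_eq_mul]

/-- the cell at a random depth is cheap unless the earlier variables are informative -/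
theorem cent_depth_split {Ω α β γ δ : Type*} [Fintype Ω] {P : Ω → ℝ} (hP : IsPmf P) (z : Ω → α)
    (c : Ω → β) (B : Ω → ℕ) (Q : Ω → γ) (pref : Ω → δ)
    (hQ : ∀ x y, z x = z y → c x = c y → B x = B y → Q x = Q y) :
    cent P z c ≤ 2 * log 2 * (ev P (fun ω => (B ω : ℝ)) + 1)
      + cent P Q (fun ω => (B ω, pref ω, c ω))
      + (cent P z c - cent P z (fun ω => (pref ω, c ω)))
      + cent P z (fun ω => (Q ω, (B ω, c ω))) := by
  have hB := cent_nat_le hP B c
  have hB2 := cent_nat_le hP B fun ω => (pref ω, c ω)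
  have h1 := cent_le_add hP z B c
  have e2 : cent P (fun ω => (z ω, Q ω)) (fun ω => (B ω, c ω)) = cent P z (fun ω => (B ω, c ω)) :=
    cent_congr (fun x y => by
      simp only [Prod.mk.injEq]
      exact ⟨fun h => ⟨h.1.1, h.2⟩, fun h => ⟨⟨h.1, hQ x y h.1 h.2.2 h.2.1⟩, h.2⟩⟩)
      fun _ _ => Iff.rfl
  have e3 : cent P (fun ω => (z ω, Q ω)) (fun ω => (B ω, pref ω, c ω))
      = cent P z (fun ω => (B ω, pref ω, c ω)) :=
    cent_congr (fun x y => by
      simp only [Prod.mk.injEq]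
      exact ⟨fun h => ⟨h.1.1, h.2⟩, fun h => ⟨⟨h.1, hQ x y h.1 h.2.2.2 h.2.1⟩, h.2⟩⟩)
      fun _ _ => Iff.rfl
  rw [cent_chain] at e2 e3
  have h5 : cent P z (fun ω => (Q ω, (B ω, pref ω, c ω))) ≤ cent P z (fun ω => (Q ω, (B ω, c ω))) :=
    cent_le_of_imp hP z fun x y e => by
      simp only [Prod.mk.injEq] at e ⊢
      exact ⟨e.1, e.2.1, e.2.2.2⟩
  have h6 : cent P z (fun ω => (pref ω, c ω))
      ≤ cent P B (fun ω => (pref ω, c ω)) + cent P z (fun ω => (B ω, pref ω, c ω)) :=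
    cent_le_add hP z B fun ω => (pref ω, c ω)
  have h7 : cent P z (fun ω => (B ω, c ω)) ≤ cent P z c :=
    cent_le_of_imp hP z fun x y e => congrArg Prod.snd e
  linarith

/-- staying next to the span of the earlier replicas costs correlation, when the cut is optimal -/
theorem depth_cost (hμ : IsPmf μ) {ρk : (Fin k → S) → ℝ} (hρk : IsPmf ρk) {U : Type}
    (Y : (Fin k → S) → Z → U) (hd : 0 < d) (hsg : ∀ c, sg c ≤ L) (hpd : p ≤ d) (i₀ : Fin p)
    (hi₀ : (i₀ : ℕ) = 0)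
    (hctr : ∀ c z, μ (c, z) ≠ 0 → ‖vec (mesh d L) z.1 - ctr c‖ ≤ 1 / 2 ^ sg c)
    {W : Type} (st : C → W) {a : ℝ} {i : Fin p} (hi : i ≠ i₀)
    (hopt : cent (repl Y μ ρk p) (fun o => o.2.2 i) (fun o => (st o.1, sg o.1 + dep L sg i₀ hpd o i,
        cell L (sg o.1 + dep L sg i₀ hpd o i) (o.2.2 i).1))
      + a * ev (repl Y μ ρk p) (fun o => (dep L sg i₀ hpd o i : ℝ))
      ≤ cent (joint μ ρk) (fun o => o.1.2) (fun o => o.1.1) + 1) :
    (a - 2 * log 2 - p * log 2) * ev (repl Y μ ρk p) (fun o => (dep L sg i₀ hpd o i : ℝ))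
      ≤ cent (joint μ ρk) (fun o => o.1.2) (fun o => o.1.1)
        - cent (repl Y μ ρk p) (fun o => o.2.2 i)
          (fun o => ((fun j => if j < i then some (o.2.2 j) else none), o.1)) + 16 * d + 1 := by
  classical
  have hR := repl_isPmf (Y := Y) hμ hρk i₀
  set P := repl Y μ ρk p with hP
  let B : C × (Fin k → S) × (Fin p → Z) → ℕ := fun o => dep L sg i₀ hpd o i
  let Q : C × (Fin k → S) × (Fin p → Z) → Fin d → ℤ :=
    fun o => cell L (sg o.1 + B o) (o.2.2 i).1
  let pref : C × (Fin k → S) × (Fin p → Z) → Fin p → Option Z :=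
    fun o j => if j < i then some (o.2.2 j) else none
  let z : C × (Fin k → S) × (Fin p → Z) → Z := fun o => o.2.2 i
  have hc : cent P z (fun o => o.1) = cent (joint μ ρk) (fun o => o.1.2) (fun o => o.1.1) :=
    cent_repl hμ hρk i (fun o => o.1.2) (fun o => o.1.1)
  have hsplit := cent_depth_split hR z (fun o => o.1) B Q pref fun x y e1 e2 e3 => by
    show cell L (sg x.1 + B x) (z x).1 = cell L (sg y.1 + B y) (z y).1
    rw [e1, e2, e3]
  have h4 : cent P z (fun o => (Q o, (B o, o.1)))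
      ≤ cent P z (fun o => (st o.1, sg o.1 + B o, Q o)) :=
    cent_le_of_imp hR z fun x y e => by
      simp only [Prod.mk.injEq] at e ⊢
      exact ⟨by rw [e.2.2], by rw [e.2.1, e.2.2], e.1⟩
  -- the span
  have hpos : i₀ < i := by
    rw [Fin.lt_def, hi₀]
    exact Nat.pos_of_ne_zero fun h => hi (Fin.ext (by omega))
  have h8 := cent_cell_tube hR hd L (fun o => (o.2.2 i).1) (fun o => fam L i₀ o.2.2)
    (fun o => vec (mesh d L) (o.2.2 i₀).1) (fun o => sg o.1) B (Fin.castLE hpd i)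
    (fun o => by
      have := depth_le L (sg o.1) (res (fam L i₀ o.2.2) (Fin.castLE hpd i))
      have := hsg o.1
      show sg o.1 + B o ≤ L
      simp only [B, dep]; omega)
    (fun o => fam_apply hpd i₀ o.2.2 i) (fun o h => norm_fam_le sg ctr hctr i₀ h _)
    fun o h => le_depth ((res_le_norm _ _).trans (norm_fam_le sg ctr hctr i₀ h _))
  have h9 : cent P Q (fun o => (B o, pref o, o.1)) ≤ cent P Q (fun o =>
      (pre (fam L i₀ o.2.2) (Fin.castLE hpd i), vec (mesh d L) (o.2.2 i₀).1, sg o.1, B o)) :=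
    cent_le_of_imp hR Q fun x y e => by
      simp only [Prod.mk.injEq] at e ⊢
      have hz : ∀ j, j < i → x.2.2 j = y.2.2 j := fun j hj => by
        simpa [pref, hj] using congrFun e.2.1 j
      refine ⟨funext fun j => ?_, by rw [hz i₀ hpos], by rw [e.2.2], e.1⟩
      simp only [pre, fam]
      split_ifs with h h'
      · rw [hz i₀ hpos, hz ⟨j, h'⟩ (by simpa [Fin.lt_def] using h)]
      · rfl
      · rfl
  have hip : ((i : ℕ) : ℝ) ≤ p := by exact_mod_cast i.2.le
  have hE : 0 ≤ ev P (fun o => (B o : ℝ)) :=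
    sum_nonneg fun o _ => mul_nonneg (hR.nonneg o) (Nat.cast_nonneg _)
  have hl := log_two_lt_d9
  have hl0 : 0 < log 2 := log_pos one_lt_two
  have hd1 : (1 : ℝ) ≤ d := by exact_mod_cast hd
  simp only [Fin.val_castLE] at h8
  have h10 : ((i : ℕ) : ℝ) * log 2 * ev P (fun o => (B o : ℝ))
      ≤ (p : ℝ) * log 2 * ev P (fun o => (B o : ℝ)) :=
    mul_le_mul_of_nonneg_right (mul_le_mul_of_nonneg_right hip hl0.le) hE
  change cent P z (fun o => (st o.1, sg o.1 + B o, Q o)) + a * ev P (fun o => (B o : ℝ))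
    ≤ _ at hopt
  change (a - 2 * log 2 - p * log 2) * ev P (fun o => (B o : ℝ))
    ≤ _ - cent P z (fun o => (pref o, o.1)) + 16 * d + 1
  nlinarith

/-- the total correlation is at most the rows times the dimension -/
theorem totalCorr_le (hμ : IsPmf μ) (hrows : RowHyp η S ρ) (hη : 0 < η)
    (hηle : η * (2 ^ L₀ * (2 * d)) ≤ 1) (hL₀ : L₀ ≤ L) (hsg : ∀ c, sg c ≤ L)
    (hctr : ∀ c z, μ (c, z) ≠ 0 → ‖vec (mesh d L) z.1 - ctr c‖ ≤ 1 / 2 ^ sg c)
    {W : Type} (st : C → W) (hp : 2 ≤ p) (hp4 : 4 * p ≤ d - 1) (hk : 16 * k ≤ d - 1) (hpd : p ≤ d)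
    (i₀ : Fin p) (hi₀ : (i₀ : ℕ) = 0)
    (hopt : ∀ i, i ≠ i₀ → cent (repl (labs η L L₀) μ (iid ρ k) p) (fun o => o.2.2 i)
        (fun o => (st o.1, sg o.1 + dep L sg i₀ hpd o i,
          cell L (sg o.1 + dep L sg i₀ hpd o i) (o.2.2 i).1))
      + 3 / 4 * ((d : ℝ) - 1) * log 2 *
          ev (repl (labs η L L₀) μ (iid ρ k) p) (fun o => (dep L sg i₀ hpd o i : ℝ))
      ≤ cent (joint μ (iid ρ k)) (fun o => o.1.2) (fun o => o.1.1) + 1) :
    p * cent (joint μ (iid ρ k)) (fun o => o.1.2) (fun o => o.1.1)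
        - cent (repl (labs η L L₀) μ (iid ρ k) p) (fun o => o.2.2) (fun o => o.1)
      ≤ 80 * (k * d) := by
  classical
  have hd : 0 < d := by omega
  have hρk := iid_isPmf hrows.pmf k
  have hR := repl_isPmf (Y := labs η L L₀) hμ hρk i₀
  set P := repl (labs (Z := Z) η L L₀) μ (iid ρ k) p with hP
  set J := joint μ (iid ρ k) with hJ'
  set TC := p * cent J (fun o => o.1.2) (fun o => o.1.1)
    - cent P (fun o => o.2.2) (fun o => o.1) with hTC
  have htc := totalCorr_eq (Y := labs η L L₀) hμ hρk i₀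
  have hlab := cent_label_le (k := k) (L₀ := L₀) sg ctr hμ hrows hctr
  have hrw := cent_rows_le (k := k) sg ctr hμ hrows hη hηle hd hL₀ hctr hpd i₀
  have hent := ent_iid hrows.pmf k
  have hpre := cent_pi_le_prefix hR (fun i o => o.2.2 i) (fun o => o.1)
  -- the levels saved
  have hdiff : ((p : ℝ) - 1) * ev μ (fun o => ((L₀ - sg o.1 : ℕ) : ℝ))
      - ev P (fun o => ∑ i ∈ univ.erase i₀, ((L₀ - (sg o.1 + dep L sg i₀ hpd o i + 1) : ℕ) : ℝ))
      ≤ ∑ i ∈ univ.erase i₀, (ev P (fun o => (dep L sg i₀ hpd o i : ℝ)) + 1) := by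
    have e : ev P (fun o => ((L₀ - sg o.1 : ℕ) : ℝ)) = ev μ (fun o => ((L₀ - sg o.1 : ℕ) : ℝ)) :=
      (ev_repl (Y := labs η L L₀) hμ hρk i₀ fun o => ((L₀ - sg o.1.1 : ℕ) : ℝ)).trans
        (ev_joint_fst hρk fun q => ((L₀ - sg q.1 : ℕ) : ℝ))
    rw [← e]
    have e2 : ((p : ℝ) - 1) = ∑ _i ∈ univ.erase i₀, (1 : ℝ) := by
      rw [sum_const, card_erase_of_mem (mem_univ _), card_univ, Fintype.card_fin, nsmul_eq_mul,
        mul_one, Nat.cast_sub (by omega), Nat.cast_one]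
    rw [e2, sum_mul]
    simp only [ev, mul_sum, one_mul]
    rw [sum_comm (s := univ) (t := univ.erase i₀), ← sum_sub_distrib]
    refine sum_le_sum fun i _ => ?_
    rw [← sum_sub_distrib, show (1 : ℝ) = ∑ o, P o from hR.sum_one.symm, ← sum_add_distrib]
    refine sum_le_sum fun o _ => ?_
    rw [← mul_sub, ← mul_add_one]
    refine mul_le_mul_of_nonneg_left ?_ (hR.nonneg o)
    rw [sub_le_iff_le_add]
    exact_mod_cast (show L₀ - sg o.1 ≤ dep L sg i₀ hpd o i + 1
      + (L₀ - (sg o.1 + dep L sg i₀ hpd o i + 1)) by omega)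
  -- the depths
  set E := ∑ i ∈ univ.erase i₀, ev P (fun o => (dep L sg i₀ hpd o i : ℝ)) with hE
  have hcz : ∀ i, cent P (fun o => o.2.2 i)
      (fun o => ((fun j => if j < i then some (o.2.2 j) else none), o.1))
      ≤ cent J (fun o => o.1.2) (fun o => o.1.1) := by
    intro i
    rw [hJ', ← cent_repl (Y := labs η L L₀) hμ hρk i (fun o => o.1.2) (fun o => o.1.1)]
    exact cent_le_of_imp hR _ fun x y e => congrArg Prod.snd e
  have hp4' : 4 * (p : ℝ) ≤ (d : ℝ) - 1 := by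
    rw [← Nat.cast_one, ← Nat.cast_sub (by omega)]; exact_mod_cast hp4
  have hk' : 16 * (k : ℝ) ≤ (d : ℝ) - 1 := by
    rw [← Nat.cast_one, ← Nat.cast_sub (by omega)]; exact_mod_cast hk
  have hp' : (2 : ℝ) ≤ p := by exact_mod_cast hp
  have hl := log_two_lt_d9
  have hl1 := log_two_gt_d9
  have hEi : ∀ i ∈ univ.erase i₀, ((d : ℝ) - 1) / 4 * log 2 *
      ev P (fun o => (dep L sg i₀ hpd o i : ℝ))
      ≤ cent J (fun o => o.1.2) (fun o => o.1.1) - cent P (fun o => o.2.2 i)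
          (fun o => ((fun j => if j < i then some (o.2.2 j) else none), o.1)) + 17 * d := by
    intro i hi
    have h := depth_cost sg ctr hμ hρk (labs η L L₀) hd hsg hpd i₀ hi₀ hctr st (mem_erase.1 hi).1
      (hopt i (mem_erase.1 hi).1)
    have h0 : 0 ≤ ev P (fun o => (dep L sg i₀ hpd o i : ℝ)) :=
      sum_nonneg fun o _ => mul_nonneg (hR.nonneg o) (Nat.cast_nonneg _)
    have hco : ((d : ℝ) - 1) / 4 * log 2
        ≤ 3 / 4 * ((d : ℝ) - 1) * log 2 - 2 * log 2 - p * log 2 := by nlinarith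
    have hd1 : (1 : ℝ) ≤ d := by exact_mod_cast hd
    have := mul_le_mul_of_nonneg_right hco h0
    linarith
  have hsum := sum_le_sum hEi
  rw [← mul_sum, ← hE] at hsum
  have hall : ∑ i ∈ univ.erase i₀, (cent J (fun o => o.1.2) (fun o => o.1.1)
      - cent P (fun o => o.2.2 i)
          (fun o => ((fun j => if j < i then some (o.2.2 j) else none), o.1)) + 17 * (d : ℝ))
      ≤ TC + 17 * d * p := by
    refine (sum_le_sum_of_subset_of_nonneg (erase_subset _ _) fun i _ _ => ?_).trans ?_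
    · have := hcz i
      have : (0 : ℝ) ≤ d := Nat.cast_nonneg d
      linarith
    · simp only [sum_add_distrib, sum_sub_distrib, sum_const, card_univ, Fintype.card_fin,
        nsmul_eq_mul, hTC]
      linarith
  rw [sum_add_distrib, sum_const, card_erase_of_mem (mem_univ _), card_univ, Fintype.card_fin,
    nsmul_eq_mul, mul_one, Nat.cast_sub (by omega), Nat.cast_one, ← hE] at hdiff
  have hk0 : (0 : ℝ) ≤ k := Nat.cast_nonneg k
  have hd0 : (0 : ℝ) ≤ d := Nat.cast_nonneg d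
  have hE0 : 0 ≤ E :=
    sum_nonneg fun i _ => sum_nonneg fun o _ => mul_nonneg (hR.nonneg o) (Nat.cast_nonneg _)
  have hl0 : 0 ≤ log 2 := by linarith
  have a1 : 4 * (k * (log 2 * E)) ≤ TC + 17 * d * p := by
    refine le_trans ?_ (hsum.trans hall)
    have := mul_le_mul_of_nonneg_right hk' (mul_nonneg hl0 hE0)
    linarith
  -- scaled to the rows
  have a2 : ((d : ℝ) - 1) * (k * (log 2 * E)) ≤ 4 * k * (TC + 17 * d * p) := by
    have := mul_le_mul_of_nonneg_left (hsum.trans hall) hk0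
    linarith
  have a3 : TC ≤ k * (6 * p + 16 * d + log 2 * (E + p)) := by
    have b1 := mul_le_mul_of_nonneg_left hlab (show (0 : ℝ) ≤ p - 1 by linarith)
    have b2 : (k : ℝ) * (d * (log η⁻¹ - 1)) ≤ ent (iid ρ k) id := by
      rw [hent]; exact mul_le_mul_of_nonneg_left hrows.ent_ge hk0
    have b3 := mul_le_mul_of_nonneg_left hdiff (mul_nonneg hk0 hl0)
    have b4 : 0 ≤ (k : ℝ) * log 2 := mul_nonneg hk0 hl0
    linarith
  have hn : (0 : ℝ) < (d : ℝ) - 1 := by linarith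
  have a4 : ((d : ℝ) - 1) * TC
      ≤ ((d : ℝ) - 1) * (k * (7 * p + 16 * d)) + 4 * k * (TC + 17 * d * p) := by
    have := mul_le_mul_of_nonneg_left a3 hn.le
    have : log 2 * p * (((d : ℝ) - 1) * k) ≤ p * (((d : ℝ) - 1) * k) :=
      mul_le_mul_of_nonneg_right (by nlinarith) (mul_nonneg hn.le hk0)
    linarith
  by_contra hc
  push Not at hc
  have hTC0 : 0 ≤ TC := le_trans (by positivity) hc.le
  have a5 : 4 * (k : ℝ) * TC ≤ ((d : ℝ) - 1) / 4 * TC :=
    mul_le_mul_of_nonneg_right (by linarith) hTC0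
  have a6 : 4 * (k : ℝ) * (17 * d * p) ≤ ((d : ℝ) - 1) * (k * (17 * d)) := by
    have := mul_le_mul_of_nonneg_left hp4' (show (0 : ℝ) ≤ k * (17 * d) by positivity)
    linarith
  have a7 : ((d : ℝ) - 1) * (k * (7 * p)) ≤ ((d : ℝ) - 1) * (k * (2 * d)) :=
    mul_le_mul_of_nonneg_left (mul_le_mul_of_nonneg_left (by linarith) hk0) hn.le
  have a8 : ((d : ℝ) - 1) * (80 * (k * d)) < ((d : ℝ) - 1) * TC := mul_lt_mul_of_pos_left hc hn
  have a9 : 0 ≤ ((d : ℝ) - 1) * (k * d) := by positivity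
  linarith

end Vale.Agent.P309
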