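import Vale.Agent.P309.Model

/-!
Protocols whose stopping decisions may look at the current pair, and their reduction to learners
with one further bit.
-/

namespace Vale.Agent.P309

open MeasureTheory ProbabilityTheory

/-- A one-pass protocol with `M` bits and horizon `T`. All randomness is one seed, independent of
the data and readable by every rule; only one of `2 ^ M` states is carried between indices. The
decision to stop may be taken before reading a pair, or while reading it. -/
structure Protocol (d M T : ℕ) where
  /-- the space of the randomness -/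
  Seed : Type
  /-- its measurable sets -/
  [seedSpace : MeasurableSpace Seed]
  /-- its law -/
  seedLaw : Measure Seed
  isProb : IsProbabilityMeasure seedLaw
  /-- the initial state -/
  init : Seed → Fin (2 ^ M)
  /-- the new state from the index, the current state and the current pair -/
  step : Seed → ℕ → Fin (2 ^ M) → (Fin d → ℝ) × ℝ → Fin (2 ^ M)
  /-- the decision to stop after the current pair, from the index, state and pair -/
  halt : Seed → ℕ → Fin (2 ^ M) → (Fin d → ℝ) × ℝ → Bool
  /-- the decision to stop before reading, from the index and state -/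
  stop : Seed → ℕ → Fin (2 ^ M) → Bool
  /-- the output from the number of pairs read and the final state -/
  guess : Seed → ℕ → Fin (2 ^ M) → Fin d → ℝ
  measurable_init : Measurable init
  measurable_step : ∀ t w, Measurable fun p : Seed × ((Fin d → ℝ) × ℝ) => step p.1 t w p.2
  measurable_halt : ∀ t w, Measurable fun p : Seed × ((Fin d → ℝ) × ℝ) => halt p.1 t w p.2
  measurable_stop : ∀ t w, Measurable fun r => stop r t w
  measurable_guess : ∀ t w, Measurable fun r => guess r t w
  guess_unit : ∀ r t w, dot (guess r t w) (guess r t w) = 1

attribute [instance] Protocol.seedSpace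

variable {d M T : ℕ}

/-- the number of pairs read, the state, and whether reading was ended by the last pair read,
after the first `t` indices -/
def Protocol.run (A : Protocol d M T) (r : A.Seed) (s : Fin d → ℝ) (x : Fin T → Fin d → ℝ) :
    ℕ → ℕ × Fin (2 ^ M) × Bool
  | 0 => (0, A.init r, false)
  | t + 1 =>
    let p := A.run r s x t
    if h : t < T then
      if p.2.2 = true ∨ A.stop r p.1 p.2.1 = true then p
      else (t + 1, A.step r t p.2.1 (x ⟨t, h⟩, dot (x ⟨t, h⟩) s),
        A.halt r t p.2.1 (x ⟨t, h⟩, dot (x ⟨t, h⟩) s))
    else p

/-- the output of the protocol -/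
def Protocol.output (A : Protocol d M T) (r : A.Seed) (s : Fin d → ℝ)
    (x : Fin T → Fin d → ℝ) : Fin d → ℝ :=
  A.guess r (A.run r s x T).1 (A.run r s x T).2.1

/-- success at accuracy `ε`: with probability at least two thirds, for a uniform signal on the
sphere, independent Gaussian rows and independent randomness, the angle is at most `ε` -/
def Protocol.Succeeds (A : Protocol d M T) (ε : ℝ) : Prop :=
  2 / 3 ≤ A.seedLaw.prod ((signalLaw d).prod (Measure.pi fun _ : Fin T => rowLaw d))
    {p | Real.arccos (dot (A.output p.1 p.2.1 p.2.2) p.2.1) ≤ ε}

/-- a state with a flag as a state with one bit more -/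
def flagEquiv (M : ℕ) : Fin (2 ^ (M + 1)) ≃ Fin (2 ^ M) × Bool :=
  (finCongr (pow_succ 2 M)).trans
    (finProdFinEquiv.symm.trans (Equiv.prodCongr (Equiv.refl _) finTwoEquiv))

/-- the learner that keeps the stopping decision in one further bit -/
def Protocol.toLearner (A : Protocol d M T) : Learner d (M + 1) T where
  Seed := A.Seed
  seedLaw := A.seedLaw
  isProb := A.isProb
  init r := (flagEquiv M).symm (A.init r, false)
  step r t w p :=
    (flagEquiv M).symm (A.step r t (flagEquiv M w).1 p, A.halt r t (flagEquiv M w).1 p)
  stop r t w := (flagEquiv M w).2 || A.stop r t (flagEquiv M w).1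
  guess r t w := A.guess r t (flagEquiv M w).1
  measurable_init := (measurable_of_countable _).comp (A.measurable_init.prodMk measurable_const)
  measurable_step t w :=
    (measurable_of_countable _).comp ((A.measurable_step t _).prodMk (A.measurable_halt t _))
  measurable_stop t w :=
    (measurable_of_countable fun b : Bool => (flagEquiv M w).2 || b).comp (A.measurable_stop t _)
  measurable_guess t w := A.measurable_guess t _
  guess_unit r t w := A.guess_unit r t _

theorem Protocol.run_toLearner (A : Protocol d M T) (r : A.Seed) (s : Fin d → ℝ)
    (x : Fin T → Fin d → ℝ) : ∀ t ≤ T,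
      A.toLearner.run r s x t
          = ((A.run r s x t).1, (flagEquiv M).symm (A.run r s x t).2) ∧
      ((A.run r s x t).1 < t →
        (A.run r s x t).2.2 = true ∨ A.stop r (A.run r s x t).1 (A.run r s x t).2.1 = true) := by
  intro t ht
  induction t with
  | zero => exact ⟨rfl, fun h => absurd h (Nat.not_lt_zero _)⟩
  | succ t ih =>
    obtain ⟨h1, h2⟩ := ih (by omega)
    have ht' : t < T := ht
    set p := A.run r s x t with hp
    simp only [Learner.run, Protocol.run, dif_pos ht', ← hp]
    rw [h1]
    simp only [Protocol.toLearner, Equiv.apply_symm_apply, Bool.or_eq_true]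
    by_cases hc : p.2.2 = true ∨ A.stop r p.1 p.2.1 = true
    · rw [if_pos (Or.inr hc), if_pos hc]
      exact ⟨rfl, fun _ => hc⟩
    · rw [if_neg (by rintro (h | h); exacts [hc (h2 h), hc h]), if_neg hc]
      exact ⟨rfl, fun h => absurd h (lt_irrefl _)⟩

theorem Protocol.succeeds_toLearner {A : Protocol d M T} {ε : ℝ} (h : A.Succeeds ε) :
    A.toLearner.Succeeds ε := by
  have e : ∀ r s x, A.toLearner.output r s x = A.output r s x := fun r s x => by
    rw [Learner.output, (A.run_toLearner r s x T le_rfl).1]
    simp [Protocol.toLearner, Protocol.output]
  refine le_trans h (le_of_eq ?_)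
  congr 1
  ext q
  exact iff_of_eq (congrArg (fun v => Real.arccos (dot v q.2.1) ≤ ε) (e q.1 q.2.1 q.2.2)).symm

end Vale.Agent.P309
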