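import Vale.Agent.P309.Disc
import Vale.Agent.P309.Protocol

/-!
The memory needed to write down an answer, whatever the number of samples.
-/

namespace Vale.Agent.P309

open MeasureTheory ProbabilityTheory Finset Real
open scoped InnerProductSpace

variable {d M T : ℕ}

/-- few possible answers cover too little of the sphere -/
theorem Protocol.two_thirds_le (hd : 2 ≤ d) (A : Protocol d M T)
    (hout : ∀ r t t' w, A.guess r t w = A.guess r t' w) {ε : ℝ} (hε : 0 < ε)
    (h : A.Succeeds ε) : (2 / 3 : ℝ) ≤ 2 ^ M * (4 * ε) ^ (d - 1) := by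
  have hd0 : 0 < d := by omega
  obtain ⟨r, hr⟩ := exists_good_seed A.toLearner (Protocol.succeeds_toLearner h)
  set e₀ : EuclideanSpace ℝ (Fin d) := EuclideanSpace.single ⟨0, hd0⟩ 1 with he₀d
  set γ := stdGaussian (EuclideanSpace ℝ (Fin d)) with hγ
  have : IsProbabilityMeasure (rowLaw d) := by unfold rowLaw; infer_instance
  let g : Fin (2 ^ M) → Fin d → ℝ := fun w => A.guess r 0 w
  let C : Set (Fin d → ℝ) := ⋃ w, {s | Real.arccos (dot (g w) s) ≤ ε}
  have hC : MeasurableSet C := MeasurableSet.iUnion fun w =>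
    measurableSet_le (Real.continuous_arccos.measurable.comp (by unfold dot; fun_prop))
      measurable_const
  have hsub : {q : (Fin d → ℝ) × (Fin T → Fin d → ℝ) |
      Real.arccos (dot (A.toLearner.output r q.1 q.2) q.1) ≤ ε} ⊆ C ×ˢ Set.univ := by
    intro q hq
    refine ⟨Set.mem_iUnion.2 ⟨(flagEquiv M (A.toLearner.run r q.1 q.2 T).2).1, ?_⟩, trivial⟩
    have e : A.toLearner.output r q.1 q.2 = g (flagEquiv M (A.toLearner.run r q.1 q.2 T).2).1 :=
      hout r _ 0 _
    rw [Set.mem_ofPred_eq, ← e]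
    exact hq
  have h1 : (2 / 3 : ENNReal) ≤ signalLaw d C := by
    refine hr.trans ((measure_mono hsub).trans ?_)
    simp
  have hme : Measurable fun u : EuclideanSpace ℝ (Fin d) => WithLp.ofLp (sph e₀ u) :=
    (by fun_prop : Measurable fun v : EuclideanSpace ℝ (Fin d) => WithLp.ofLp v).comp
      (measurable_sph e₀)
  rw [signalLaw_eq hd0 e₀, Measure.map_apply hme hC] at h1
  have h2 : (2 / 3 : ℝ) ≤ γ.real ((fun u => WithLp.ofLp (sph e₀ u)) ⁻¹' C) := by
    have := ENNReal.toReal_mono (measure_ne_top γ _) h1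
    simpa [measureReal_def] using this
  refine h2.trans ?_
  have he₀ : ‖e₀‖ = 1 := by simp [he₀d]
  have hg1 : ∀ w, ‖WithLp.toLp 2 (g w)‖ = 1 := fun w => by
    rw [EuclideanSpace.norm_eq]
    have := A.guess_unit r 0 w
    simp only [dot] at this
    simp [g, sq, this]
  calc γ.real ((fun u => WithLp.ofLp (sph e₀ u)) ⁻¹' C)
      ≤ γ.real (⋃ w, {u | ‖sph e₀ u - WithLp.toLp 2 (g w)‖ ≤ ε}) := by
        refine measureReal_mono fun u hu => ?_
        obtain ⟨w, hw⟩ := Set.mem_iUnion.1 hu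
        refine Set.mem_iUnion.2 ⟨w, ?_⟩
        show ‖sph e₀ u - WithLp.toLp 2 (g w)‖ ≤ ε
        rw [norm_sub_rev]
        refine norm_sub_le_of_arccos_le (hg1 w) (norm_sph he₀ u) hε.le ?_
        rw [inner_eq_sum]
        exact hw
    _ ≤ ∑ w, γ.real {u | ‖sph e₀ u - WithLp.toLp 2 (g w)‖ ≤ ε} :=
        measureReal_iUnion_fintype_le _
    _ ≤ ∑ _w : Fin (2 ^ M), (4 * ε) ^ (d - 1) :=
        sum_le_sum fun w _ => cap_le hd e₀ (hg1 w) hε
    _ = 2 ^ M * (4 * ε) ^ (d - 1) := by simp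

/-- with an answer read from the state alone, success needs memory, whatever the horizon -/
theorem Protocol.memory_lower (hd : 2 ≤ d) (A : Protocol d M T)
    (hout : ∀ r t t' w, A.guess r t w = A.guess r t' w) {ε : ℝ} (hε0 : 0 < ε)
    (hε : ε ≤ exp (-16)) (h : A.Succeeds ε) :
    (1 / 4 : ℝ) * d * log (1 / ε) ≤ M := by
  have h1 := log_le_log (by norm_num) (A.two_thirds_le hd hout hε0 h)
  rw [log_mul (by positivity) (by positivity), log_pow, log_pow,
    log_mul (by norm_num) hε0.ne', Nat.cast_sub (by omega : 1 ≤ d)] at h1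
  have hl := log_le_log hε0 hε
  rw [log_exp] at hl
  have hl2 : log 2 ≤ 1 := by
    have := log_le_sub_one_of_pos (show (0 : ℝ) < 2 by norm_num)
    linarith
  have hl4 : log 4 ≤ 2 := by
    rw [show (4 : ℝ) = 2 * 2 by norm_num, log_mul (by norm_num) (by norm_num)]
    linarith
  have hl23 : -(1 / 2 : ℝ) ≤ log (2 / 3) := by
    have := log_le_sub_one_of_pos (show (0 : ℝ) < 3 / 2 by norm_num)
    rw [show (2 / 3 : ℝ) = (3 / 2)⁻¹ by norm_num, log_inv]
    linarith
  have hd2 : (2 : ℝ) ≤ d := by exact_mod_cast hd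
  rw [one_div ε, log_inv]
  push_cast at h1
  nlinarith [mul_le_mul_of_nonneg_left hl2 (M.cast_nonneg : (0 : ℝ) ≤ M)]

end Vale.Agent.P309
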