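import Mathlib

/-!
Learners with a finite persistent state for noiseless Gaussian linear regression.
-/

namespace Vale.Agent.P309

open MeasureTheory ProbabilityTheory

/-- the inner product of two vectors -/
def dot {d : ℕ} (x y : Fin d → ℝ) : ℝ := ∑ i, x i * y i

/-- the standard Gaussian law of a row -/
noncomputable def rowLaw (d : ℕ) : Measure (Fin d → ℝ) :=
  Measure.pi fun _ => gaussianReal 0 1

/-- the uniform law on the Euclidean unit sphere: a normalised standard Gaussian vector -/
noncomputable def signalLaw (d : ℕ) : Measure (Fin d → ℝ) :=
  (rowLaw d).map fun g => (√(dot g g))⁻¹ • g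

/-- A learner with `M` bits and horizon `T`. All randomness is one seed, readable by every rule;
only the state of the `2 ^ M` possible ones is carried from one index to the next. -/
structure Learner (d M T : ℕ) where
  /-- the space of the randomness -/
  Seed : Type
  /-- its measurable sets -/
  [seedSpace : MeasurableSpace Seed]
  /-- its law -/
  seedLaw : Measure Seed
  isProb : IsProbabilityMeasure seedLaw
  /-- the initial state -/
  init : Seed → Fin (2 ^ M)
  /-- the new state from the index, the current state and the current pair -/
  step : Seed → ℕ → Fin (2 ^ M) → (Fin d → ℝ) × ℝ → Fin (2 ^ M)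
  /-- the decision to stop in a state reached at an index -/
  stop : Seed → ℕ → Fin (2 ^ M) → Bool
  /-- the output from the index at which reading ended and the final state -/
  guess : Seed → ℕ → Fin (2 ^ M) → Fin d → ℝ
  measurable_init : Measurable init
  measurable_step : ∀ t w, Measurable fun p : Seed × ((Fin d → ℝ) × ℝ) => step p.1 t w p.2
  measurable_stop : ∀ t w, Measurable fun r => stop r t w
  measurable_guess : ∀ t w, Measurable fun r => guess r t w
  guess_unit : ∀ r t w, dot (guess r t w) (guess r t w) = 1

attribute [instance] Learner.seedSpace

variable {d M T : ℕ}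

/-- the number of pairs read so far and the state, after the first `t` indices -/
def Learner.run (A : Learner d M T) (r : A.Seed) (s : Fin d → ℝ) (x : Fin T → Fin d → ℝ) :
    ℕ → ℕ × Fin (2 ^ M)
  | 0 => (0, A.init r)
  | t + 1 =>
    let p := A.run r s x t
    if h : t < T then
      if p.1 < t ∨ A.stop r p.1 p.2 = true then p
      else (t + 1, A.step r t p.2 (x ⟨t, h⟩, dot (x ⟨t, h⟩) s))
    else p

/-- the output of the learner -/
def Learner.output (A : Learner d M T) (r : A.Seed) (s : Fin d → ℝ)
    (x : Fin T → Fin d → ℝ) : Fin d → ℝ :=
  A.guess r (A.run r s x T).1 (A.run r s x T).2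

/-- success at accuracy `ε`: with probability at least two thirds, for a uniform signal on the
sphere, independent Gaussian rows and independent randomness, the angle is at most `ε` -/
def Learner.Succeeds (A : Learner d M T) (ε : ℝ) : Prop :=
  2 / 3 ≤ A.seedLaw.prod ((signalLaw d).prod (Measure.pi fun _ : Fin T => rowLaw d))
    {p | Real.arccos (dot (A.output p.1 p.2.1 p.2.2) p.2.1) ≤ ε}

end Vale.Agent.P309
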