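import Vale.Agent.P309.Code
import Vale.Agent.P309.Model

/-!
Gaussian rows rounded towards zero and cut off.
-/

namespace Vale.Agent.P309

open MeasureTheory ProbabilityTheory Finset Real
open scoped InnerProductSpace

/-- rounding towards zero at mesh `η`, cut off at `N` steps -/
noncomputable def qz (η : ℝ) (N : ℕ) (g : ℝ) : ℤ :=
  if 0 ≤ g then min ⌊g / η⌋ N else -min ⌊-g / η⌋ N

variable {η : ℝ} {N : ℕ}

theorem measurable_qz : Measurable (qz η N) := by
  unfold qz
  refine Measurable.ite measurableSet_Ici ?_ ?_ <;>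
    fun_prop

theorem qz_neg (g : ℝ) : qz η N (-g) = -qz η N g := by
  unfold qz
  rcases lt_trichotomy g 0 with h | h | h
  · rw [if_pos (by linarith), if_neg (not_le.2 h), neg_neg]
  · subst h; simp
  · rw [if_neg (by linarith), if_pos h.le, neg_neg]

theorem qz_mem (hη : 0 < η) (g : ℝ) : qz η N g ∈ Icc (-(N : ℤ)) N := by
  unfold qz
  rw [Finset.mem_Icc]
  split_ifs with h
  · have : (0 : ℤ) ≤ ⌊g / η⌋ := Int.floor_nonneg.2 (by positivity)
    omega
  · have : (0 : ℤ) ≤ ⌊-g / η⌋ := Int.floor_nonneg.2 (by have : 0 ≤ -g := by linarith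
                                                        positivity)
    omega

theorem qz_nonneg_bounds (hη : 0 < η) {g : ℝ} (hg : 0 ≤ g) :
    0 ≤ η * (qz η N g : ℝ) ∧ η * (qz η N g : ℝ) ≤ g ∧
      (g ≤ η * N → g < η * (qz η N g : ℝ) + η) := by
  rw [qz, if_pos hg, Int.cast_min, Int.cast_natCast]
  have h1 := Int.floor_le (g / η)
  have h2 := Int.lt_floor_add_one (g / η)
  have h0 : (0 : ℝ) ≤ (⌊g / η⌋ : ℝ) := by
    exact_mod_cast Int.floor_nonneg.2 (div_nonneg hg hη.le)
  rw [le_div_iff₀ hη] at h1
  rw [div_lt_iff₀ hη] at h2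
  refine ⟨mul_nonneg hη.le (le_min h0 N.cast_nonneg), ?_, fun h => ?_⟩
  · exact (mul_le_mul_of_nonneg_left (min_le_left _ _) hη.le).trans (by linarith)
  · rcases min_cases (⌊g / η⌋ : ℝ) (N : ℝ) with ⟨e, -⟩ | ⟨e, -⟩ <;> rw [e] <;> nlinarith

theorem abs_qz_le (hη : 0 < η) (g : ℝ) : |η * (qz η N g : ℝ)| ≤ |g| := by
  rcases le_total 0 g with h | h
  · obtain ⟨a, b, -⟩ := qz_nonneg_bounds (N := N) hη h
    rwa [abs_of_nonneg a, abs_of_nonneg h]
  · obtain ⟨a, b, -⟩ := qz_nonneg_bounds (N := N) hη (neg_nonneg.2 h)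
    rw [qz_neg, Int.cast_neg] at a b
    rw [abs_of_nonpos (by linarith), abs_of_nonpos h]
    linarith

theorem abs_qz_sub_le (hη : 0 < η) {g : ℝ} (hg : |g| ≤ η * N) :
    |η * (qz η N g : ℝ) - g| ≤ η := by
  rcases le_total 0 g with h | h
  · obtain ⟨a, b, c⟩ := qz_nonneg_bounds (N := N) hη h
    have := c (le_of_abs_le hg)
    rw [abs_le]; constructor <;> linarith
  · obtain ⟨a, b, c⟩ := qz_nonneg_bounds (N := N) hη (neg_nonneg.2 h)
    have := c (by linarith [abs_le.1 hg])
    rw [qz_neg, Int.cast_neg] at this b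
    rw [abs_le]; constructor <;> linarith

theorem gaussianReal_Ioo_le {a b : ℝ} (hab : a ≤ b) :
    (gaussianReal 0 1).real (Set.Icc a b) ≤ (b - a) / 2 := by
  refine ENNReal.toReal_le_of_le_ofReal (by linarith) ?_
  rw [gaussianReal_apply 0 one_ne_zero]
  calc ∫⁻ x in Set.Icc a b, gaussianPDF 0 1 x ≤ ∫⁻ _x in Set.Icc a b, ENNReal.ofReal (1 / 2) := by
        refine lintegral_mono fun x => ENNReal.ofReal_le_ofReal ?_
        simp only [gaussianPDFReal_def, NNReal.coe_one, mul_one, sub_zero]
        calc (√(2 * π))⁻¹ * exp (-x ^ 2 / 2) ≤ (√(2 * π))⁻¹ * 1 := by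
              refine mul_le_mul_of_nonneg_left (exp_le_one_iff.2 ?_) (by positivity)
              nlinarith [sq_nonneg x]
          _ ≤ 2⁻¹ := by
              rw [mul_one]
              refine inv_anti₀ (by norm_num) (le_sqrt_of_sq_le ?_)
              nlinarith [pi_gt_three]
          _ = 1 / 2 := (one_div 2).symm
    _ = ENNReal.ofReal ((b - a) / 2) := by
        rw [setLIntegral_const, Real.volume_Icc, ← ENNReal.ofReal_mul (by norm_num)]
        congr 1; ring

theorem gaussianReal_tail_le {R : ℝ} (hR : 0 < R) :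
    (gaussianReal 0 1).real {g | R ≤ |g|} ≤ 1 / R ^ 2 := by
  refine ENNReal.toReal_le_of_le_ofReal (by positivity) ?_
  have := meas_ge_le_variance_div_sq (μ := gaussianReal 0 1) (X := id) IsGaussian.memLp_two_id hR
  simpa [integral_id_gaussianReal, variance_id_gaussianReal] using this

/-- every value of a rounded coordinate has probability at most `η` -/
theorem qz_fibre_le (hη : 0 < η) (hN0 : 0 < N) (hN : 1 / (η * N) ^ 2 ≤ η) (k : ℤ) :
    (gaussianReal 0 1).real (qz η N ⁻¹' {k}) ≤ η := by
  by_cases hk : (N : ℤ) ≤ |k|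
  · refine le_trans (measureReal_mono ?_) ((gaussianReal_tail_le (R := η * N) (by positivity)).trans hN)
    intro g hg
    simp only [Set.mem_preimage, Set.mem_singleton_iff] at hg
    refine le_trans ?_ (abs_qz_le (N := N) hη g)
    rw [abs_mul, abs_of_pos hη, hg, ← Int.cast_abs]
    exact mul_le_mul_of_nonneg_left (by exact_mod_cast hk) hη.le
  · have hsub : qz η N ⁻¹' {k} ⊆ Set.Icc (η * k - η) (η * k + η) := by
      intro g hg
      simp only [Set.mem_preimage, Set.mem_singleton_iff] at hg
      have hle : |g| ≤ η * N := by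
        by_contra h
        push Not at h
        apply hk
        have hf : ∀ y : ℝ, η * N < y → min ⌊y / η⌋ (N : ℤ) = N := fun y hy => by
          refine min_eq_right (Int.le_floor.2 ?_)
          rw [le_div_iff₀ hη]; push_cast; linarith
        rw [← hg, qz]
        split_ifs with h'
        · rw [hf g (by rwa [abs_of_nonneg h'] at h)]; simp
        · rw [hf (-g) (by rwa [abs_of_neg (not_le.1 h')] at h)]; simp
      have := abs_le.1 (abs_qz_sub_le hη hle)
      rw [hg] at this
      exact ⟨by linarith, by linarith⟩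
    refine (measureReal_mono hsub).trans ((gaussianReal_Ioo_le (by linarith)).trans (le_of_eq ?_))
    ring

variable {d : ℕ}

/-- a rounded row -/
noncomputable def qrow (η : ℝ) (N : ℕ) (g : Fin d → ℝ) : Fin d → ℤ := fun i => qz η N (g i)

theorem measurable_qrow : Measurable (qrow (d := d) η N) :=
  measurable_pi_lambda _ fun i => measurable_qz.comp (measurable_pi_apply i)

/-- the possible rounded rows -/
noncomputable def rowSet (d N : ℕ) : Finset (Fin d → ℤ) :=
  Fintype.piFinset fun _ => Icc (-(N : ℤ)) N

theorem qrow_mem (hη : 0 < η) (g : Fin d → ℝ) : qrow η N g ∈ rowSet d N :=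
  Fintype.mem_piFinset.2 fun i => qz_mem hη (g i)

instance (d : ℕ) : IsProbabilityMeasure (rowLaw d) := by
  unfold rowLaw; infer_instance

/-- the law of a rounded row -/
noncomputable def rowProb (η : ℝ) (N : ℕ) (x : rowSet d N) : ℝ :=
  (rowLaw d).real (qrow η N ⁻¹' {x.1})

theorem ev_rowProb (hη : 0 < η) (f : (Fin d → ℤ) → ℝ) :
    ev (rowProb (d := d) η N) (fun x => f x.1) = ∫ g, f (qrow η N g) ∂rowLaw d := by
  classical
  have hm : ∀ x : Fin d → ℤ, MeasurableSet (qrow η N ⁻¹' {x}) := fun x =>
    measurable_qrow (measurableSet_singleton x)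
  have e : (fun g => f (qrow η N g)) = fun g =>
      ∑ x : rowSet d N, (qrow η N ⁻¹' {x.1}).indicator (fun _ => f x.1) g := by
    funext g
    rw [sum_eq_single (⟨qrow η N g, qrow_mem hη g⟩ : rowSet d N)]
    · simp
    · intro x _ hx
      refine Set.indicator_of_notMem (fun h => hx ?_) _
      exact Subtype.ext (Set.mem_singleton_iff.1 h).symm
    · simp
  rw [e, integral_finsetSum _ fun x _ => (integrable_const _).indicator (hm x.1)]
  refine sum_congr rfl fun x _ => ?_
  rw [integral_indicator_const _ (hm x.1), smul_eq_mul, rowProb]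

theorem rowHyp (hη : 0 < η) (hN0 : 0 < N) (hN : 1 / (η * N) ^ 2 ≤ η) :
    RowHyp η (rowSet d N) (rowProb (d := d) η N) := by
  have hpmf : IsPmf (rowProb (d := d) η N) := by
    refine ⟨fun x => measureReal_nonneg, ?_⟩
    have := ev_rowProb (d := d) (N := N) hη fun _ => 1
    simpa [ev] using this
  refine ⟨hpmf, fun v => ?_, ?_⟩
  · rw [ev_rowProb hη fun x => ⟪vec η x, v⟫_ℝ ^ 2]
    let a : ℝ → ℝ := fun t => η * (qz η N t : ℝ)
    have hma : Measurable a := by
      have := measurable_qz (η := η) (N := N)
      fun_prop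
    have ha2 : MemLp a 2 (gaussianReal 0 1) :=
      MemLp.of_le IsGaussian.memLp_two_id hma.aestronglyMeasurable
        (ae_of_all _ fun t => by simpa [a, Real.norm_eq_abs] using abs_qz_le hη t)
    have hmean : ∫ t, a t ∂gaussianReal 0 1 = 0 := by
      have h := integral_map (μ := gaussianReal 0 1) (φ := fun t : ℝ => -t) (f := a) (by fun_prop)
        hma.aestronglyMeasurable
      rw [gaussianReal_map_neg, neg_zero] at h
      have : (fun t => a (-t)) = fun t => -a t := by
        funext t; simp [a, qz_neg]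
      rw [this, integral_neg] at h
      linarith
    let X : Fin d → ℝ → ℝ := fun i t => v i * a t
    have hX : ∀ i, MemLp (X i) 2 (gaussianReal 0 1) := fun i => ha2.const_mul (v i)
    have hvar := variance_sum_pi (μ := fun _ : Fin d => gaussianReal 0 1) hX
    have e : (fun g : Fin d → ℝ => ⟪vec η (qrow η N g), v⟫_ℝ) =
        ∑ i, fun g : Fin d → ℝ => X i (g i) := by
      funext g
      rw [inner_eq_sum, Finset.sum_apply]
      exact sum_congr rfl fun i _ => by simp [X, a, vec_apply, qrow]; ring
    have hms : AEMeasurable (∑ i, fun g : Fin d → ℝ => X i (g i))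
        (Measure.pi fun _ : Fin d => gaussianReal 0 1) := by
      refine AEMeasurable.congr
        (Finset.measurable_sum (f := fun i (g : Fin d → ℝ) => X i (g i)) univ fun i _ => ?_).aemeasurable
        (ae_of_all _ fun g => (Finset.sum_apply g univ fun i (g : Fin d → ℝ) => X i (g i)).symm)
      exact ((hma.const_mul _).comp (measurable_pi_apply i))
    have hint : ∫ g, (∑ i, fun g : Fin d → ℝ => X i (g i)) g
        ∂(Measure.pi fun _ : Fin d => gaussianReal 0 1) = 0 := by
      simp only [Finset.sum_apply]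
      rw [integral_finsetSum _ fun i _ =>
        integrable_comp_eval (μ := fun _ : Fin d => gaussianReal 0 1)
          ((hX i).integrable (by norm_num))]
      refine sum_eq_zero fun i _ => ?_
      rw [integral_comp_eval (μ := fun _ : Fin d => gaussianReal 0 1) (hX i).aestronglyMeasurable]
      simp [X, integral_const_mul, hmean]
    rw [variance_of_integral_eq_zero hms hint] at hvar
    have e2 : (fun g : Fin d → ℝ => ⟪vec η (qrow η N g), v⟫_ℝ ^ 2) =
        fun g => (∑ i, fun g : Fin d → ℝ => X i (g i)) g ^ 2 := by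
      rw [← e]
    rw [e2, rowLaw, hvar, EuclideanSpace.norm_eq, sq_sqrt (by positivity)]
    refine sum_le_sum fun i _ => ?_
    rw [show X i = fun t => v i * a t from rfl, variance_const_mul,
      variance_of_integral_eq_zero hma.aemeasurable hmean, Real.norm_eq_abs, sq_abs]
    refine mul_le_of_le_one_right (sq_nonneg _) ?_
    calc ∫ t, a t ^ 2 ∂gaussianReal 0 1 ≤ ∫ t, t ^ 2 ∂gaussianReal 0 1 := by
          refine integral_mono ha2.integrable_sq
            (IsGaussian.memLp_two_id (μ := gaussianReal 0 1)).integrable_sq fun t => ?_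
          exact sq_le_sq.2 (abs_qz_le hη t)
      _ = 1 := by
          have := variance_of_integral_eq_zero (μ := gaussianReal 0 1) (X := id) aemeasurable_id
            integral_id_gaussianReal
          simpa [variance_id_gaussianReal] using this.symm
  · have hb : ∀ x : rowSet d N, rowProb η N x ≤ η ^ d := fun x => by
      have : qrow η N ⁻¹' {x.1} = Set.univ.pi fun i => qz η N ⁻¹' {x.1 i} := by
        ext g; simp [qrow, funext_iff]
      rw [rowProb, this, rowLaw, measureReal_def, Measure.pi_pi, ENNReal.toReal_prod]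
      calc ∏ i, (gaussianReal 0 1 (qz η N ⁻¹' {x.1 i})).toReal ≤ ∏ _i : Fin d, η :=
            prod_le_prod (fun i _ => ENNReal.toReal_nonneg) fun i _ => qz_fibre_le hη hN0 hN _
        _ = η ^ d := by simp
    calc (d : ℝ) * (log η⁻¹ - 1) ≤ d * log η⁻¹ := by
          have : (0 : ℝ) ≤ d := d.cast_nonneg
          nlinarith
      _ = ∑ x : rowSet d N, rowProb η N x * (d * log η⁻¹) := by
          rw [← sum_mul, hpmf.sum_one, one_mul]
      _ ≤ ent (rowProb (d := d) η N) id := by
          refine sum_le_sum fun x _ => ?_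
          rcases (hpmf.nonneg x).lt_or_eq with h | h
          · refine mul_le_mul_of_nonneg_left ?_ h.le
            have hp : pr (rowProb (d := d) η N) id (id x) = rowProb η N x := by
              classical
              rw [pr, sum_eq_single x]
              · simp
              · intro y _ hy; simp [hy]
              · simp
            rw [hp, log_inv]
            have := log_le_log h (hb x)
            rw [log_pow] at this
            linarith
          · simp [← h]

end Vale.Agent.P309
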