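import Vale.Agent.P309.Model
import Vale.Agent.P309.FModel
import Vale.Agent.P309.Approx
import Vale.Agent.P309.Cap
import Vale.Agent.P309.Rows

/-!
From a learner to a quantised learner.
-/

namespace Vale.Agent.P309

open MeasureTheory ProbabilityTheory Finset Real
open scoped InnerProductSpace

variable {d M T : ℕ}

theorem measurable_run (A : Learner d M T) (n : ℕ) :
    Measurable fun p : A.Seed × ((Fin d → ℝ) × (Fin T → Fin d → ℝ)) =>
      A.run p.1 p.2.1 p.2.2 n := by
  induction n with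
  | zero => exact measurable_const.prodMk (A.measurable_init.comp measurable_fst)
  | succ n ih =>
    unfold Learner.run
    by_cases h : n < T
    · simp only [dif_pos h]
      have key : Measurable fun q :
          (ℕ × Fin (2 ^ M)) × (A.Seed × ((Fin d → ℝ) × (Fin T → Fin d → ℝ))) =>
          if q.1.1 < n ∨ A.stop q.2.1 q.1.1 q.1.2 = true then q.1
            else (n + 1, A.step q.2.1 n q.1.2 (q.2.2.2 ⟨n, h⟩, dot (q.2.2.2 ⟨n, h⟩) q.2.2.1)) := by
        refine measurable_from_prod_countable_right fun v => ?_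
        refine Measurable.ite ?_ measurable_const (measurable_const.prodMk ?_)
        · exact (MeasurableSet.const (v.1 < n)).union
            (((A.measurable_stop v.1 v.2).comp measurable_fst) (measurableSet_singleton true))
        · refine (A.measurable_step n v.2).comp (measurable_fst.prodMk ?_)
          refine Measurable.prodMk (by fun_prop) ?_
          unfold dot; fun_prop
      exact key.comp (ih.prodMk measurable_id)
    · simp only [dif_neg h]; exact ih

theorem run_fst_le (A : Learner d M T) (r : A.Seed) (s : Fin d → ℝ) (x : Fin T → Fin d → ℝ)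
    (n : ℕ) : (A.run r s x n).1 ≤ n := by
  induction n with
  | zero => simp [Learner.run]
  | succ n ih =>
    simp only [Learner.run]
    split_ifs <;> (try simp) <;> omega

theorem measurableSet_success (A : Learner d M T) (ε : ℝ) :
    MeasurableSet {p : A.Seed × ((Fin d → ℝ) × (Fin T → Fin d → ℝ)) |
      Real.arccos (dot (A.output p.1 p.2.1 p.2.2) p.2.1) ≤ ε} := by
  have hg : Measurable fun q : (ℕ × Fin (2 ^ M)) × A.Seed => A.guess q.2 q.1.1 q.1.2 :=
    measurable_from_prod_countable_right fun v => A.measurable_guess v.1 v.2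
  have ho : Measurable fun p : A.Seed × ((Fin d → ℝ) × (Fin T → Fin d → ℝ)) =>
      A.output p.1 p.2.1 p.2.2 := hg.comp ((measurable_run A T).prodMk measurable_fst)
  refine measurableSet_le (Real.continuous_arccos.measurable.comp ?_) measurable_const
  unfold dot
  fun_prop

/-- some value of the randomness is as good as the average -/
theorem exists_good_seed (A : Learner d M T) {ε : ℝ} (h : A.Succeeds ε) :
    ∃ r : A.Seed, (2 / 3 : ENNReal) ≤
      ((signalLaw d).prod (Measure.pi fun _ : Fin T => rowLaw d))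
        {q | Real.arccos (dot (A.output r q.1 q.2) q.1) ≤ ε} := by
  have := A.isProb
  have : IsProbabilityMeasure (rowLaw d) := by unfold rowLaw; infer_instance
  have : IsProbabilityMeasure (signalLaw d) := by
    unfold signalLaw
    exact Measure.isProbabilityMeasure_map (by unfold dot; fun_prop)
  set ν := (signalLaw d).prod (Measure.pi fun _ : Fin T => rowLaw d) with hν
  have hm := measurableSet_success A ε
  have h' := h
  rw [Learner.Succeeds, Measure.prod_apply hm] at h'
  obtain ⟨r, hr⟩ := exists_lintegral_le (μ := A.seedLaw)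
    (f := fun r => ν (Prod.mk r ⁻¹' {p : A.Seed × ((Fin d → ℝ) × (Fin T → Fin d → ℝ)) |
      Real.arccos (dot (A.output p.1 p.2.1 p.2.2) p.2.1) ≤ ε}))
    (ne_top_of_le_ne_top ENNReal.one_ne_top ((lintegral_mono fun r => prob_le_one).trans (by simp)))
  exact ⟨r, h'.trans hr⟩

/-- from a signal to its integer point -/
noncomputable def qsig (L : ℕ) (s : EuclideanSpace ℝ (Fin d)) : Fin d → ℤ :=
  fun i => ⌊s i / mesh d L⌋

theorem abs_qsig_sub_le (hd : 0 < d) (L : ℕ) (s : EuclideanSpace ℝ (Fin d)) (i : Fin d) :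
    |vec (mesh d L) (qsig L s) i - s i| ≤ mesh d L := by
  have hm := mesh_pos hd L
  rw [vec_apply, qsig]
  have h1 := Int.floor_le (s i / mesh d L)
  have h2 := Int.lt_floor_add_one (s i / mesh d L)
  rw [le_div_iff₀ hm] at h1
  rw [div_lt_iff₀ hm] at h2
  rw [abs_le]; constructor <;> nlinarith

theorem norm_qsig_sub_le (hd : 0 < d) (L : ℕ) (s : EuclideanSpace ℝ (Fin d)) :
    ‖vec (mesh d L) (qsig L s) - s‖ ≤ ((2 : ℝ) ^ L)⁻¹ := by
  have hsd : (0 : ℝ) < √d := sqrt_pos.2 (by exact_mod_cast hd)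
  refine (norm_le_of_abs_le (b := mesh d L) (mesh_pos hd L).le fun i => ?_).trans (le_of_eq ?_)
  · rw [PiLp.sub_apply]; exact abs_qsig_sub_le hd L s i
  · rw [mesh]; field_simp

theorem abs_coord_le {s : EuclideanSpace ℝ (Fin d)} (hs : ‖s‖ = 1) (i : Fin d) : |s i| ≤ 1 := by
  rw [← Real.norm_eq_abs, ← hs]
  exact PiLp.norm_apply_le s i

open Classical in
/-- the possible integer points -/
noncomputable def sigSet (d L : ℕ) : Finset (Fin d → ℤ) :=
  (Fintype.piFinset fun _ => Icc (-((2 : ℤ) ^ L * d + 1)) ((2 : ℤ) ^ L * d + 1)).filter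
    fun z => |‖vec (mesh d L) z‖ - 1| ≤ ((2 : ℝ) ^ L)⁻¹

theorem qsig_mem (hd : 0 < d) (L : ℕ) {s : EuclideanSpace ℝ (Fin d)} (hs : ‖s‖ = 1) :
    qsig L s ∈ sigSet d L := by
  classical
  rw [sigSet, mem_filter, Fintype.mem_piFinset]
  refine ⟨fun i => ?_, ?_⟩
  · have hb : |s i / mesh d L| ≤ ((2 : ℤ) ^ L * d : ℤ) := by
      rw [mesh, div_inv_eq_mul, abs_mul, abs_of_nonneg (by positivity : (0 : ℝ) ≤ 2 ^ L * √d)]
      push_cast
      calc |s i| * (2 ^ L * √d) ≤ 1 * (2 ^ L * √d) :=
            mul_le_mul_of_nonneg_right (abs_coord_le hs i) (by positivity)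
        _ ≤ 2 ^ L * d := by
            rw [one_mul]
            refine mul_le_mul_of_nonneg_left (sqrt_le_iff.2 ⟨d.cast_nonneg, ?_⟩) (by positivity)
            have : (1 : ℝ) ≤ d := by exact_mod_cast hd
            nlinarith
    rw [Finset.mem_Icc]
    obtain ⟨h1, h2⟩ := abs_le.1 hb
    refine ⟨Int.le_floor.2 ?_, ?_⟩
    · push_cast at h1 ⊢; linarith
    · refine Int.floor_le_iff.2 ?_
      push_cast at h2 ⊢; linarith
  · have := abs_norm_sub_norm_le (vec (mesh d L) (qsig L s)) s
    rw [hs] at this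
    exact this.trans (norm_qsig_sub_le hd L s)

theorem norm_sub_le_of_arccos_le {o s : EuclideanSpace ℝ (Fin d)} (ho : ‖o‖ = 1) (hs : ‖s‖ = 1)
    {ε : ℝ} (hε : 0 ≤ ε) (h : Real.arccos ⟪o, s⟫_ℝ ≤ ε) : ‖o - s‖ ≤ ε := by
  have hab : |⟪o, s⟫_ℝ| ≤ 1 := by simpa [ho, hs] using abs_real_inner_le_norm o s
  have hc := cos_arccos (abs_le.1 hab).1 (abs_le.1 hab).2
  have h1 := one_sub_sq_div_two_le_cos (x := Real.arccos ⟪o, s⟫_ℝ)
  rw [hc] at h1
  have h2 := pow_le_pow_left₀ (Real.arccos_nonneg _) h 2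
  refine le_of_pow_le_pow_left₀ two_ne_zero hε ?_
  rw [norm_sub_sq_real, ho, hs]
  nlinarith

theorem label_close (hd : 0 < d) {η R : ℝ} {N : ℕ} (L L₀ : ℕ) (hη : 0 < η) (hη2 : η ≤ 1)
    (g : Fin d → ℝ) (hg : ∀ i, |g i| ≤ R) (hR : R ≤ η * N) {s : EuclideanSpace ℝ (Fin d)}
    (hs : ‖s‖ = 1) :
    |(lab η L L₀ (qrow η N g) (qsig L s) : ℝ) / 2 ^ L₀ - dot g (WithLp.ofLp s)| ≤
      ((2 : ℝ) ^ L₀)⁻¹ + d * (2 * η) + d * (R * mesh d L) := by
  set I := ⟪vec η (qrow η N g), vec (mesh d L) (qsig L s)⟫_ℝ with hI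
  have hA : |(lab η L L₀ (qrow η N g) (qsig L s) : ℝ) / 2 ^ L₀ - I| ≤ ((2 : ℝ) ^ L₀)⁻¹ := by
    rw [lab, ← hI]
    have h1 := Int.floor_le (2 ^ L₀ * I)
    have h2 := Int.lt_floor_add_one (2 ^ L₀ * I)
    have hp : (0 : ℝ) < 2 ^ L₀ := by positivity
    rw [show (⌊2 ^ L₀ * I⌋ : ℝ) / 2 ^ L₀ - I = ((⌊2 ^ L₀ * I⌋ : ℝ) - 2 ^ L₀ * I) / 2 ^ L₀ by
      field_simp, abs_div, abs_of_pos hp, div_le_iff₀ hp, inv_mul_cancel₀ hp.ne', abs_le]
    constructor <;> linarith
  have hm1 : mesh d L ≤ 1 := by
    rw [mesh]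
    refine inv_le_one_of_one_le₀ (one_le_mul_of_one_le_of_one_le (one_le_pow₀ (by norm_num)) ?_)
    exact Real.one_le_sqrt.2 (by exact_mod_cast hd)
  have hB : |I - dot g (WithLp.ofLp s)| ≤ d * (2 * η) + d * (R * mesh d L) := by
    rw [hI, inner_eq_sum, dot, ← sum_sub_distrib]
    refine (abs_sum_le_sum_abs _ _).trans ?_
    calc ∑ i, |vec η (qrow η N g) i * vec (mesh d L) (qsig L s) i - g i * s.ofLp i|
        ≤ ∑ _i : Fin d, (2 * η + R * mesh d L) := sum_le_sum fun i _ => by
          have e1 : |vec η (qrow η N g) i - g i| ≤ η := by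
            rw [vec_apply]; exact abs_qz_sub_le hη ((hg i).trans hR)
          have e2 := abs_qsig_sub_le hd L s i
          have e3 : |vec (mesh d L) (qsig L s) i| ≤ 2 := by
            have := abs_sub_abs_le_abs_sub (vec (mesh d L) (qsig L s) i) (s i)
            linarith [abs_coord_le hs i]
          rw [show vec η (qrow η N g) i * vec (mesh d L) (qsig L s) i - g i * s.ofLp i =
              (vec η (qrow η N g) i - g i) * vec (mesh d L) (qsig L s) i +
                g i * (vec (mesh d L) (qsig L s) i - s i) by ring]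
          refine (abs_add_le _ _).trans (add_le_add ?_ ?_) <;> rw [abs_mul]
          · rw [mul_comm 2 η]
            exact mul_le_mul e1 e3 (abs_nonneg _) hη.le
          · exact mul_le_mul (hg i) e2 (abs_nonneg _) ((abs_nonneg _).trans (hg i))
      _ = d * (2 * η) + d * (R * mesh d L) := by simp [mul_add]
  calc _ ≤ _ + |I - dot g (WithLp.ofLp s)| := abs_sub_le _ I _
    _ ≤ _ := by linarith

theorem signalLaw_eq (hd : 0 < d) (e : EuclideanSpace ℝ (Fin d)) :
    signalLaw d = (stdGaussian (EuclideanSpace ℝ (Fin d))).map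
      fun u => WithLp.ofLp (sph e u) := by
  have : Nonempty (Fin d) := ⟨⟨0, hd⟩⟩
  have : NullSingletonClass (gaussianReal 0 1) := nullSingletonClass_gaussianReal one_ne_zero
  rw [← map_pi_eq_stdGaussian, Measure.map_map (g := fun u => WithLp.ofLp (sph e u))
    ((WithLp.measurable_ofLp 2 _).comp (measurable_sph e)) (WithLp.measurable_toLp 2 _), signalLaw,
    rowLaw]
  refine Measure.map_congr ?_
  have hz : (Measure.pi fun _ : Fin d => gaussianReal 0 1) {(0 : Fin d → ℝ)} = 0 := by
    rw [← Set.univ_pi_singleton, Measure.pi_pi]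
    exact prod_eq_zero (mem_univ (Classical.arbitrary _)) (measure_singleton _)
  filter_upwards [measure_eq_zero_iff_ae_notMem.1 hz] with g hg
  have hg' : WithLp.toLp 2 g ≠ (0 : EuclideanSpace ℝ (Fin d)) := fun h =>
    hg (by simpa using congrArg WithLp.ofLp h)
  have hn : ‖WithLp.toLp 2 g‖ = √(dot g g) := by
    rw [EuclideanSpace.norm_eq]; congr 1
    simp [dot, sq]
  simp [sph, hg', hn]

/-- a learner that succeeds gives a quantised one -/
theorem exists_fmodel {d M T ℓ : ℕ} (hd : 2 ≤ d) (A : Learner d M T) {ε : ℝ} (hε0 : 0 ≤ ε)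
    (hε : ε ≤ ((2 : ℝ) ^ ℓ)⁻¹) (h : A.Succeeds ε) : Nonempty (FModel d M T ℓ) := by
  classical
  have hd0 : 0 < d := by omega
  have : IsProbabilityMeasure (rowLaw d) := by unfold rowLaw; infer_instance
  obtain ⟨r, hr⟩ := exists_good_seed A h
  let e₀ : EuclideanSpace ℝ (Fin d) := EuclideanSpace.single ⟨0, hd0⟩ 1
  have he₀ : ‖e₀‖ = 1 := by simp [e₀]
  have hsm : Measurable (sph e₀) := measurable_sph e₀
  -- the marginal law of a pair
  let γ := stdGaussian (EuclideanSpace ℝ (Fin d))
  let pair : EuclideanSpace ℝ (Fin d) × (Fin d → ℝ) → (Fin d → ℝ) × ℝ :=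
    fun q => (q.2, dot q.2 (WithLp.ofLp (sph e₀ q.1)))
  have hpm : Measurable pair := by
    refine measurable_snd.prodMk ?_
    unfold dot; fun_prop
  let μ₁ := (γ.prod (rowLaw d)).map pair
  have : IsProbabilityMeasure μ₁ := Measure.isProbabilityMeasure_map hpm.aemeasurable
  set K : ℝ := (T : ℝ) * 2 ^ M + T * d + 1 with hK
  have hKpos : 0 < K := by positivity
  set τ : ℝ := 1 / (15 * K) with hτ
  have hτpos : 0 < τ := by positivity
  have : NeZero (2 ^ M) := ⟨by positivity⟩
  have happ : ∀ q : ℕ × Fin (2 ^ M), ∃ δ : ℝ, 0 < δ ∧ ∃ φ : (Fin d → ℝ) × ℝ → Fin (2 ^ M),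
      ∃ G : Set ((Fin d → ℝ) × ℝ), MeasurableSet G ∧ μ₁.real Gᶜ ≤ τ ∧
        ∀ p ∈ G, ∀ u, dist u p < δ → φ u = A.step r q.1 q.2 p := fun q =>
    exists_stable μ₁ _ (fun k => ((A.measurable_step q.1 q.2).comp measurable_prodMk_left)
      (measurableSet_singleton k)) hτpos
  choose δf hδf φ G hGm hGτ hφ using happ
  obtain ⟨δ, hδ, hδle⟩ : ∃ δ : ℝ, 0 < δ ∧ ∀ q : Fin T × Fin (2 ^ M), δ ≤ δf (q.1, q.2) := by
    rcases isEmpty_or_nonempty (Fin T × Fin (2 ^ M)) with h | h
    · exact ⟨1, one_pos, fun q => h.elim q⟩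
    · obtain ⟨q₀, hq₀⟩ := Finite.exists_min fun q : Fin T × Fin (2 ^ M) => δf (q.1, q.2)
      exact ⟨_, hδf _, hq₀⟩
  -- parameters
  obtain ⟨R, hR1, hRτ⟩ : ∃ R : ℝ, 1 ≤ R ∧ 1 / R ^ 2 ≤ τ := by
    refine ⟨max 1 (1 / τ), le_max_left _ _, ?_⟩
    have h2 : 1 / τ ≤ max 1 (1 / τ) := le_max_right _ _
    have h3 : max 1 (1 / τ) ≤ max 1 (1 / τ) ^ 2 := le_self_pow₀ (le_max_left _ _) two_ne_zero
    rw [div_le_iff₀ (by positivity)]
    have := (div_le_iff₀ hτpos).1 (h2.trans h3)
    linarith
  have hsmall : ∀ c : ℝ, 0 < c → ∃ n : ℕ, ((2 : ℝ) ^ n)⁻¹ ≤ c := fun c hc => by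
    obtain ⟨n, hn⟩ := exists_pow_lt_of_lt_one hc (by norm_num : (2 : ℝ)⁻¹ < 1)
    exact ⟨n, by rw [← inv_pow]; exact hn.le⟩
  obtain ⟨L₀, hL₀⟩ := hsmall (δ / 4) (by positivity)
  obtain ⟨L₁, hL₁⟩ := hsmall (δ / 4 / (d * R)) (by positivity)
  set L := max (max ℓ L₀) L₁ with hL
  set η : ℝ := min (min 1 (δ / (8 * d))) (1 / (2 ^ L₀ * (2 * d))) with hη
  have hηpos : 0 < η := by positivity
  have hη1 : η ≤ 1 := (min_le_left _ _).trans (min_le_left _ _)
  have hηδ : η ≤ δ / (8 * d) := (min_le_left _ _).trans (min_le_right _ _)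
  have hηL : η * (2 ^ L₀ * (2 * d)) ≤ 1 :=
    (le_div_iff₀ (by positivity)).1 (min_le_right _ _)
  obtain ⟨N, hN⟩ := exists_nat_ge (max (R / η) (1 / η ^ 2))
  have hNR : R ≤ η * N := by
    have := (le_max_left _ _).trans hN
    rw [div_le_iff₀ hηpos] at this
    linarith
  have hN0 : 0 < N := by
    rcases Nat.eq_zero_or_pos N with h0 | h0
    · rw [h0] at hNR; simp at hNR; linarith
    · exact h0
  have hNη : 1 / (η * N) ^ 2 ≤ η := by
    have := (le_max_right _ _).trans hN
    rw [div_le_iff₀ (by positivity)] at this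
    have h1 : (1 : ℝ) ≤ η * N := hR1.trans hNR
    rw [div_le_iff₀ (by positivity)]
    nlinarith
  have herr : ∀ (g : Fin d → ℝ) (s : EuclideanSpace ℝ (Fin d)), (∀ i, |g i| ≤ R) → ‖s‖ = 1 →
      dist (WithLp.ofLp (vec η (qrow η N g)), (lab η L L₀ (qrow η N g) (qsig L s) : ℝ) / 2 ^ L₀)
        (g, dot g (WithLp.ofLp s)) < δ := by
    intro g s hg hs
    have hd1 : (1 : ℝ) ≤ d := by exact_mod_cast hd0
    have h8 : η * (8 * d) ≤ δ := (le_div_iff₀ (by positivity)).1 hηδ
    rw [Prod.dist_eq, max_lt_iff]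
    constructor
    · refine (dist_pi_lt_iff hδ).2 fun i => ?_
      rw [Real.dist_eq]
      refine lt_of_le_of_lt ?_ (show η < δ by nlinarith)
      exact abs_qz_sub_le hηpos ((hg i).trans hNR)
    · rw [Real.dist_eq]
      refine lt_of_le_of_lt (label_close hd0 L L₀ hηpos hη1 g hg hNR hs) ?_
      have hm : mesh d L ≤ δ / 4 / (d * R) := by
        refine le_trans ?_ hL₁
        rw [mesh]
        refine inv_anti₀ (by positivity) ?_
        calc (2 : ℝ) ^ L₁ = 2 ^ L₁ * 1 := (mul_one _).symm
          _ ≤ 2 ^ L * √d := by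
            refine mul_le_mul (pow_le_pow_right₀ (by norm_num) (le_max_right _ _))
              (Real.one_le_sqrt.2 hd1) zero_le_one (by positivity)
      rw [le_div_iff₀ (by positivity)] at hm
      nlinarith
  -- the finite learner
  let frozen : Fin T → St M T → Bool := fun t p =>
    decide (p.1.val < t.val) || A.stop r p.1.val p.2
  let step : Fin T → St M T → rowSet d N → ℤ → St M T := fun t p x y =>
    if frozen t p = true then p
    else (t.succ, φ (t.val, p.2) (WithLp.ofLp (vec η x.1), (y : ℝ) / 2 ^ L₀))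
  let guess : St M T → EuclideanSpace ℝ (Fin d) := fun p =>
    WithLp.toLp 2 (A.guess r p.1.val p.2)
  let init : St M T := (⟨0, T.succ_pos⟩, A.init r)
  have hqm : Measurable fun u => qsig L (sph e₀ u) := by
    refine measurable_pi_lambda _ fun i => ?_
    unfold qsig
    fun_prop
  let prior : sigSet d L → ℝ := fun z => γ.real ((fun u => qsig L (sph e₀ u)) ⁻¹' {z.1})
  have hpmem : ∀ u, qsig L (sph e₀ u) ∈ sigSet d L := fun u =>
    qsig_mem hd0 L (norm_sph he₀ u)
  have hrmem : ∀ g : Fin d → ℝ, qrow η N g ∈ rowSet d N := qrow_mem hηpos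
  have hprior : IsPmf prior := by
    refine ⟨fun z => measureReal_nonneg, ?_⟩
    rw [show ∑ z, prior z = ∑ z ∈ sigSet d L,
        γ.real ((fun u => qsig L (sph e₀ u)) ⁻¹' {z}) from
      sum_coe_sort (sigSet d L) fun z => γ.real ((fun u => qsig L (sph e₀ u)) ⁻¹' {z}),
      sum_measureReal_preimage_singleton _ fun z _ => hqm (measurableSet_singleton z)]
    rw [show (fun u => qsig L (sph e₀ u)) ⁻¹' ↑(sigSet d L) = Set.univ from
      Set.eq_univ_of_forall hpmem, probReal_univ]
  refine ⟨{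
    L := L
    L₀ := L₀
    η := η
    ℓ_le := (le_max_left _ _).trans (le_max_left _ _)
    L₀_le := (le_max_right _ _).trans (le_max_left _ _)
    η_pos := hηpos
    η_le := hηL
    S := rowSet d N
    ρ := rowProb η N
    rows := rowHyp hηpos hN0 hNη
    Z := sigSet d L
    prior := prior
    prior_pmf := hprior
    near := fun z hz => (mem_filter.1 hz).2
    spread := ?_
    init := init
    step := step
    step_idx := fun t p x y => by
      simp only [step]; split_ifs <;> simp
    guess := guess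
    success := ?_ }⟩
  · intro z
    by_cases hne : ∃ u, qsig L (sph e₀ u) = z.1
    · obtain ⟨u₀, hu₀⟩ := hne
      refine le_trans (measureReal_mono ?_)
        ((cap_le hd e₀ (norm_sph he₀ u₀) (r := 2 / 2 ^ L) (by positivity)).trans (le_of_eq ?_))
      · intro u hu
        simp only [Set.mem_preimage, Set.mem_singleton_iff] at hu
        have h1 := norm_qsig_sub_le hd0 L (sph e₀ u)
        have h2 := norm_qsig_sub_le hd0 L (sph e₀ u₀)
        rw [hu] at h1
        rw [hu₀] at h2
        show ‖sph e₀ u - sph e₀ u₀‖ ≤ 2 / 2 ^ L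
        calc ‖sph e₀ u - sph e₀ u₀‖
            = ‖(vec (mesh d L) z.1 - sph e₀ u₀) - (vec (mesh d L) z.1 - sph e₀ u)‖ := by
              congr 1; abel
          _ ≤ _ + _ := norm_sub_le _ _
          _ ≤ ((2 : ℝ) ^ L)⁻¹ + ((2 : ℝ) ^ L)⁻¹ := add_le_add h2 h1
          _ = 2 / 2 ^ L := by ring
      · ring
    · have : (fun u => qsig L (sph e₀ u)) ⁻¹' {z.1} = ∅ :=
        Set.eq_empty_of_forall_notMem fun u hu => hne ⟨u, hu⟩
      simp only [prior, this, measureReal_empty]
      positivity
  · -- success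
    let ω := EuclideanSpace ℝ (Fin d) × (Fin T → Fin d → ℝ)
    let P : Measure ω := γ.prod (Measure.pi fun _ : Fin T => rowLaw d)
    let Φ : ω → sigSet d L × (Fin T → rowSet d N) := fun q =>
      (⟨qsig L (sph e₀ q.1), hpmem q.1⟩, fun t => ⟨qrow η N (q.2 t), hrmem (q.2 t)⟩)
    let fin : sigSet d L × (Fin T → rowSet d N) → St M T := fun a =>
      (List.finRange T).foldl (fun p t => step t p (a.2 t) (lab η L L₀ (a.2 t).1 a.1.1)) init
    let Win : Finset (sigSet d L × (Fin T → rowSet d N)) := univ.filter fun a =>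
      ‖guess (fin a) - vec (mesh d L) a.1.1‖ ≤ 2 / 2 ^ ℓ
    have hΦm : ∀ a, MeasurableSet (Φ ⁻¹' {a}) := by
      intro a
      have : Φ ⁻¹' {a} = (((fun u => qsig L (sph e₀ u)) ⁻¹' {a.1.1}) ×ˢ
          Set.univ.pi fun t => qrow η N ⁻¹' {(a.2 t).1}) := by
        ext q; simp [Φ, ω, Prod.ext_iff, Subtype.ext_iff, funext_iff, Set.mem_prod]
      rw [this]
      exact (hqm (measurableSet_singleton _)).prod
        (MeasurableSet.univ_pi fun t => measurable_qrow (measurableSet_singleton _))
    have hfib : ∀ a, P.real (Φ ⁻¹' {a}) = prior a.1 * ∏ t, rowProb η N (a.2 t) := by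
      intro a
      have : Φ ⁻¹' {a} = (((fun u => qsig L (sph e₀ u)) ⁻¹' {a.1.1}) ×ˢ
          Set.univ.pi fun t => qrow η N ⁻¹' {(a.2 t).1}) := by
        ext q; simp [Φ, ω, Prod.ext_iff, Subtype.ext_iff, funext_iff, Set.mem_prod]
      rw [this, measureReal_prod_prod, measureReal_def (μ := Measure.pi _), Measure.pi_pi,
        ENNReal.toReal_prod]
      rfl
    have hsum : (∑ z : sigSet d L, ∑ x : Fin T → rowSet d N,
        if ‖guess ((List.finRange T).foldl
            (fun p t => step t p (x t) (lab η L L₀ (x t).1 z.1)) init) - vec (mesh d L) z.1‖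
              ≤ 2 / 2 ^ ℓ
        then prior z * ∏ t, rowProb η N (x t) else 0) = P.real (Φ ⁻¹' ↑Win) := by
      rw [← sum_measureReal_preimage_singleton Win fun a _ => hΦm a,
        sum_congr rfl fun a _ => hfib a, sum_filter, ← univ_product_univ, sum_product]
    rw [hsum]
    -- the events
    let real : Set ω := {q | Real.arccos
      (dot (A.output r (WithLp.ofLp (sph e₀ q.1)) q.2) (WithLp.ofLp (sph e₀ q.1))) ≤ ε}
    have hreal : (2 / 3 : ℝ) ≤ P.real real := by
      have hme : Measurable fun u : EuclideanSpace ℝ (Fin d) => WithLp.ofLp (sph e₀ u) := by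
        fun_prop
      have hms : MeasurableSet {q : (Fin d → ℝ) × (Fin T → Fin d → ℝ) |
          Real.arccos (dot (A.output r q.1 q.2) q.1) ≤ ε} :=
        measurable_prodMk_left (measurableSet_success A ε)
      have hmap : (signalLaw d).prod (Measure.pi fun _ : Fin T => rowLaw d) =
          P.map (Prod.map (fun u => WithLp.ofLp (sph e₀ u)) id) := by
        rw [← Measure.map_prod_map _ _ hme measurable_id, Measure.map_id, signalLaw_eq hd0 e₀]
      rw [hmap, Measure.map_apply (hme.prodMap measurable_id) hms] at hr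
      have := ENNReal.toReal_mono (measure_ne_top P _) hr
      simpa [measureReal_def, real] using this
    let bad1 : Fin T → Fin (2 ^ M) → Set ω := fun t w =>
      (fun q => pair (q.1, q.2 t)) ⁻¹' (G (t.val, w))ᶜ
    let bad2 : Fin T → Fin d → Set ω := fun t i => (fun q : ω => q.2 t i) ⁻¹' {a | R ≤ |a|}
    have hev : ∀ t : Fin T, MeasurePreserving (fun q : ω => (q.1, q.2 t)) P
        (γ.prod (rowLaw d)) := fun t =>
      (MeasurePreserving.id γ).prod (measurePreserving_eval (fun _ : Fin T => rowLaw d) t)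
    have hb1 : ∀ t w, P.real (bad1 t w) ≤ τ := by
      intro t w
      refine le_of_eq_of_le ?_ (hGτ (t.val, w))
      rw [map_measureReal_apply hpm (hGm _).compl]
      exact (hev t).measureReal_preimage ((hpm (hGm _).compl).nullMeasurableSet)
    have hb2 : ∀ t i, P.real (bad2 t i) ≤ τ := by
      intro t i
      refine le_of_eq_of_le ?_ ((gaussianReal_tail_le (by linarith : (0 : ℝ) < R)).trans hRτ)
      have h1 : MeasurePreserving (fun q : ω => q.2 t i) P (gaussianReal 0 1) :=
        (measurePreserving_eval (fun _ : Fin d => gaussianReal 0 1) i).comp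
          ((measurePreserving_eval (fun _ : Fin T => rowLaw d) t).comp measurePreserving_snd)
      exact h1.measureReal_preimage
        ((measurableSet_le measurable_const continuous_abs.measurable).nullMeasurableSet)
    have hcover : real ⊆ Φ ⁻¹' ↑Win ∪ ((⋃ t, ⋃ w, bad1 t w) ∪ ⋃ t, ⋃ i, bad2 t i) := by
      intro q hq
      by_contra hcon
      simp only [Set.mem_union, Set.mem_iUnion, not_or, not_exists] at hcon
      obtain ⟨hW, hG', hR'⟩ := hcon
      set s := sph e₀ q.1 with hs
      have hs1 : ‖s‖ = 1 := norm_sph he₀ _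
      let f : St M T → Fin T → St M T := fun p t =>
        step t p ((Φ q).2 t) (lab η L L₀ ((Φ q).2 t).1 (Φ q).1.1)
      have hsim : ∀ n ≤ T, (((((List.finRange T).take n).foldl f init).1.val,
          (((List.finRange T).take n).foldl f init).2)) =
            A.run r (WithLp.ofLp s) q.2 n := by
        intro n hn
        induction n with
        | zero => simp [init, Learner.run]
        | succ n ih =>
          have hn' : n < T := hn
          have hl : n < (List.finRange T).length := by simpa using hn'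
          rw [List.take_succ_eq_append_getElem hl, List.foldl_append]
          simp only [List.foldl_cons, List.foldl_nil, List.getElem_finRange]
          set p := ((List.finRange T).take n).foldl f init with hp
          have ih' := ih (by omega)
          simp only [Learner.run, dif_pos hn', ← ih', f, step, frozen, Fin.cast_mk,
            Bool.or_eq_true, decide_eq_true_eq]
          split_ifs with hc
          · rfl
          · refine Prod.ext (by simp) ?_
            have hmem : (q.2 ⟨n, hn'⟩, dot (q.2 ⟨n, hn'⟩) (WithLp.ofLp s)) ∈ G (n, p.2) := by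
              have := hG' ⟨n, hn'⟩ p.2
              simpa [bad1, pair] using this
            refine hφ (n, p.2) _ hmem _ ?_
            refine lt_of_lt_of_le (herr _ s (fun i => ?_) hs1) (hδle (⟨n, hn'⟩, p.2))
            exact (not_le.1 (hR' ⟨n, hn'⟩ i)).le
      have hfin := hsim T le_rfl
      rw [List.take_of_length_le (by simp)] at hfin
      apply hW
      rw [Set.mem_preimage, Finset.mem_coe, mem_filter]
      refine ⟨mem_univ _, ?_⟩
      have hout : A.output r (WithLp.ofLp s) q.2 =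
          A.guess r (fin (Φ q)).1.val (fin (Φ q)).2 := by
        rw [Learner.output, ← hfin]
      have hq' : Real.arccos (dot (A.output r (WithLp.ofLp s) q.2) (WithLp.ofLp s)) ≤ ε := hq
      rw [hout] at hq'
      have ho1 : ‖guess (fin (Φ q))‖ = 1 := by
        rw [EuclideanSpace.norm_eq]
        have := A.guess_unit r (fin (Φ q)).1.val (fin (Φ q)).2
        simp only [dot] at this
        simp [guess, sq, this]
      have hin : Real.arccos ⟪guess (fin (Φ q)), s⟫_ℝ ≤ ε := by
        rw [inner_eq_sum]; exact hq'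
      have h1 := norm_sub_le_of_arccos_le ho1 hs1 hε0 hin
      have h2 := norm_qsig_sub_le hd0 L s
      have h3 : ((2 : ℝ) ^ L)⁻¹ ≤ ((2 : ℝ) ^ ℓ)⁻¹ :=
        inv_anti₀ (by positivity)
          (pow_le_pow_right₀ (by norm_num) ((le_max_left _ _).trans (le_max_left _ _)))
      show ‖guess (fin (Φ q)) - vec (mesh d L) (qsig L s)‖ ≤ 2 / 2 ^ ℓ
      calc _ ≤ ‖guess (fin (Φ q)) - s‖ + ‖s - vec (mesh d L) (qsig L s)‖ :=
            norm_sub_le_norm_sub_add_norm_sub _ _ _
        _ ≤ ((2 : ℝ) ^ ℓ)⁻¹ + ((2 : ℝ) ^ ℓ)⁻¹ :=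
            add_le_add (h1.trans hε) (by rw [norm_sub_rev]; exact h2.trans h3)
        _ = 2 / 2 ^ ℓ := by ring
    have hle := (measureReal_mono (μ := P) hcover).trans
      ((measureReal_union_le _ _).trans (add_le_add le_rfl (measureReal_union_le _ _)))
    have hu1 : P.real (⋃ t, ⋃ w, bad1 t w) ≤ T * 2 ^ M * τ := by
      refine (measureReal_iUnion_fintype_le _).trans ?_
      calc ∑ t, P.real (⋃ w, bad1 t w) ≤ ∑ _t : Fin T, ∑ _w : Fin (2 ^ M), τ :=
            sum_le_sum fun t _ => (measureReal_iUnion_fintype_le _).trans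
              (sum_le_sum fun w _ => hb1 t w)
        _ = T * 2 ^ M * τ := by simp; ring
    have hu2 : P.real (⋃ t, ⋃ i, bad2 t i) ≤ T * d * τ := by
      refine (measureReal_iUnion_fintype_le _).trans ?_
      calc ∑ t, P.real (⋃ i, bad2 t i) ≤ ∑ _t : Fin T, ∑ _i : Fin d, τ :=
            sum_le_sum fun t _ => (measureReal_iUnion_fintype_le _).trans
              (sum_le_sum fun i _ => hb2 t i)
        _ = T * d * τ := by simp; ring
    have hKτ : K * τ = 1 / 15 := by rw [hτ]; field_simp
    nlinarith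

end Vale.Agent.P309
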