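import Vale.Agent.P309.Pot

/-!
The potential at the beginning and at the end.
-/

namespace Vale.Agent.P309

open Finset Real

variable {d : ℕ} {L : ℕ} {Z : Finset (Fin d → ℤ)} {Ω : Type*} [Fintype Ω] {P : Ω → ℝ}

theorem norm_vec_le (hnear : NearSphere L Z) (z : Z) : ‖vec (mesh d L) z.1‖ ≤ 2 := by
  have h := (abs_le.1 (hnear z.1 z.2)).2
  have : ((2 : ℝ) ^ L)⁻¹ ≤ 1 := inv_le_one_of_one_le₀ (one_le_pow₀ (by norm_num))
  linarith

theorem sum_abs_cell_le (hd : 0 < d) (hnear : NearSphere L Z) {m : ℕ} (hm : m ≤ L) (z : Z) :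
    ∑ i, |(cell L m z.1 i : ℝ)| ≤ 3 * d * 2 ^ m := by
  have hM := mesh_pos hd m
  have h1 : ‖vec (mesh d m) (cell L m z.1)‖ ≤ 3 := by
    have a1 := norm_vec_sub_cell hd hm z.1
    have a2 := norm_vec_le hnear z
    have a3 := norm_le_norm_add_norm_sub' (vec (mesh d m) (cell L m z.1)) (vec (mesh d L) z.1)
    rw [norm_sub_rev] at a3
    have : ((2 : ℝ) ^ m)⁻¹ ≤ 1 := inv_le_one_of_one_le₀ (one_le_pow₀ (by norm_num))
    linarith
  have h2 := (sum_abs_le (vec (mesh d m) (cell L m z.1))).trans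
    (mul_le_mul_of_nonneg_left h1 (sqrt_nonneg _))
  simp only [vec_apply, abs_mul, abs_of_pos hM, ← mul_sum] at h2
  rw [mesh, inv_mul_le_iff₀ (by positivity)] at h2
  refine h2.trans (le_of_eq ?_)
  have : √(d : ℝ) * √d = d := mul_self_sqrt (Nat.cast_nonneg d)
  linear_combination (3 * 2 ^ m : ℝ) * this

theorem abs_sub_pred_le (hd : 0 < d) (L : ℕ) {u a S : ℝ} (hu0 : 0 ≤ u) (ha0 : 0 ≤ a)
    (hS : 0 ≤ S) (hδ : |a - 1| ≤ ((2 : ℝ) ^ L)⁻¹) (ha2 : a ^ 2 = mesh d L ^ 2 * (u ^ 2 + S))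
    (hmax : u ^ 2 + S ≤ d * u ^ 2) :
    |u - √(max 0 ((mesh d L)⁻¹ ^ 2 - S))| ≤ 6 * d := by
  have hd' : (0 : ℝ) < d := by exact_mod_cast hd
  set h := mesh d L with hh'
  have hh : 0 < h := mesh_pos hd L
  set v := √(max 0 (h⁻¹ ^ 2 - S)) with hv
  have hv0 : 0 ≤ v := sqrt_nonneg _
  set δ := ((2 : ℝ) ^ L)⁻¹ with hδdef
  have hδ0 : 0 < δ := by positivity
  have hδ1 : δ ≤ 1 := inv_le_one_of_one_le₀ (one_le_pow₀ (by norm_num))
  have hinv : h⁻¹ = 2 ^ L * √d := by rw [hh', mesh, inv_inv]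
  have hsd : √(d : ℝ) ≤ d := (sqrt_le_left hd'.le).2
    (le_self_pow₀ (by exact_mod_cast hd) two_ne_zero)
  have hv2 : v ^ 2 = max 0 (h⁻¹ ^ 2 - S) := sq_sqrt (le_max_left _ _)
  by_cases hA : a < 1 / 2
  · have hL : (2 : ℝ) ^ L ≤ 2 := by
      have : 1 / 2 ≤ δ := by linarith [(abs_le.1 hδ).1]
      rw [hδdef, ← one_div, div_le_div_iff₀ two_pos (by positivity)] at this
      linarith
    have hi : h⁻¹ ≤ 2 * d := by rw [hinv]; exact mul_le_mul hL hsd (sqrt_nonneg _) two_pos.le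
    have b1 : v ≤ h⁻¹ := by
      rw [hv, sqrt_le_left (by positivity)]
      exact max_le (sq_nonneg _) (by linarith)
    have b2 : u ≤ h⁻¹ := by
      refine le_of_pow_le_pow_left₀ two_ne_zero (by positivity) ?_
      rw [inv_pow, ← one_div, le_div_iff₀ (by positivity)]
      nlinarith
    rw [abs_le]; constructor <;> linarith
  push Not at hA
  have c1 : |u ^ 2 - v ^ 2| ≤ h⁻¹ ^ 2 * |a ^ 2 - 1| := by
    have e : u ^ 2 - (h⁻¹ ^ 2 - S) = h⁻¹ ^ 2 * (a ^ 2 - 1) := by
      rw [ha2]; field_simp; ring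
    rw [← abs_of_nonneg (sq_nonneg h⁻¹), ← abs_mul, ← e, hv2]
    refine le_of_le_of_eq ?_ rfl
    rcases le_total 0 (h⁻¹ ^ 2 - S) with hp | hp
    · rw [max_eq_right hp]
    · rw [max_eq_left hp, sub_zero, abs_of_nonneg (sq_nonneg u), abs_of_nonneg (by nlinarith)]
      linarith
  have c2 : |a ^ 2 - 1| ≤ δ * (a + 1) := by
    rw [show a ^ 2 - 1 = (a - 1) * (a + 1) by ring, abs_mul,
      abs_of_pos (by linarith : 0 < a + 1)]
    exact mul_le_mul_of_nonneg_right hδ (by linarith)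
  have c3 : |u - v| * u ≤ |u ^ 2 - v ^ 2| := by
    rw [show u ^ 2 - v ^ 2 = (u - v) * (u + v) by ring, abs_mul,
      abs_of_nonneg (by linarith : 0 ≤ u + v)]
    exact mul_le_mul_of_nonneg_left (by linarith) (abs_nonneg _)
  have c4 : a * h⁻¹ ≤ √d * u := by
    refine le_of_pow_le_pow_left₀ two_ne_zero (by positivity) ?_
    rw [mul_pow, mul_pow, sq_sqrt hd'.le, ha2]
    field_simp
    linarith [hmax]
  have c5 : |u - v| * (a * h⁻¹) ≤ √d * (h⁻¹ ^ 2 * (δ * (a + 1))) :=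
    calc |u - v| * (a * h⁻¹) ≤ |u - v| * (√d * u) :=
          mul_le_mul_of_nonneg_left c4 (abs_nonneg _)
      _ = √d * (|u - v| * u) := by ring
      _ ≤ _ := mul_le_mul_of_nonneg_left (c3.trans (c1.trans
          (mul_le_mul_of_nonneg_left c2 (sq_nonneg _)))) (sqrt_nonneg _)
  have c6 : √d * h⁻¹ * δ = d := by
    rw [hinv, hδdef]; field_simp; exact sq_sqrt hd'.le
  have c7 : |u - v| * a * h⁻¹ ≤ d * (a + 1) * h⁻¹ := by
    have e : √d * (h⁻¹ ^ 2 * (δ * (a + 1))) = (√d * h⁻¹ * δ) * (a + 1) * h⁻¹ := by ring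
    rw [e, c6] at c5
    linarith
  have c8 := le_of_mul_le_mul_right c7 (by positivity)
  nlinarith [abs_nonneg (u - v)]

theorem abs_sub_cell_le (k : ℕ) (x : ℤ) :
    |(x : ℝ) - (2 : ℝ) ^ k * ((x / 2 ^ k : ℤ) : ℝ)| ≤ (2 : ℝ) ^ k := by
  have hk : (0 : ℤ) < 2 ^ k := by positivity
  have h3 : (x : ℝ) = (2 : ℝ) ^ k * ((x / 2 ^ k : ℤ) : ℝ) + ((x % 2 ^ k : ℤ) : ℝ) := by
    exact_mod_cast (Int.mul_ediv_add_emod x (2 ^ k)).symm
  have r0 : (0 : ℝ) ≤ ((x % 2 ^ k : ℤ) : ℝ) := by exact_mod_cast Int.emod_nonneg _ hk.ne'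
  have r1 : ((x % 2 ^ k : ℤ) : ℝ) ≤ (2 : ℝ) ^ k := by
    exact_mod_cast (Int.emod_lt_of_pos _ hk).le
  rw [abs_le]
  constructor <;> linarith

/-- a point next to the sphere costs one dimension less than the space -/
theorem cent_shell (hd : 2 ≤ d) (hnear : NearSphere L Z) (hP : IsPmf P) (z : Ω → Z) (σ : Ω → ℕ)
    (hσ : ∀ ω, σ ω ≤ L) :
    cent P z (fun ω => (σ ω, cell L (σ ω) (z ω).1))
      ≤ ((d : ℝ) - 1) * log 2 * (L - ev P (fun ω => (σ ω : ℝ))) + 18 * d := by
  classical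
  have hd0 : 0 < d := by omega
  haveI : Nonempty (Fin d) := ⟨⟨0, hd0⟩⟩
  have hd' : (0 : ℝ) < d := by exact_mod_cast hd0
  choose top _ htop using fun ω =>
    exists_max_image (univ : Finset (Fin d)) (fun i => |((z ω).1 i : ℝ)|) univ_nonempty
  let tag : Ω → Fin d × Bool := fun ω => (top ω, decide (0 ≤ (z ω).1 (top ω)))
  let g := fun ω => (σ ω, cell L (σ ω) (z ω).1)
  let others : Ω → Fin d → ℤ := fun ω j => if j = top ω then 0 else (z ω).1 j
  let R : (Fin d × Bool) × ℕ × (Fin d → ℤ) → Fin d → ℝ :=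
    fun q j => if j = q.1.1 then 1 else 2 ^ (L - q.2.1)
  let A : (Fin d × Bool) × ℕ × (Fin d → ℤ) → Fin d → ℝ :=
    fun q j => if j = q.1.1 then 0 else 2 ^ (L - q.2.1) * q.2.2 j
  let B : (Fin d → ℤ) × (Fin d × Bool) × ℕ × (Fin d → ℤ) → Fin d → ℝ := fun q j =>
    if j = q.2.1.1 then (if q.2.1.2 then 1 else -1) *
      √(max 0 ((mesh d L)⁻¹ ^ 2 - ∑ i, (q.1 i : ℝ) ^ 2)) else q.1 j
  have h0 : cent P tag g ≤ log (2 * d) := by
    refine (cent_le_gibbs hP tag g (fun _ _ => (2 * d : ℝ)⁻¹) (fun _ _ => by positivity)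
      (fun _ _ => by positivity) fun _ => ?_).trans_eq ?_
    · rw [sum_const, nsmul_eq_mul, ← div_eq_mul_inv, div_le_one (by positivity)]
      have h := card_le_univ (univ.image tag)
      simp only [Fintype.card_prod, Fintype.card_fin, Fintype.card_bool] at h
      exact_mod_cast h.trans (le_of_eq (mul_comm d 2))
    · rw [log_inv, neg_neg, ← sum_mul, hP.sum_one, one_mul]
  have h1 := cent_le_laplace hP others (fun ω => (tag ω, g ω)) A R fun q j => by
    simp only [R]; split_ifs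
    · exact le_rfl
    · exact one_le_pow₀ (by norm_num)
  have h2 := cent_le_laplace hP (fun ω => (z ω).1) (fun ω => (others ω, tag ω, g ω)) B
    (fun _ _ => 1) fun _ _ => le_rfl
  have e0 : cent P z g = cent P (fun ω => (z ω).1) g :=
    cent_congr (fun x y => and_congr_left' Subtype.ext_iff) fun _ _ => Iff.rfl
  show cent P z g ≤ _
  rw [e0]
  refine (cent_le_add hP _ tag g).trans ((add_le_add h0 ((cent_le_add hP _ others _).trans
    (add_le_add h1 h2))).trans ?_)
  have hlog : log (2 * d : ℝ) ≤ 2 * d := (log_le_sub_one_of_pos (by positivity)).trans (by linarith)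
  have key : ∀ ω ∈ (univ : Finset Ω),
      P ω * ∑ j, (|(others ω j : ℝ) - A (tag ω, g ω) j| / R (tag ω, g ω) j
          + log (R (tag ω, g ω) j) + 3)
        + P ω * ∑ j, (|((z ω).1 j : ℝ) - B (others ω, tag ω, g ω) j| / 1 + log 1 + 3)
      ≤ P ω * ((d - 1 : ℝ) * log 2 * (L - σ ω) + 16 * d) := by
    intro ω _
    rw [← mul_add]
    refine mul_le_mul_of_nonneg_left ?_ (hP.nonneg ω)
    have hm := norm_vec_sub_cell hd0 (hσ ω) (z ω).1
    have ho : ∀ j, |(others ω j : ℝ) - A (tag ω, g ω) j| / R (tag ω, g ω) j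
        + log (R (tag ω, g ω) j) + 3
        ≤ 4 + if j = top ω then 0 else log 2 * ((L : ℝ) - σ ω) := by
      intro j
      by_cases hj : j = top ω
      · simp [others, A, R, tag, g, hj]
        norm_num
      · simp only [others, A, R, tag, g, if_neg hj, log_pow, Nat.cast_sub (hσ ω)]
        have h5 : |((z ω).1 j : ℝ) - (2 : ℝ) ^ (L - σ ω) * (cell L (σ ω) (z ω).1 j : ℝ)|
            / (2 : ℝ) ^ (L - σ ω) ≤ 1 :=
          (div_le_one (by positivity)).2 (abs_sub_cell_le (L - σ ω) ((z ω).1 j))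
        linarith
    have hs := sum_le_sum (s := univ) fun j _ => ho j
    rw [sum_add_distrib (f := fun _ : Fin d => (4 : ℝ)), sum_const, card_univ, Fintype.card_fin,
      nsmul_eq_mul, sum_ite, sum_const_zero, zero_add, sum_const, filter_ne', card_erase_of_mem
      (mem_univ _), card_univ, Fintype.card_fin, nsmul_eq_mul, Nat.cast_sub (by omega),
      Nat.cast_one] at hs
    -- the largest coordinate
    set h := mesh d L
    have hh : 0 < h := mesh_pos hd0 L
    set u := |((z ω).1 (top ω) : ℝ)| with hu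
    set v := √(max 0 (h⁻¹ ^ 2 - ∑ i, (others ω i : ℝ) ^ 2)) with hv
    set a := ‖vec h (z ω).1‖ with ha
    have ha2 : a ^ 2 = h ^ 2 * ∑ i, ((z ω).1 i : ℝ) ^ 2 := by
      rw [ha, EuclideanSpace.norm_eq, sq_sqrt (by positivity), mul_sum]
      simp [vec_apply, mul_pow]
    have hsplit : ∑ i, ((z ω).1 i : ℝ) ^ 2 = u ^ 2 + ∑ i, (others ω i : ℝ) ^ 2 := by
      rw [← add_sum_erase univ _ (mem_univ (top ω)),
        ← add_sum_erase univ (fun i => (others ω i : ℝ) ^ 2) (mem_univ (top ω))]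
      simp only [others, if_true, hu, sq_abs, Int.cast_zero, zero_pow two_ne_zero, zero_add]
      congr 1
      exact sum_congr rfl fun i hi => by rw [if_neg (ne_of_mem_erase hi)]
    have hmax : ∑ i, ((z ω).1 i : ℝ) ^ 2 ≤ d * u ^ 2 :=
      calc ∑ i, ((z ω).1 i : ℝ) ^ 2 ≤ ∑ _i : Fin d, u ^ 2 := sum_le_sum fun i _ => by
            rw [← sq_abs]; exact pow_le_pow_left₀ (abs_nonneg _) (htop ω i (mem_univ i)) 2
        _ = d * u ^ 2 := by simp
    have huv : |u - v| ≤ 6 * d :=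
      abs_sub_pred_le hd0 L (abs_nonneg _) (norm_nonneg _)
        (sum_nonneg fun i _ => sq_nonneg _) (hnear _ (z ω).2) (by rw [ha2, hsplit])
        (by rw [← hsplit]; exact hmax)
    have hB : ∑ j, (|((z ω).1 j : ℝ) - B (others ω, tag ω, g ω) j| / 1 + log 1 + 3)
        ≤ 6 * d + 3 * d := by
      simp only [div_one, log_one, add_zero, sum_add_distrib, sum_const, card_univ,
        Fintype.card_fin, nsmul_eq_mul]
      rw [← add_sum_erase univ _ (mem_univ (top ω)), sum_eq_zero (s := univ.erase (top ω))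
        fun i hi => by simp [B, others, tag, ne_of_mem_erase hi]]
      have e : |((z ω).1 (top ω) : ℝ) - B (others ω, tag ω, g ω) (top ω)| = |u - v| := by
        simp only [B, tag, if_true, hu, hv]
        rcases le_or_gt 0 ((z ω).1 (top ω)) with hp | hp
        · simp only [hp, decide_true, if_true, one_mul]
          rw [abs_of_nonneg (Int.cast_nonneg hp)]
        · simp only [not_le.2 hp, decide_false, Bool.false_eq_true, if_false]
          rw [abs_of_neg (Int.cast_lt_zero.2 hp), ← abs_neg]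
          congr 1; ring
      linarith
    nlinarith
  rw [← sum_add_distrib]
  refine (add_le_add hlog (sum_le_sum key)).trans (le_of_eq ?_)
  have e : ∀ ω, P ω * ((d - 1 : ℝ) * log 2 * (L - σ ω) + 16 * d)
      = P ω * ((d - 1 : ℝ) * log 2 * L + 16 * d) - (d - 1 : ℝ) * log 2 * (P ω * σ ω) :=
    fun ω => by ring
  simp only [e, sum_sub_distrib, ← sum_mul, hP.sum_one, one_mul, ← mul_sum, ev]
  ring

variable {W : Type*} [Fintype W]

theorem cutCost_ge (hd : 2 ≤ d) (hnear : NearSphere L Z) (hP : IsPmf P) (w : Ω → W) (z : Ω → Z)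
    (σ : Ω → ℕ) (hσ : ∀ ω, σ ω ≤ L) :
    1 / 4 * (((d : ℝ) - 1) * log 2 * L - cent P z w) - 18 * d ≤ cutCost L P w z σ := by
  have h1 : cent P z (fun ω => (w ω, σ ω, cell L (σ ω) (z ω).1)) ≤ cent P z w :=
    cent_le_of_imp hP z fun x y e => congrArg Prod.fst e
  have h2 : cent P z (fun ω => (w ω, σ ω, cell L (σ ω) (z ω).1))
      ≤ cent P z (fun ω => (σ ω, cell L (σ ω) (z ω).1)) :=
    cent_le_of_imp hP z fun x y e => congrArg Prod.snd e
  have h3 := cent_shell hd hnear hP z σ hσ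
  have : (0 : ℝ) ≤ d := Nat.cast_nonneg d
  rw [cutCost]
  linarith

theorem bddBelow_cut (hd : 2 ≤ d) (hnear : NearSphere L Z) (μ : W × Z → ℝ) :
    BddBelow (Set.range fun κ : Cut L μ =>
      cutCost L κ.1 (fun o => o.1.1) (fun o => o.1.2) (fun o => (o.2 : ℕ))) := by
  refine ⟨1 / 4 * (((d : ℝ) - 1) * log 2 * L - cent μ Prod.snd Prod.fst) - 18 * d, ?_⟩
  rintro _ ⟨⟨κ, hκ, rfl⟩, rfl⟩
  have h := cutCost_ge hd hnear hκ (fun o => o.1.1) (fun o => o.1.2) (fun o => (o.2 : ℕ))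
    fun o => Nat.le_of_lt_succ o.2.2
  rwa [cent_push]

/-- a high potential is needed to know the signal -/
theorem pot_ge (hd : 2 ≤ d) (hnear : NearSphere L Z) {μ : W × Z → ℝ} (hμ : IsPmf μ) :
    1 / 4 * (((d : ℝ) - 1) * log 2 * L - cent μ Prod.snd Prod.fst) - 18 * d ≤ pot L μ := by
  obtain ⟨κ₀, -⟩ := exists_cut (L := L) hμ
  haveI : Nonempty (Cut L μ) := ⟨κ₀⟩
  refine le_ciInf ?_
  rintro ⟨κ, hκ, rfl⟩
  have h := cutCost_ge hd hnear hκ (fun o => o.1.1) (fun o => o.1.2) (fun o => (o.2 : ℕ))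
    fun o => Nat.le_of_lt_succ o.2.2
  rwa [cent_push]

/-- nothing is known at the beginning -/
theorem pot_start (hd : 2 ≤ d) (hnear : NearSphere L Z) {prior : Z → ℝ} (hp : IsPmf prior)
    (hs : ∀ z, prior z ≤ (8 / 2 ^ L : ℝ) ^ (d - 1)) (w₀ : W) :
    pot L (push prior fun z => (w₀, z)) ≤ 10 * d := by
  refine (pot_le (bddBelow_cut hd hnear _) hp (fun _ => w₀) id (fun _ => 0)
    (fun _ => Nat.zero_le L) rfl).trans ?_
  set g := fun z : Z => (w₀, (0 : ℕ), cell L 0 z.1)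
  have e1 : ent prior (fun z : Z => (z, g z)) = ent prior id :=
    ent_congr fun x y => ⟨fun e => congrArg Prod.fst e, fun e => by rw [show x = y from e]⟩
  have e2 : ent prior g = ent prior (fun z : Z => cell L 0 z.1) :=
    ent_congr fun x y => by simp [g]
  have h1 : ((d : ℝ) - 1) * (log 2 * L - log 8) ≤ ent prior id := by
    calc ((d : ℝ) - 1) * (log 2 * L - log 8)
        = ∑ z, prior z * (((d : ℝ) - 1) * (log 2 * L - log 8)) := by
          rw [← sum_mul, hp.sum_one, one_mul]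
      _ ≤ ent prior id := sum_le_sum fun z _ => by
          rcases (hp.nonneg z).lt_or_eq with h | h
          · refine mul_le_mul_of_nonneg_left ?_ h.le
            rw [pr_id, id]
            have h2 := log_le_log h (hs z)
            rw [log_pow, log_div (by norm_num) (by positivity), log_pow,
              Nat.cast_sub (by omega), Nat.cast_one] at h2
            linarith
          · simp [← h]
  have h2 : ent prior (fun z : Z => cell L 0 z.1) ≤ 6 * d := by
    have h3 : ent prior (fun z : Z => cell L 0 z.1)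
        = cent prior (fun z : Z => cell L 0 z.1) (fun _ => ()) := by
      rw [cent]
      have : ent prior (fun _ : Z => ()) = 0 := by
        have h1 : pr prior (fun _ : Z => ()) () = 1 :=
          (sum_congr rfl fun z _ => if_pos rfl).trans hp.sum_one
        exact sum_eq_zero fun z _ => by rw [h1, log_one, neg_zero, mul_zero]
      rw [this, sub_zero]
      exact ent_congr fun x y => by simp
    rw [h3]
    refine (cent_le_laplace hp _ _ (fun _ _ => 0) (fun _ _ => 1) fun _ _ => le_rfl).trans ?_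
    rw [show (6 * d : ℝ) = ∑ z, prior z * (6 * d) by rw [← sum_mul, hp.sum_one, one_mul]]
    refine sum_le_sum fun z _ => mul_le_mul_of_nonneg_left ?_ (hp.nonneg z)
    have h4 := sum_abs_cell_le (by omega) hnear (Nat.zero_le L) z
    simp only [sub_zero, div_one, log_one, add_zero, sum_add_distrib, sum_const, card_univ,
      Fintype.card_fin, nsmul_eq_mul, pow_zero, mul_one] at h4 ⊢
    linarith
  have h8 : log 8 ≤ 3 := by
    rw [show (8 : ℝ) = 2 ^ 3 by norm_num, log_pow]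
    have := log_two_lt_d9
    push_cast
    linarith
  have hd1 : (1 : ℝ) ≤ d := by exact_mod_cast (show 1 ≤ d by omega)
  show ((d : ℝ) - 1) * log 2 * L - 3 / 4 * ((d : ℝ) - 1) * log 2 * ev prior (fun _ => ((0 : ℕ) : ℝ))
    - cent prior id g ≤ 10 * d
  have e3 : cent prior id g = ent prior id - ent prior (fun z : Z => cell L 0 z.1) := by
    rw [cent, ← e1, e2]; rfl
  rw [e3, ev_const hp, Nat.cast_zero, mul_zero, sub_zero]
  nlinarith

/-- finding the signal to within `2 * 2 ^ (-ℓ)` pins down most of the cell at level `ℓ` -/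
theorem cent_of_success (hd : 2 ≤ d) (hnear : NearSphere L Z) (hP : IsPmf P) (w : Ω → W)
    (z : Ω → Z) {ℓ : ℕ} (hℓ : ℓ ≤ L) (guess : W → EuclideanSpace ℝ (Fin d))
    (hs : 3 / 5 ≤ ∑ ω, if ‖guess (w ω) - vec (mesh d L) (z ω).1‖ ≤ 2 / 2 ^ ℓ then P ω else 0) :
    cent P z w ≤ ((d : ℝ) - 1) * log 2 * L - ((3 / 5 : ℝ) * d - 1) * log 2 * ℓ + 26 * d := by
  classical
  have hd0 : 0 < d := by omega
  let q := fun ω => cell L ℓ (z ω).1
  let bad : Ω → ℕ :=
    fun ω => if ‖guess (w ω) - vec (mesh d L) (z ω).1‖ ≤ 2 / 2 ^ ℓ then 0 else 1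
  let R : ℕ × W → Fin d → ℝ := fun g _ => if g.1 = 0 then 1 else 2 ^ ℓ
  let A : ℕ × W → Fin d → ℝ := fun g i => if g.1 = 0 then guess g.2 i / mesh d ℓ else 0
  have h1 := cent_le_add hP z q w
  have h2 := cent_le_add hP q bad w
  have h3 := cent_nat_le hP bad w
  have h4 := cent_le_laplace hP q (fun ω => (bad ω, w ω)) A R fun g i => by
    simp only [R]; split_ifs
    · exact le_rfl
    · exact one_le_pow₀ (by norm_num)
  have h5 : cent P z (fun ω => (q ω, w ω)) ≤ cent P z (fun ω => (ℓ, cell L ℓ (z ω).1)) :=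
    cent_le_of_imp hP z fun x y e => Prod.ext rfl (congrArg Prod.fst e)
  have h6 := cent_shell hd hnear hP z (fun _ => ℓ) fun _ => hℓ
  rw [ev_const hP] at h6
  have hbad : ev P (fun ω => (bad ω : ℝ)) ≤ 2 / 5 := by
    have e : ev P (fun ω => (bad ω : ℝ)) = 1 - ∑ ω, if ‖guess (w ω) - vec (mesh d L) (z ω).1‖
        ≤ 2 / 2 ^ ℓ then P ω else 0 := by
      rw [← hP.sum_one, ← sum_sub_distrib]
      refine sum_congr rfl fun ω _ => ?_
      simp only [bad]; split_ifs <;> simp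
    linarith
  have h7 : ∀ ω ∈ (univ : Finset Ω),
      P ω * ∑ i, (|(q ω i : ℝ) - A (bad ω, w ω) i| / R (bad ω, w ω) i
        + log (R (bad ω, w ω) i) + 3)
      ≤ P ω * (6 * d) + d * (log 2 * ℓ) * (P ω * bad ω) := by
    intro ω _
    rw [show P ω * (6 * d) + d * (log 2 * ℓ) * (P ω * bad ω)
      = P ω * (6 * d + d * (log 2 * ℓ) * bad ω) by ring]
    refine mul_le_mul_of_nonneg_left ?_ (hP.nonneg ω)
    simp only [bad]
    split_ifs with hgood
    · simp only [A, R, if_true, div_one, log_one, add_zero, Nat.cast_zero, mul_zero,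
        sum_add_distrib, sum_const, card_univ, Fintype.card_fin, nsmul_eq_mul]
      have hM := mesh_pos hd0 ℓ
      have e : ∀ i, |(q ω i : ℝ) - guess (w ω) i / mesh d ℓ|
          = |(vec (mesh d ℓ) (q ω) - guess (w ω)) i| / mesh d ℓ := by
        intro i
        rw [PiLp.sub_apply, vec_apply, ← abs_of_pos hM, ← abs_div, abs_of_pos hM, sub_div,
          mul_div_cancel_left₀ _ hM.ne']
      simp only [e, ← sum_div]
      have hn : ‖vec (mesh d ℓ) (q ω) - guess (w ω)‖ ≤ 3 / 2 ^ ℓ := by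
        have a1 := norm_vec_sub_cell hd0 hℓ (z ω).1
        rw [norm_sub_rev] at a1
        rw [norm_sub_rev] at hgood
        refine (norm_sub_le_norm_sub_add_norm_sub _ (vec (mesh d L) (z ω).1) _).trans ?_
        have : (3 : ℝ) / 2 ^ ℓ = ((2 : ℝ) ^ ℓ)⁻¹ + 2 / 2 ^ ℓ := by ring
        simp only [q]
        linarith
      have a2 := (sum_abs_le (vec (mesh d ℓ) (q ω) - guess (w ω))).trans
        (mul_le_mul_of_nonneg_left hn (sqrt_nonneg _))
      have : (∑ i, |(vec (mesh d ℓ) (q ω) - guess (w ω)) i|) / mesh d ℓ ≤ 3 * d := by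
        rw [div_le_iff₀ hM]
        refine a2.trans (le_of_eq ?_)
        rw [mesh]; field_simp
        exact sq_sqrt (Nat.cast_nonneg d)
      linarith
    · simp only [A, R, one_ne_zero, if_false, sub_zero, log_pow, Nat.cast_one, mul_one,
        sum_add_distrib, sum_const, card_univ, Fintype.card_fin, nsmul_eq_mul, ← sum_div]
      have a1 := sum_abs_cell_le hd0 hnear hℓ (z ω)
      have : (∑ i, |(q ω i : ℝ)|) / (2 : ℝ) ^ ℓ ≤ 3 * d := by
        rw [div_le_iff₀ (by positivity)]; exact a1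
      linarith
  have h8 := h4.trans (sum_le_sum h7)
  rw [sum_add_distrib, ← sum_mul, hP.sum_one, one_mul, ← mul_sum] at h8
  have h9 : (d : ℝ) * (log 2 * ℓ) * ev P (fun ω => (bad ω : ℝ))
      ≤ d * (log 2 * ℓ) * (2 / 5) :=
    mul_le_mul_of_nonneg_left hbad (by positivity)
  have hd2 : (2 : ℝ) ≤ d := by exact_mod_cast hd
  have hl := log_two_lt_d9
  have hl0 : 0 < log 2 := log_pos one_lt_two
  simp only [ev] at h9 h8 h3 hbad
  nlinarith

end Vale.Agent.P309
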