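import Mathlib

/-!
Shannon entropy on a finite probability space, and comparison with reference distributions.
-/

namespace Vale.Agent.P309

open Finset Real

variable {Ω Ω' α β γ : Type*} [Fintype Ω] [Fintype Ω']

/-- a probability vector -/
structure IsPmf (P : Ω → ℝ) : Prop where
  nonneg : ∀ ω, 0 ≤ P ω
  sum_one : ∑ ω, P ω = 1

open Classical in
/-- the distribution of a variable -/
noncomputable def pr (P : Ω → ℝ) (f : Ω → α) (a : α) : ℝ := ∑ ω, if f ω = a then P ω else 0

/-- expectation -/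
def ev (P : Ω → ℝ) (g : Ω → ℝ) : ℝ := ∑ ω, P ω * g ω

/-- entropy of a variable, in nats -/
noncomputable def ent (P : Ω → ℝ) (f : Ω → α) : ℝ := ∑ ω, P ω * -log (pr P f (f ω))

/-- conditional entropy -/
noncomputable def cent (P : Ω → ℝ) (f : Ω → α) (g : Ω → β) : ℝ :=
  ent P (fun ω => (f ω, g ω)) - ent P g

variable {P : Ω → ℝ}

theorem pr_nonneg (hP : IsPmf P) (f : Ω → α) (a : α) : 0 ≤ pr P f a := by
  classical
  exact sum_nonneg fun ω _ => by split_ifs <;> simp [hP.nonneg]

theorem le_pr_self (hP : IsPmf P) (f : Ω → α) (ω : Ω) : P ω ≤ pr P f (f ω) := by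
  classical
  have := single_le_sum (f := fun ω' => if f ω' = f ω then P ω' else 0)
    (fun ω' _ => by split_ifs <;> simp [hP.nonneg]) (mem_univ ω)
  simpa [pr] using this

theorem pr_pos (hP : IsPmf P) (f : Ω → α) {ω : Ω} (h : 0 < P ω) : 0 < pr P f (f ω) :=
  h.trans_le (le_pr_self hP f ω)

theorem sum_pr [DecidableEq α] (f : Ω → α) : ∑ a ∈ univ.image f, pr P f a = ∑ ω, P ω := by
  classical
  simp only [pr]
  rw [sum_comm]
  refine sum_congr rfl fun ω _ => ?_
  refine (sum_eq_single (f ω) (fun b _ hb => if_neg (Ne.symm hb)) fun h => ?_).trans (if_pos rfl)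
  exact absurd (mem_image_of_mem f (mem_univ ω)) h

theorem sum_mul_div_pr_le [DecidableEq α] (hP : IsPmf P) (f : Ω → α) {φ : α → ℝ}
    (hφ : ∀ a, 0 ≤ φ a) :
    ∑ ω, P ω * (φ (f ω) / pr P f (f ω)) ≤ ∑ a ∈ univ.image f, φ a := by
  classical
  rw [← sum_fiberwise_of_maps_to (g := f) (t := univ.image f)
    (fun ω _ => mem_image_of_mem f (mem_univ ω))]
  refine sum_le_sum fun a _ => ?_
  have h : ∑ ω ∈ univ.filter (fun ω => f ω = a), P ω = pr P f a := by
    simp only [pr, sum_filter]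
    exact sum_congr rfl fun x _ => by by_cases e : f x = a <;> simp [e]
  rw [sum_congr rfl (g := fun ω => P ω * (φ a / pr P f a))
    (fun ω hω => by rw [(mem_filter.1 hω).2]), ← sum_mul, h]
  rcases eq_or_ne (pr P f a) 0 with e | e
  · simp [e, hφ]
  · rw [mul_div_cancel₀ _ e]

/-- the basic inequality -/
theorem sum_log_le (hP : IsPmf P) {u : Ω → ℝ} (hu : ∀ ω, 0 < P ω → 0 < u ω)
    (h : ∑ ω, P ω * u ω ≤ 1) : ∑ ω, P ω * log (u ω) ≤ 0 :=
  calc ∑ ω, P ω * log (u ω) ≤ ∑ ω, P ω * (u ω - 1) := sum_le_sum fun ω _ => by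
        rcases (hP.nonneg ω).lt_or_eq with hω | hω
        · exact mul_le_mul_of_nonneg_left (log_le_sub_one_of_pos (hu ω hω)) hω.le
        · simp [← hω]
    _ = (∑ ω, P ω * u ω) - 1 := by simp only [mul_sub, mul_one, sum_sub_distrib, hP.sum_one]
    _ ≤ 0 := by linarith

theorem cent_eq (hP : IsPmf P) (f : Ω → α) (g : Ω → β) :
    cent P f g = ∑ ω, P ω *
      -log (pr P (fun x => (f x, g x)) (f ω, g ω) / pr P g (g ω)) := by
  rw [cent, ent, ent, ← sum_sub_distrib]
  refine sum_congr rfl fun ω _ => ?_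
  rcases (hP.nonneg ω).lt_or_eq with h | h
  · rw [log_div (pr_pos hP (fun x => (f x, g x)) h).ne' (pr_pos hP g h).ne']
    ring
  · simp [← h]

/-- comparison with a reference kernel -/
theorem cent_le_gibbs [DecidableEq α] (hP : IsPmf P) (f : Ω → α) (g : Ω → β) (q : β → α → ℝ)
    (hq : ∀ b a, 0 ≤ q b a) (hpos : ∀ ω, 0 < P ω → 0 < q (g ω) (f ω))
    (hsum : ∀ b, ∑ a ∈ univ.image f, q b a ≤ 1) :
    cent P f g ≤ ∑ ω, P ω * -log (q (g ω) (f ω)) := by
  classical
  let j : Ω → α × β := fun x => (f x, g x)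
  let u : Ω → ℝ := fun ω => q (g ω) (f ω) * pr P g (g ω) / pr P j (j ω)
  have hu : ∀ ω, 0 < P ω → 0 < u ω := fun ω h =>
    div_pos (mul_pos (hpos ω h) (pr_pos hP g h)) (pr_pos hP j h)
  have hle : ∑ ω, P ω * u ω ≤ 1 :=
    calc ∑ ω, P ω * u ω ≤ ∑ p ∈ univ.image j, q p.2 p.1 * pr P g p.2 :=
          sum_mul_div_pr_le hP j (φ := fun p => q p.2 p.1 * pr P g p.2)
            fun p => mul_nonneg (hq _ _) (pr_nonneg hP _ _)
      _ ≤ ∑ p ∈ univ.image f ×ˢ univ.image g, q p.2 p.1 * pr P g p.2 :=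
          sum_le_sum_of_subset_of_nonneg (fun p hp => by
            obtain ⟨ω, -, rfl⟩ := mem_image.1 hp
            exact mem_product.2 ⟨mem_image_of_mem f (mem_univ ω), mem_image_of_mem g (mem_univ ω)⟩)
            fun p _ _ => mul_nonneg (hq _ _) (pr_nonneg hP _ _)
      _ = ∑ b ∈ univ.image g, (∑ a ∈ univ.image f, q b a) * pr P g b := by
          rw [sum_product_right]; simp only [sum_mul]
      _ ≤ ∑ b ∈ univ.image g, 1 * pr P g b :=
          sum_le_sum fun b _ => mul_le_mul_of_nonneg_right (hsum b) (pr_nonneg hP _ _)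
      _ = 1 := by simp only [one_mul]; rw [sum_pr, hP.sum_one]
  have := sum_log_le hP hu hle
  have e : cent P f g - ∑ ω, P ω * -log (q (g ω) (f ω)) = ∑ ω, P ω * log (u ω) := by
    rw [cent_eq hP, ← sum_sub_distrib]
    refine sum_congr rfl fun ω _ => ?_
    rcases (hP.nonneg ω).lt_or_eq with h | h
    · show _ = P ω * log (q (g ω) (f ω) * pr P g (g ω) / pr P j (j ω))
      rw [log_div (mul_pos (hpos ω h) (pr_pos hP g h)).ne' (pr_pos hP j h).ne',
        log_div (pr_pos hP j h).ne' (pr_pos hP g h).ne',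
        log_mul (hpos ω h).ne' (pr_pos hP g h).ne']
      ring
    · simp [← h]
  linarith

theorem pr_congr {f : Ω → α} {g : Ω → β} (ω : Ω) (h : ∀ x, f x = f ω ↔ g x = g ω) :
    pr P f (f ω) = pr P g (g ω) := by
  classical
  refine sum_congr rfl fun x _ => ?_
  by_cases hx : f x = f ω
  · rw [if_pos hx, if_pos ((h x).1 hx)]
  · rw [if_neg hx, if_neg fun e => hx ((h x).2 e)]

theorem ent_congr {f : Ω → α} {g : Ω → β} (h : ∀ x y, f x = f y ↔ g x = g y) :
    ent P f = ent P g :=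
  sum_congr rfl fun ω _ => by rw [pr_congr ω fun x => h x ω]

theorem pr_le_of_imp (hP : IsPmf P) {f : Ω → α} {g : Ω → β} (ω : Ω)
    (h : ∀ x, f x = f ω → g x = g ω) : pr P f (f ω) ≤ pr P g (g ω) := by
  classical
  refine sum_le_sum fun x _ => ?_
  by_cases hx : f x = f ω
  · rw [if_pos hx, if_pos (h x hx)]
  · rw [if_neg hx]; split_ifs <;> simp [hP.nonneg]

theorem ent_mono (hP : IsPmf P) {f : Ω → α} {g : Ω → β} (h : ∀ x y, f x = f y → g x = g y) :
    ent P g ≤ ent P f := by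
  refine sum_le_sum fun ω _ => ?_
  rcases (hP.nonneg ω).lt_or_eq with hω | hω
  · refine mul_le_mul_of_nonneg_left (neg_le_neg ?_) hω.le
    exact log_le_log (pr_pos hP f hω) (pr_le_of_imp hP ω fun x => h x ω)
  · simp [← hω]

theorem cent_nonneg (hP : IsPmf P) (f : Ω → α) (g : Ω → β) : 0 ≤ cent P f g :=
  sub_nonneg.2 (ent_mono hP fun _ _ h => congrArg Prod.snd h)

theorem cent_eq_zero {f : Ω → α} {g : Ω → β} (h : ∀ x y, g x = g y → f x = f y) :
    cent P f g = 0 :=
  sub_eq_zero.2 (ent_congr fun x y => ⟨fun e => congrArg Prod.snd e, fun e => Prod.ext (h x y e) e⟩)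

theorem cent_chain (f : Ω → α) (g : Ω → β) (k : Ω → γ) :
    cent P (fun ω => (f ω, g ω)) k = cent P f (fun ω => (g ω, k ω)) + cent P g k := by
  have e : ent P (fun ω => ((f ω, g ω), k ω)) = ent P (fun ω => (f ω, g ω, k ω)) :=
    ent_congr fun x y => by simp [and_assoc]
  simp only [cent, e]
  ring

theorem cent_congr {α' β' : Type*} {f : Ω → α} {f' : Ω → α'} {g : Ω → β} {g' : Ω → β'}
    (hf : ∀ x y, (f x = f y ∧ g x = g y) ↔ (f' x = f' y ∧ g' x = g' y))
    (hg : ∀ x y, g x = g y ↔ g' x = g' y) : cent P f g = cent P f' g' := by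
  rw [cent, cent, ent_congr hg, ent_congr (g := fun ω => (f' ω, g' ω))]
  intro x y
  simpa only [Prod.mk.injEq] using hf x y

open Classical in
/-- conditioning on more lowers conditional entropy -/
theorem cent_le_of_imp (hP : IsPmf P) (f : Ω → α) {g : Ω → β} {k : Ω → γ}
    (h : ∀ x y, k x = k y → g x = g y) : cent P f k ≤ cent P f g := by
  let q : γ → α → ℝ := fun c a =>
    if hc : ∃ ω, k ω = c then
      pr P (fun x => (f x, g x)) (a, g hc.choose) / pr P g (g hc.choose)
    else 0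
  have hval : ∀ ω, q (k ω) (f ω) =
      pr P (fun x => (f x, g x)) (f ω, g ω) / pr P g (g ω) := by
    intro ω
    have hc : ∃ x, k x = k ω := ⟨ω, rfl⟩
    simp only [q, dif_pos hc, h _ _ hc.choose_spec]
  refine (cent_le_gibbs hP f k q ?_ ?_ ?_).trans_eq ?_
  · intro c a
    simp only [q]
    split_ifs
    · exact div_nonneg (pr_nonneg hP _ _) (pr_nonneg hP _ _)
    · exact le_rfl
  · intro ω hω
    rw [hval]
    exact div_pos (pr_pos hP (fun x => (f x, g x)) hω) (pr_pos hP g hω)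
  · intro c
    by_cases hc : ∃ ω, k ω = c
    · simp only [q, dif_pos hc, ← sum_div]
      refine div_le_one_of_le₀ (le_of_eq ?_) (pr_nonneg hP _ _)
      simp only [pr]
      rw [sum_comm]
      refine sum_congr rfl fun ω _ => ?_
      by_cases e : g ω = g hc.choose
      · simp [e, Finset.sum_ite_eq, mem_image_of_mem f (mem_univ ω)]
      · simp [e]
    · simp [q, dif_neg hc]
  · rw [cent_eq hP]
    exact sum_congr rfl fun ω _ => by rw [hval]

/-- chain rule as an inequality -/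
theorem cent_le_add (hP : IsPmf P) (f : Ω → α) (g : Ω → β) (k : Ω → γ) :
    cent P f k ≤ cent P g k + cent P f (fun ω => (g ω, k ω)) := by
  have h1 := cent_chain (P := P) f g k
  have h2 : cent P f k ≤ cent P (fun ω => (f ω, g ω)) k := by
    have := ent_mono hP (f := fun ω => ((f ω, g ω), k ω)) (g := fun ω => (f ω, k ω))
      fun x y e => by simp only [Prod.mk.injEq] at e ⊢; exact ⟨e.1.1, e.2⟩
    simp only [cent]
    linarith
  linarith

theorem cent_pi_le (hP : IsPmf P) :
    ∀ {k : ℕ} (f : Fin k → Ω → α) (g : Ω → β),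
      cent P (fun ω r => f r ω) g ≤ ∑ r, cent P (f r) g
  | 0, f, g => by
    rw [cent_eq_zero fun x y _ => funext fun r => r.elim0]
    simp
  | k + 1, f, g => by
    have e : cent P (fun ω r => f r ω) g
        = cent P (fun ω => (f 0 ω, fun r : Fin k => f r.succ ω)) g := by
      refine cent_congr (fun x y => and_congr_left' ?_) fun _ _ => Iff.rfl
      simp only [funext_iff, Prod.mk.injEq]
      exact Fin.forall_fin_succ
    rw [e, cent_chain, Fin.sum_univ_succ]
    refine add_le_add (cent_le_of_imp hP _ fun x y h => congrArg Prod.snd h) ?_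
    exact cent_pi_le hP (fun r => f r.succ) g

theorem pr_congr_ae {f f' : Ω → α} (h : ∀ ω, P ω ≠ 0 → f ω = f' ω) (a : α) :
    pr P f a = pr P f' a := by
  classical
  refine sum_congr rfl fun ω _ => ?_
  rcases eq_or_ne (P ω) 0 with e | e
  · simp [e]
  · rw [h ω e]

theorem ent_congr_ae {f f' : Ω → α} (h : ∀ ω, P ω ≠ 0 → f ω = f' ω) : ent P f = ent P f' :=
  sum_congr rfl fun ω _ => by
    rcases eq_or_ne (P ω) 0 with e | e
    · simp [e]
    · rw [pr_congr_ae h, h ω e]

theorem cent_congr_ae (_hP : IsPmf P) {f f' : Ω → α} {g g' : Ω → β}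
    (h : ∀ ω, P ω ≠ 0 → (f ω, g ω) = (f' ω, g' ω)) (hg : ∀ ω, P ω ≠ 0 → g ω = g' ω) :
    cent P f g = cent P f' g' := by
  rw [cent, cent, ent_congr_ae hg, ent_congr_ae h]

/-- push forward -/
noncomputable def push (P : Ω → ℝ) (φ : Ω → Ω') : Ω' → ℝ := pr P φ

theorem ev_push (φ : Ω → Ω') (g : Ω' → ℝ) : ev (push P φ) g = ev P (g ∘ φ) := by
  classical
  simp only [ev, push, pr, sum_mul, ite_mul, zero_mul]
  rw [sum_comm]
  exact sum_congr rfl fun ω _ => by simp

theorem push_isPmf (hP : IsPmf P) (φ : Ω → Ω') : IsPmf (push P φ) := by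
  refine ⟨fun ω => pr_nonneg hP _ _, ?_⟩
  have := ev_push (P := P) φ fun _ => 1
  simpa [ev, hP.sum_one] using this

theorem pr_push (φ : Ω → Ω') (f : Ω' → α) (a : α) : pr (push P φ) f a = pr P (f ∘ φ) a := by
  classical
  have := ev_push (P := P) φ fun ω => if f ω = a then 1 else 0
  simpa [ev, pr, mul_ite] using this

theorem ent_push (φ : Ω → Ω') (f : Ω' → α) : ent (push P φ) f = ent P (f ∘ φ) := by
  have := ev_push (P := P) φ fun ω => -log (pr (push P φ) f (f ω))
  simpa [ev, ent, pr_push, Function.comp_def] using this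

theorem cent_push (φ : Ω → Ω') (f : Ω' → α) (g : Ω' → β) :
    cent (push P φ) f g = cent P (f ∘ φ) (g ∘ φ) := by
  rw [cent, cent, ent_push, ent_push]
  rfl

theorem sum_pow_natAbs_le {x : ℝ} (h0 : 0 ≤ x) (h1 : x < 1) (S : Finset ℤ) :
    ∑ m ∈ S, x ^ m.natAbs ≤ 2 * (1 - x)⁻¹ := by
  have hs := summable_geometric_of_lt_one h0 h1
  have key : ∀ T : Finset ℤ, Set.InjOn Int.natAbs ↑T → ∑ m ∈ T, x ^ m.natAbs ≤ (1 - x)⁻¹ := by
    intro T hT
    rw [← sum_image (f := fun i : ℕ => x ^ i) hT, ← tsum_geometric_of_lt_one h0 h1]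
    exact hs.sum_le_tsum _ fun i _ => pow_nonneg h0 i
  rw [← sum_filter_add_sum_filter_not S (fun m => 0 ≤ m), two_mul]
  refine add_le_add (key _ ?_) (key _ ?_) <;>
  · intro a ha b hb e
    simp only [coe_filter, Set.mem_ofPred_eq] at ha hb
    omega

theorem sum_exp_le {R : ℝ} (hR : 1 ≤ R) (a : ℝ) (S : Finset ℤ) :
    ∑ n ∈ S, exp (-|(n : ℝ) - a| / R) ≤ 12 * R := by
  have hR0 : 0 < R := by linarith
  set x := exp (-1 / R) with hx
  have hx0 : 0 ≤ x := (exp_pos _).le
  have hx1 : x < 1 := by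
    rw [hx, exp_lt_one_iff]; exact div_neg_of_neg_of_pos (by norm_num) hR0
  have h1 : (1 - x)⁻¹ ≤ 2 * R := by
    have hb : x ≤ R / (R + 1) := by
      rw [hx, neg_div, exp_neg, ← one_div, div_le_div_iff₀ (exp_pos _) (by linarith)]
      have := add_one_le_exp (1 / R)
      have h2 : R * (1 / R + 1) ≤ R * exp (1 / R) := mul_le_mul_of_nonneg_left this hR0.le
      rw [mul_add, mul_one_div_cancel hR0.ne'] at h2
      linarith
    have : (R + 1)⁻¹ ≤ 1 - x := by
      have e : 1 - R / (R + 1) = (R + 1)⁻¹ := by field_simp; ring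
      linarith
    calc (1 - x)⁻¹ ≤ ((R + 1)⁻¹)⁻¹ := inv_anti₀ (by positivity) this
      _ ≤ 2 * R := by rw [inv_inv]; linarith
  have h2 : ∀ n : ℤ, exp (-|(n : ℝ) - a| / R) ≤ 3 * x ^ (n - ⌊a⌋).natAbs := by
    intro n
    have hb : ((n - ⌊a⌋).natAbs : ℝ) ≤ |(n : ℝ) - a| + 1 := by
      rw [Nat.cast_natAbs, Int.cast_abs, Int.cast_sub]
      refine (abs_sub_le _ a _).trans ?_
      have h3 := Int.floor_le a
      have h4 := Int.lt_floor_add_one a
      have : |a - (⌊a⌋ : ℝ)| ≤ 1 := by rw [abs_le]; constructor <;> linarith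
      linarith
    have e3 : exp (1 / R) ≤ 3 := by
      refine (exp_le_exp.2 ?_).trans exp_one_lt_d9.le |>.trans (by norm_num)
      rw [div_le_one hR0]; exact hR
    calc exp (-|(n : ℝ) - a| / R) ≤ exp (1 / R + (n - ⌊a⌋).natAbs * (-1 / R)) := by
          rw [exp_le_exp, mul_div_assoc', ← add_div]
          exact div_le_div_of_nonneg_right (by linarith) hR0.le
      _ = exp (1 / R) * x ^ (n - ⌊a⌋).natAbs := by rw [exp_add, exp_nat_mul]
      _ ≤ 3 * x ^ (n - ⌊a⌋).natAbs :=
          mul_le_mul_of_nonneg_right e3 (pow_nonneg hx0 _)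
  refine (sum_le_sum fun n _ => h2 n).trans ?_
  rw [← mul_sum]
  have h4 := sum_pow_natAbs_le hx0 hx1 (S.image fun n => n - ⌊a⌋)
  rw [sum_image fun a _ b _ e => by simpa using e] at h4
  linarith

theorem sum_prod_le_one {κ : Type*} [Fintype κ] (S : Finset (κ → ℤ)) (a R : κ → ℝ)
    (hR : ∀ j, 1 ≤ R j) :
    ∑ x ∈ S, ∏ j, exp (-|(x j : ℝ) - a j| / R j) / (12 * R j) ≤ 1 := by
  classical
  have h0 : ∀ j (n : ℤ), 0 ≤ exp (-|(n : ℝ) - a j| / R j) / (12 * R j) := fun j n =>
    div_nonneg (exp_pos _).le (by linarith [hR j])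
  refine (sum_le_sum_of_subset_of_nonneg
    (t := Fintype.piFinset fun j => S.image fun x => x j) ?_ fun x _ _ =>
      prod_nonneg fun j _ => h0 j (x j)).trans ?_
  · exact fun x hx => Fintype.mem_piFinset.2 fun j => mem_image_of_mem (fun x => x j) hx
  · refine ((prod_univ_sum (fun j => S.image fun x : κ → ℤ => x j)
      fun j (n : ℤ) => exp (-|(n : ℝ) - a j| / R j) / (12 * R j)).symm).trans_le ?_
    refine prod_le_one (fun j _ => sum_nonneg fun n _ => h0 j n) fun j _ => ?_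
    rw [← sum_div, div_le_one (by linarith [hR j])]
    exact sum_exp_le (hR j) _ _

/-- an integer vector costs its scaled distance to any predicted point plus the log of the scales -/
theorem cent_le_laplace {κ : Type*} [Fintype κ] (hP : IsPmf P) (f : Ω → κ → ℤ) (g : Ω → β)
    (a R : β → κ → ℝ) (hR : ∀ b j, 1 ≤ R b j) :
    cent P f g ≤
      ∑ ω, P ω * ∑ j, (|(f ω j : ℝ) - a (g ω) j| / R (g ω) j + log (R (g ω) j) + 3) := by
  classical
  let q : β → (κ → ℤ) → ℝ := fun b x =>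
    ∏ j, exp (-|(x j : ℝ) - a b j| / R b j) / (12 * R b j)
  have hp : ∀ b x, 0 < q b x := fun b x => prod_pos fun j _ => by
    have := hR b j; positivity
  refine (cent_le_gibbs hP f g q (fun b x => (hp b x).le) (fun ω _ => hp _ _) ?_).trans ?_
  · exact fun b => sum_prod_le_one _ (fun j => a b j) (fun j => R b j) (hR b)
  · refine sum_le_sum fun ω _ => mul_le_mul_of_nonneg_left ?_ (hP.nonneg ω)
    have hne : ∀ j ∈ (univ : Finset κ),
        exp (-|(f ω j : ℝ) - a (g ω) j| / R (g ω) j) / (12 * R (g ω) j) ≠ 0 := fun j _ => by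
      have := hR (g ω) j; positivity
    show -log (∏ j, _) ≤ _
    rw [log_prod hne, ← sum_neg_distrib]
    refine sum_le_sum fun j _ => ?_
    have := hR (g ω) j
    have h12 : log 12 ≤ 3 := by
      rw [log_le_iff_le_exp (by norm_num)]
      have h := exp_one_gt_d9
      have e : exp 3 = exp 1 * exp 1 * exp 1 := by rw [← exp_add, ← exp_add]; norm_num
      nlinarith
    rw [log_div (exp_pos _).ne' (by positivity), log_exp, log_mul (by norm_num) (by linarith),
      neg_div]
    linarith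

/-- a natural number costs its mean -/
theorem cent_nat_le (hP : IsPmf P) (B : Ω → ℕ) (g : Ω → β) :
    cent P B g ≤ log 2 * (ev P (fun ω => (B ω : ℝ)) + 1) := by
  refine (cent_le_gibbs hP B g (fun _ b => (1 / 2 : ℝ) ^ (b + 1)) (fun _ _ => by positivity)
    (fun _ _ => by positivity) fun _ => ?_).trans (le_of_eq ?_)
  · calc ∑ b ∈ univ.image B, (1 / 2 : ℝ) ^ (b + 1)
        = (∑ b ∈ univ.image B, (1 / 2 : ℝ) ^ b) * (1 / 2) := by rw [sum_mul]; simp [pow_succ]
      _ ≤ 2 * (1 / 2) := mul_le_mul_of_nonneg_right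
          ((summable_geometric_two.sum_le_tsum _ fun i _ => by positivity).trans
            tsum_geometric_two.le) (by norm_num)
      _ = 1 := by norm_num
  · simp only [ev, mul_add, mul_one, mul_sum]
    rw [show (log 2 : ℝ) = ∑ ω, P ω * log 2 by rw [← sum_mul, hP.sum_one, one_mul]]
    rw [← sum_add_distrib]
    refine sum_congr rfl fun ω _ => ?_
    rw [log_pow, one_div, log_inv, ← sum_mul, hP.sum_one]
    push_cast
    ring

theorem ev_const (hP : IsPmf P) (c : ℝ) : ev P (fun _ => c) = c := by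
  rw [ev, ← sum_mul, hP.sum_one, one_mul]

end Vale.Agent.P309
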