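import Vale.Agent.P309.Chain
import Vale.Agent.P309.Disc
import Vale.Agent.P309.Protocol

/-!
The tradeoff between memory and samples.
-/

namespace Vale.Agent.P309

open Finset Real

variable {d M T ℓ : ℕ}

theorem half_le (hd : 256 ≤ d) : ((d : ℝ) / 2) ≤ (3 / 5 : ℝ) * d - 1 := by
  have : (256 : ℝ) ≤ d := by exact_mod_cast hd
  linarith

/-- many blocks -/
theorem FModel.bound_blocks (F : FModel d M T ℓ) (hd : 256 ≤ d) (hT : (d - 1) / 16 ≤ T) :
    log 2 * ℓ * d / 8 ≤ 35 * d + 6400 * (T * (1 + (M : ℝ) / (d : ℝ) ^ 2)) := by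
  set k := (d - 1) / 16 with hk
  set p := (d - 1) / 4 with hp
  set J := (T + k - 1) / k with hJ
  have hk1 : 1 ≤ k := by omega
  have hJT : T ≤ J * k := by
    have h1 := Nat.div_add_mod (T + k - 1) k
    have h2 := Nat.mod_lt (T + k - 1) hk1
    have h3 : k * ((T + k - 1) / k) = J * k := by rw [← hJ, mul_comm]
    omega
  have hJ2 : J * k ≤ 2 * T := by
    have := Nat.div_mul_le_self (T + k - 1) k
    rw [← hJ] at this
    omega
  have hd2 : 2 ≤ d := by omega
  have h := F.pot_blocks hd2 (p := p) (k := k) (by omega) (by omega) (by omega) J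
  rw [F.lawFrom_le _ hJT] at h
  have hμ := F.isPmf_lawFrom F.isPmf_law₀ 0 T
  have hg := pot_ge hd2 F.near hμ
  have hc := cent_of_success hd2 F.near hμ (fun o => o.1) (fun o => o.2) F.ℓ_le F.guess
    F.success_law
  have hdR : (256 : ℝ) ≤ d := by exact_mod_cast hd
  have hd0 : (0 : ℝ) < d := by linarith
  have hpR : (d : ℝ) / 8 ≤ p := by
    have : d ≤ 8 * p := by omega
    have : (d : ℝ) ≤ 8 * p := by exact_mod_cast this
    linarith
  have hkR : (d : ℝ) / 32 ≤ k := by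
    have : d ≤ 32 * k := by omega
    have : (d : ℝ) ≤ 32 * k := by exact_mod_cast this
    linarith
  have hkU : (k : ℝ) ≤ d / 16 := by
    have : 16 * k ≤ d := by omega
    have : (16 : ℝ) * k ≤ d := by exact_mod_cast this
    linarith
  have hp0 : (0 : ℝ) < p := by linarith
  have hlog : log (((k + 1 : ℕ) : ℝ) * 2 ^ M) ≤ d / 16 + M := by
    rw [log_mul (by positivity) (by positivity), log_pow]
    have h1 := log_le_sub_one_of_pos (show (0 : ℝ) < ((k + 1 : ℕ) : ℝ) by positivity)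
    push_cast at h1 ⊢
    have h2 : log 2 ≤ 1 := by
      have := log_le_sub_one_of_pos (show (0 : ℝ) < 2 by norm_num)
      linarith
    have h3 : (M : ℝ) * log 2 ≤ M := mul_le_of_le_one_right M.cast_nonneg h2
    linarith
  have hstep : 1 + (log (((k + 1 : ℕ) : ℝ) * 2 ^ M) + 80 * (k * d)) / p
      ≤ 100 * d * (1 + (M : ℝ) / (d : ℝ) ^ 2) := by
    have e : (d : ℝ) * (1 + (M : ℝ) / (d : ℝ) ^ 2) = d + M / d := by field_simp
    rw [mul_assoc, e]
    have h1 : (log (((k + 1 : ℕ) : ℝ) * 2 ^ M) + 80 * (k * d)) / p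
        ≤ (d / 16 + M + 80 * (d / 16 * d)) / (d / 8) := by
      refine div_le_div₀ (by positivity) ?_ (by positivity) hpR
      have := mul_le_mul_of_nonneg_right hkU hd0.le
      linarith
    have h2 : ((d : ℝ) / 16 + M + 80 * (d / 16 * d)) / (d / 8) = 1 / 2 + 8 * (M / d) + 40 * d := by
      field_simp
      ring
    have h3 : (0 : ℝ) ≤ M / d := by positivity
    linarith
  have hJR : (J : ℝ) * d ≤ 64 * T := by
    have h1 : (J : ℝ) * k ≤ 2 * T := by exact_mod_cast hJ2
    have h2 : (J : ℝ) * (d / 32) ≤ J * k := mul_le_mul_of_nonneg_left hkR J.cast_nonneg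
    linarith
  have hblocks : (J : ℝ) * (1 + (log (((k + 1 : ℕ) : ℝ) * 2 ^ M) + 80 * (k * d)) / p)
      ≤ 6400 * (T * (1 + (M : ℝ) / (d : ℝ) ^ 2)) := by
    refine (mul_le_mul_of_nonneg_left hstep J.cast_nonneg).trans ?_
    have h1 := mul_le_mul_of_nonneg_right hJR
      (show (0 : ℝ) ≤ 100 * (1 + (M : ℝ) / (d : ℝ) ^ 2) by positivity)
    nlinarith
  have hl : (0 : ℝ) ≤ log 2 * ℓ := mul_nonneg (log_nonneg (by norm_num)) ℓ.cast_nonneg
  have hhalf := mul_le_mul_of_nonneg_right (half_le hd) hl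
  nlinarith

/-- too few rows for one block never suffice -/
theorem FModel.bound_few (F : FModel d M T ℓ) (hd : 256 ≤ d) (hT : T < (d - 1) / 16) :
    log 2 * ℓ ≤ 4000 := by
  classical
  by_contra hbig
  push Not at hbig
  have hd2 : 2 ≤ d := by omega
  have hl2 : log 2 ≤ 1 := by
    have := log_le_sub_one_of_pos (show (0 : ℝ) < 2 by norm_num)
    linarith
  have hℓ : 2 ≤ ℓ := by
    by_contra h
    have : (ℓ : ℝ) ≤ 2 := by exact_mod_cast (by omega : ℓ ≤ 2)
    nlinarith [log_pos (show (1 : ℝ) < 2 by norm_num)]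
  set cells := F.Z.image (cell F.L ℓ) with hcells
  let Ok : St M T → F.Z → Prop := fun w z => ‖F.guess w - vec (mesh d F.L) z.1‖ ≤ 2 / 2 ^ ℓ
  let quant : St M T → Option cells := fun w =>
    if h : ∃ z, Ok w z then
      some ⟨cell F.L ℓ h.choose.1, mem_image_of_mem _ h.choose.2⟩
    else none
  let G : St M T → (Fin T → F.S) → (Fin T → ℤ) → Option cells := fun w x y =>
    quant (F.steps 0 T w x y)
  let guess' : Option cells → EuclideanSpace ℝ (Fin d) := fun o =>
    o.elim 0 fun c => vec (mesh d ℓ) c.1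
  set p := (d - 1) / 4 with hp
  let B : ℤ := 3 * d * 2 ^ ℓ
  have hsub : cells ⊆ Fintype.piFinset fun _ : Fin d => Finset.Icc (-B) B := by
    intro v hv
    obtain ⟨z, hz, rfl⟩ := mem_image.1 hv
    refine Fintype.mem_piFinset.2 fun i => ?_
    have h := sum_abs_cell_le (by omega : 0 < d) F.near F.ℓ_le ⟨z, hz⟩
    have h1 := single_le_sum (f := fun i => |(cell F.L ℓ z i : ℝ)|) (fun j _ => abs_nonneg _)
      (mem_univ i)
    have h2 : |(cell F.L ℓ z i : ℝ)| ≤ ((B : ℤ) : ℝ) := by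
      simp only [B]; push_cast; exact h1.trans h
    rw [← Int.cast_abs, Int.cast_le] at h2
    exact Finset.mem_Icc.2 ⟨neg_le_of_abs_le h2, le_of_abs_le h2⟩
  have hdR : (256 : ℝ) ≤ d := by exact_mod_cast hd
  have hpow : (1 : ℝ) ≤ (2 : ℝ) ^ ℓ := one_le_pow₀ (by norm_num)
  have hcard : ((univ : Finset (Option cells)).card : ℝ) ≤ (8 * d * 2 ^ ℓ : ℝ) ^ d := by
    have h0 : (1 : ℕ) ≤ d * 2 ^ ℓ := Nat.mul_pos (by omega) (Nat.two_pow_pos _)
    have h1 : cells.card ≤ (7 * d * 2 ^ ℓ) ^ d := by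
      refine (card_le_card hsub).trans ?_
      rw [Fintype.card_piFinset, prod_const, card_univ, Fintype.card_fin, Int.card_Icc]
      refine Nat.pow_le_pow_left ?_ _
      simp only [B]
      have : (3 * (d : ℤ) * 2 ^ ℓ) = ((3 * (d * 2 ^ ℓ) : ℕ) : ℤ) := by push_cast; ring
      rw [this, mul_assoc 7]
      omega
    have h2 : (univ : Finset (Option cells)).card ≤ (8 * d * 2 ^ ℓ) ^ d := by
      rw [card_univ, Fintype.card_option, Fintype.card_coe]
      refine Nat.succ_le_of_lt (h1.trans_lt (Nat.pow_lt_pow_left ?_ (by omega)))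
      rw [mul_assoc, mul_assoc]
      omega
    exact_mod_cast h2
  have hstep := pot_step hd2 F.η_pos F.η_le F.L₀_le F.rows F.near (p := p) (k := T) (by omega)
    (by omega) (by omega) F.isPmf_law₀ G (fun _ => univ) (fun _ _ _ => mem_univ _)
    (fun _ => hcard)
  set μ := blockLaw F.η F.L F.L₀ F.law₀ F.ρ G with hμdef
  have hμ : IsPmf μ := blockLaw_isPmf F.isPmf_law₀ F.rows.pmf G
  have hsucc : 3 / 5 ≤ ∑ o : Option cells × F.Z,
      if ‖guess' o.1 - vec (mesh d F.L) o.2.1‖ ≤ 2 / 2 ^ (ℓ - 2) then μ o else 0 := by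
    have hμeq : μ = push (F.lawFrom F.law₀ 0 T) fun o => (quant o.1, o.2) := by
      rw [FModel.lawFrom, blockLaw, push_push]
      rfl
    have hev : ∀ (f : Option cells × F.Z → Prop) [DecidablePred f],
        (∑ o, if f o then μ o else 0) = ev μ fun o => if f o then 1 else 0 := by
      intro f _
      refine sum_congr rfl fun o _ => ?_
      by_cases h : f o <;> simp [h]
    rw [hev fun o => ‖guess' o.1 - vec (mesh d F.L) o.2.1‖ ≤ 2 / 2 ^ (ℓ - 2), hμeq, ev_push]
    refine F.success_law.trans (sum_le_sum fun o _ => ?_)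
    have hnn := (F.isPmf_lawFrom F.isPmf_law₀ 0 T).nonneg o
    by_cases hok : ‖F.guess o.1 - vec (mesh d F.L) o.2.1‖ ≤ 2 / 2 ^ ℓ
    · have hex : ∃ z, Ok o.1 z := ⟨o.2, hok⟩
      have hz : ‖F.guess o.1 - vec (mesh d F.L) hex.choose.1‖ ≤ 2 / 2 ^ ℓ := hex.choose_spec
      have hgood : ‖guess' (quant o.1) - vec (mesh d F.L) o.2.1‖ ≤ 2 / 2 ^ (ℓ - 2) := by
        have h1 := norm_vec_sub_cell (by omega : 0 < d) F.ℓ_le hex.choose.1
        have e : guess' (quant o.1) = vec (mesh d ℓ) (cell F.L ℓ hex.choose.1) := by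
          have e' : quant o.1 = some ⟨cell F.L ℓ hex.choose.1,
              mem_image_of_mem _ hex.choose.2⟩ := dif_pos hex
          rw [e']
          rfl
        have hp2 : (2 : ℝ) ^ ℓ = 2 ^ (ℓ - 2) * 4 := by
          rw [show (4 : ℝ) = 2 ^ 2 by norm_num, ← pow_add, Nat.sub_add_cancel hℓ]
        rw [e]
        calc ‖vec (mesh d ℓ) (cell F.L ℓ hex.choose.1) - vec (mesh d F.L) o.2.1‖
            ≤ ‖vec (mesh d ℓ) (cell F.L ℓ hex.choose.1) - vec (mesh d F.L) hex.choose.1‖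
              + ‖vec (mesh d F.L) hex.choose.1 - vec (mesh d F.L) o.2.1‖ :=
              norm_sub_le_norm_sub_add_norm_sub _ _ _
          _ ≤ ((2 : ℝ) ^ ℓ)⁻¹ + (2 / 2 ^ ℓ + 2 / 2 ^ ℓ) := by
              refine add_le_add (by rw [norm_sub_rev]; exact h1) ?_
              refine (norm_sub_le_norm_sub_add_norm_sub _ (F.guess o.1) _).trans ?_
              exact add_le_add (by rw [norm_sub_rev]; exact hz) hok
          _ ≤ 2 / 2 ^ (ℓ - 2) := by
              rw [hp2, show ((2 : ℝ) ^ (ℓ - 2) * 4)⁻¹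
                + (2 / (2 ^ (ℓ - 2) * 4) + 2 / (2 ^ (ℓ - 2) * 4)) = 5 / 4 / 2 ^ (ℓ - 2) by
                field_simp; ring]
              gcongr
              norm_num
      simp [hok, hgood]
    · simp only [if_neg hok, Function.comp_apply]
      refine mul_nonneg hnn ?_
      split_ifs <;> norm_num
  have hg := pot_ge hd2 F.near hμ
  have hc := cent_of_success hd2 F.near hμ (fun o => o.1) (fun o => o.2)
    ((Nat.sub_le ℓ 2).trans F.ℓ_le) guess' hsucc
  have h0 := pot_start hd2 F.near F.prior_pmf F.spread F.init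
  have hpR : (d : ℝ) / 8 ≤ p := by
    have : d ≤ 8 * p := by omega
    have : (d : ℝ) ≤ 8 * p := by exact_mod_cast this
    linarith
  have hTR : (T : ℝ) ≤ d / 16 := by
    have : 16 * T ≤ d := by omega
    have : (16 : ℝ) * T ≤ d := by exact_mod_cast this
    linarith
  have hlog : log ((8 * (d : ℝ) * 2 ^ ℓ) ^ d) ≤ d * (8 * d + log 2 * ℓ) := by
    rw [log_pow, log_mul (by positivity) (by positivity), log_pow]
    have := log_le_sub_one_of_pos (show (0 : ℝ) < 8 * d by positivity)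
    refine mul_le_mul_of_nonneg_left ?_ (by positivity)
    linarith
  have hfrac : (log ((8 * (d : ℝ) * 2 ^ ℓ) ^ d) + 80 * (T * d)) / p
      ≤ 64 * d + 8 * (log 2 * ℓ) + 40 * d := by
    calc _ ≤ (d * (8 * d + log 2 * ℓ) + 80 * (d / 16 * d)) / (d / 8) := by
          refine div_le_div₀ (by positivity) ?_ (by positivity) hpR
          have := mul_le_mul_of_nonneg_right hTR (by positivity : (0 : ℝ) ≤ d)
          linarith
      _ = _ := by field_simp; ring
  have hl : log 2 * ((ℓ - 2 : ℕ) : ℝ) = log 2 * ℓ - 2 * log 2 := by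
    rw [Nat.cast_sub hℓ]; ring
  have hhalf := mul_le_mul_of_nonneg_right (half_le hd)
    (show (0 : ℝ) ≤ log 2 * ((ℓ - 2 : ℕ) : ℝ) by
      rw [hl]; nlinarith [log_pos (show (1 : ℝ) < 2 by norm_num)])
  have hdl : 256 * (log 2 * ℓ) ≤ d * (log 2 * ℓ) :=
    mul_le_mul_of_nonneg_right hdR (mul_nonneg (log_nonneg (by norm_num)) ℓ.cast_nonneg)
  have hdbig : (d : ℝ) * 4000 ≤ d * (log 2 * ℓ) :=
    mul_le_mul_of_nonneg_left hbig.le (by positivity)
  change pot F.L μ ≤ _ at hstep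
  change pot F.L F.law₀ ≤ _ at h0
  nlinarith

/-- learners with `M` bits need many rows or much memory -/
theorem learner_tradeoff (hd : 256 ≤ d) (A : Learner d M T) {ε : ℝ} (hε0 : 0 < ε)
    (hε : ε ≤ exp (-5000)) (h : A.Succeeds ε) :
    (1 / 102400 : ℝ) * (d * log (1 / ε)) ≤ T * (1 + (M : ℝ) / (d : ℝ) ^ 2) := by
  have hl2 : 0 < log 2 := log_pos (by norm_num)
  have hl1 : log 2 ≤ 1 := by
    have := log_le_sub_one_of_pos (show (0 : ℝ) < 2 by norm_num)
    linarith
  have hE : 5000 ≤ log (1 / ε) := by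
    have := log_le_log hε0 hε
    rw [log_exp] at this
    rw [one_div, log_inv]
    linarith
  set E := log (1 / ε) with hEdef
  set ℓ := ⌊E / log 2⌋₊ with hℓdef
  have hl_le : log 2 * ℓ ≤ E := by
    have := Nat.floor_le (show 0 ≤ E / log 2 by positivity)
    rw [le_div_iff₀ hl2] at this
    rw [mul_comm]; exact this
  have hl_ge : E - 1 ≤ log 2 * ℓ := by
    have := Nat.lt_floor_add_one (E / log 2)
    rw [div_lt_iff₀ hl2] at this
    rw [← hℓdef] at this
    nlinarith
  have hεl : ε ≤ ((2 : ℝ) ^ ℓ)⁻¹ := by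
    rw [← log_le_log_iff hε0 (by positivity), log_inv, log_pow]
    rw [hEdef, one_div, log_inv] at hl_le
    linarith
  obtain ⟨F⟩ := exists_fmodel (by omega) A hε0.le hεl h
  rcases lt_or_ge T ((d - 1) / 16) with hT | hT
  · have := F.bound_few hd hT
    linarith
  · have h1 := F.bound_blocks hd hT
    have hd0 : (0 : ℝ) ≤ d := d.cast_nonneg
    have h2 := mul_le_mul_of_nonneg_right hl_ge hd0
    have h3 := mul_le_mul_of_nonneg_right hE hd0
    nlinarith

/-- protocols with `M` bits need many rows or much memory -/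
theorem protocol_tradeoff (hd : 256 ≤ d) (A : Protocol d M T) {ε : ℝ} (hε0 : 0 < ε)
    (hε : ε ≤ exp (-5000)) (h : A.Succeeds ε) :
    (1 / 204800 : ℝ) * (d * log (1 / ε)) ≤ T * (1 + (M : ℝ) / (d : ℝ) ^ 2) := by
  have h1 := learner_tradeoff hd A.toLearner hε0 hε (Protocol.succeeds_toLearner h)
  have hd1 : (1 : ℝ) ≤ (d : ℝ) ^ 2 := one_le_pow₀ (by exact_mod_cast (by omega : 1 ≤ d))
  have h2 : ((M + 1 : ℕ) : ℝ) / (d : ℝ) ^ 2 ≤ M / (d : ℝ) ^ 2 + 1 := by
    push_cast
    rw [add_div]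
    have : (1 : ℝ) / (d : ℝ) ^ 2 ≤ 1 := by rw [div_le_one (by positivity)]; exact hd1
    linarith
  have h3 : (0 : ℝ) ≤ (M : ℝ) / (d : ℝ) ^ 2 := by positivity
  have h4 := mul_le_mul_of_nonneg_left h2 (T.cast_nonneg : (0 : ℝ) ≤ T)
  nlinarith [T.cast_nonneg (α := ℝ)]

end Vale.Agent.P309
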