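import Vale.Agent.P309.Ent

/-!
Posterior replicas: `p` copies of a hidden point, independent given what is known and the data.
-/

namespace Vale.Agent.P309

open Finset Real

variable {C X Z U V : Type*} [Fintype C] [Fintype X] [Fintype Z]

/-- the joint law of what is known, the hidden point and fresh data -/
def joint (μ : C × Z → ℝ) (ρ : X → ℝ) : (C × Z) × X → ℝ := fun o => μ o.1 * ρ o.2

theorem joint_isPmf {μ : C × Z → ℝ} {ρ : X → ℝ} (hμ : IsPmf μ) (hρ : IsPmf ρ) :
    IsPmf (joint μ ρ) := by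
  refine ⟨fun o => mul_nonneg (hμ.nonneg _) (hρ.nonneg _), ?_⟩
  rw [Fintype.sum_prod_type]
  simp only [joint, ← mul_sum, hρ.sum_one, mul_one, hμ.sum_one]

theorem ev_joint_fst {μ : C × Z → ℝ} {ρ : X → ℝ} (hρ : IsPmf ρ) (g : C × Z → ℝ) :
    ev (joint μ ρ) (fun o => g o.1) = ev μ g := by
  simp only [ev, joint, Fintype.sum_prod_type (α₁ := C × Z)]
  refine sum_congr rfl fun a _ => ?_
  rw [← sum_mul, ← mul_sum, hρ.sum_one, mul_one]

theorem pr_joint_fst {μ : C × Z → ℝ} {ρ : X → ℝ} (hρ : IsPmf ρ) {A : Type*} (f : C × Z → A)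
    (a : A) : pr (joint μ ρ) (fun o => f o.1) a = pr μ f a := by
  classical
  have := ev_joint_fst (μ := μ) hρ fun c => if f c = a then 1 else 0
  simpa [ev, pr] using this

theorem pr_joint_prod {μ : C × Z → ℝ} {ρ : X → ℝ} {A : Type*} (f : C × Z → A) (a : A) (x : X) :
    pr (joint μ ρ) (fun o => (o.2, f o.1)) (x, a) = ρ x * pr μ f a := by
  classical
  simp only [pr, joint, Fintype.sum_prod_type (α₁ := C × Z), Prod.mk.injEq, mul_sum]
  refine sum_congr rfl fun c _ => ?_
  rw [sum_eq_single x (fun y _ hy => by simp [hy]) (by simp)]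
  by_cases h : f c = a <;> simp [h, mul_comm]

theorem ent_joint_fst {μ : C × Z → ℝ} {ρ : X → ℝ} (hρ : IsPmf ρ) {A : Type*} (f : C × Z → A) :
    ent (joint μ ρ) (fun o => f o.1) = ent μ f := by
  have := ev_joint_fst (μ := μ) hρ fun c => -log (pr μ f (f c))
  simpa [ev, ent, pr_joint_fst hρ] using this

/-- fresh data are independent of everything known -/
theorem cent_fresh {μ : C × Z → ℝ} {ρ : X → ℝ} (hμ : IsPmf μ) (hρ : IsPmf ρ) {A : Type*}
    (f : C × Z → A) :
    cent (joint μ ρ) (fun o => o.2) (fun o => f o.1) = ent ρ id := by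
  rw [cent_eq (joint_isPmf hμ hρ)]
  simp only [pr_joint_fst hρ, pr_joint_prod]
  have key : ∀ o : (C × Z) × X, joint μ ρ o * -log (ρ o.2 * pr μ f (f o.1) / pr μ f (f o.1))
      = μ o.1 * (ρ o.2 * -log (ρ o.2)) := by
    intro o
    rcases (hμ.nonneg o.1).lt_or_eq with h | h
    · rw [mul_div_assoc, div_self (pr_pos hμ f h).ne', mul_one, joint]; ring
    · simp [joint, ← h]
  rw [sum_congr rfl fun o _ => key o, Fintype.sum_prod_type]
  simp only [← mul_sum, ← sum_mul]
  rw [hμ.sum_one, one_mul]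
  refine sum_congr rfl fun x _ => ?_
  congr 3
  classical
  simp [pr]

section Replicas

variable (Y : X → Z → U) (μ : C × Z → ℝ) (ρ : X → ℝ)

open Classical in
/-- the probability of what is known and of the data -/
noncomputable def mass (c : C) (x : X) (y : U) : ℝ :=
  ∑ z, if Y x z = y then μ (c, z) * ρ x else 0

open Classical in
/-- the posterior of the hidden point -/
noncomputable def post (c : C) (x : X) (y : U) (z : Z) : ℝ :=
  if Y x z = y then μ (c, z) * ρ x / mass Y μ ρ c x y else 0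

open Classical in
/-- the law of the replicas -/
noncomputable def repl (p : ℕ) : C × X × (Fin p → Z) → ℝ := fun o =>
  ∑ y ∈ univ.image (Y o.2.1), mass Y μ ρ o.1 o.2.1 y * ∏ i, post Y μ ρ o.1 o.2.1 y (o.2.2 i)

variable {Y μ ρ}

theorem mass_nonneg (hμ : IsPmf μ) (hρ : IsPmf ρ) (c : C) (x : X) (y : U) :
    0 ≤ mass Y μ ρ c x y := by
  refine sum_nonneg fun z _ => ?_
  split_ifs
  · exact mul_nonneg (hμ.nonneg _) (hρ.nonneg _)
  · exact le_rfl

theorem post_nonneg (hμ : IsPmf μ) (hρ : IsPmf ρ) (c : C) (x : X) (y : U) (z : Z) :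
    0 ≤ post Y μ ρ c x y z := by
  unfold post
  split_ifs
  · exact div_nonneg (mul_nonneg (hμ.nonneg _) (hρ.nonneg _)) (mass_nonneg hμ hρ _ _ _)
  · exact le_rfl

theorem sum_post (c : C) (x : X) (y : U) (h : mass Y μ ρ c x y ≠ 0) :
    ∑ z, post Y μ ρ c x y z = 1 := by
  classical
  have e : ∀ z, post Y μ ρ c x y z
      = (if Y x z = y then μ (c, z) * ρ x else 0) / mass Y μ ρ c x y := fun z => by
    unfold post; split_ifs <;> simp
  rw [sum_congr rfl fun z _ => e z, ← sum_div]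
  exact div_self h

theorem mass_mul_post (hμ : IsPmf μ) (hρ : IsPmf ρ) (c : C) (x : X) (z : Z) :
    mass Y μ ρ c x (Y x z) * post Y μ ρ c x (Y x z) z = μ (c, z) * ρ x := by
  classical
  rw [post, if_pos rfl]
  rcases eq_or_ne (mass Y μ ρ c x (Y x z)) 0 with e | e
  · have h := (sum_eq_zero_iff_of_nonneg (s := univ)
      (f := fun z' => if Y x z' = Y x z then μ (c, z') * ρ x else 0) (fun z' _ => by
        split_ifs
        · exact mul_nonneg (hμ.nonneg _) (hρ.nonneg _)
        · exact le_rfl)).1 e z (mem_univ z)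
    rw [if_pos rfl] at h
    rw [e, zero_mul, h]
  · rw [mul_div_cancel₀ _ e]

/-- every replica has the law of the hidden point -/
theorem ev_repl (hμ : IsPmf μ) (hρ : IsPmf ρ) {p : ℕ} (i : Fin p) (g : (C × Z) × X → ℝ) :
    ev (repl Y μ ρ p) (fun o => g ((o.1, o.2.2 i), o.2.1)) = ev (joint μ ρ) g := by
  classical
  have inner : ∀ c x y, mass Y μ ρ c x y *
      ∑ zs : Fin p → Z, (∏ j, post Y μ ρ c x y (zs j)) * g ((c, zs i), x)
        = ∑ z, mass Y μ ρ c x y * post Y μ ρ c x y z * g ((c, z), x) := by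
    intro c x y
    rcases eq_or_ne (mass Y μ ρ c x y) 0 with e | e
    · simp [e]
    have h : ∑ zs : Fin p → Z, (∏ j, post Y μ ρ c x y (zs j)) * g ((c, zs i), x)
        = ∏ j, ∑ z, post Y μ ρ c x y z * (if j = i then g ((c, z), x) else 1) := by
      rw [Fintype.prod_sum]
      refine sum_congr rfl fun zs _ => ?_
      rw [prod_mul_distrib]
      congr 1
      rw [prod_eq_single i (fun j _ hj => if_neg hj) (by simp), if_pos rfl]
    rw [h, prod_eq_single i (fun j _ hj => by simp [hj, sum_post c x y e]) (by simp), mul_sum]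
    exact sum_congr rfl fun z _ => by rw [if_pos rfl, mul_assoc]
  have outer : ∀ c x, ∑ zs : Fin p → Z,
      repl Y μ ρ p (c, x, zs) * g ((c, zs i), x) = ∑ z, μ (c, z) * ρ x * g ((c, z), x) := by
    intro c x
    simp only [repl, sum_mul]
    rw [sum_comm]
    simp only [mul_assoc, ← mul_sum]
    rw [sum_congr rfl fun y _ => inner c x y, sum_comm]
    refine sum_congr rfl fun z _ => ?_
    rw [sum_eq_single (Y x z)]
    · rw [mass_mul_post hμ hρ, mul_assoc]
    · intro y _ hy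
      rw [post, if_neg (Ne.symm hy)]
      simp
    · exact fun h => absurd (mem_image_of_mem _ (mem_univ z)) h
  simp only [ev, Fintype.sum_prod_type, joint]
  refine sum_congr rfl fun c _ => ?_
  rw [sum_comm (γ := Z)]
  exact sum_congr rfl fun x _ => outer c x

theorem repl_isPmf (hμ : IsPmf μ) (hρ : IsPmf ρ) {p : ℕ} (i : Fin p) :
    IsPmf (repl Y μ ρ p) := by
  refine ⟨fun o => sum_nonneg fun y _ =>
    mul_nonneg (mass_nonneg hμ hρ _ _ _) (prod_nonneg fun j _ => post_nonneg hμ hρ _ _ _ _), ?_⟩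
  have := ev_repl (Y := Y) hμ hρ i fun _ => 1
  simpa [ev, (joint_isPmf hμ hρ).sum_one] using this

theorem pr_repl (hμ : IsPmf μ) (hρ : IsPmf ρ) {p : ℕ} (i : Fin p) {A : Type*}
    (f : (C × Z) × X → A) (a : A) :
    pr (repl Y μ ρ p) (fun o => f ((o.1, o.2.2 i), o.2.1)) a = pr (joint μ ρ) f a := by
  classical
  have := ev_repl (Y := Y) hμ hρ i fun o => if f o = a then 1 else 0
  simpa [ev, pr] using this

theorem ent_repl (hμ : IsPmf μ) (hρ : IsPmf ρ) {p : ℕ} (i : Fin p) {A : Type*}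
    (f : (C × Z) × X → A) :
    ent (repl Y μ ρ p) (fun o => f ((o.1, o.2.2 i), o.2.1)) = ent (joint μ ρ) f := by
  have := ev_repl (Y := Y) hμ hρ i fun o => -log (pr (joint μ ρ) f (f o))
  simpa [ev, ent, pr_repl hμ hρ i] using this

theorem cent_repl (hμ : IsPmf μ) (hρ : IsPmf ρ) {p : ℕ} (i : Fin p) {A B : Type*}
    (f : (C × Z) × X → A) (h : (C × Z) × X → B) :
    cent (repl Y μ ρ p) (fun o => f ((o.1, o.2.2 i), o.2.1))
      (fun o => h ((o.1, o.2.2 i), o.2.1)) = cent (joint μ ρ) f h := by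
  rw [cent, cent, ent_repl hμ hρ i h, ← ent_repl (Y := Y) hμ hρ i fun o => (f o, h o)]

/-- on the support all replicas see the same label -/
theorem label_eq {p : ℕ} {o : C × X × (Fin p → Z)} (h : repl Y μ ρ p o ≠ 0) (i j : Fin p) :
    Y o.2.1 (o.2.2 i) = Y o.2.1 (o.2.2 j) := by
  classical
  by_contra hne
  refine h (sum_eq_zero fun y _ => ?_)
  by_cases hi : Y o.2.1 (o.2.2 i) = y
  · rw [prod_eq_zero (mem_univ j) (by rw [post, if_neg fun e => hne (hi.trans e.symm)]), mul_zero]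
  · rw [prod_eq_zero (mem_univ i) (by rw [post, if_neg hi]), mul_zero]

theorem repl_eq {p : ℕ} (i₀ : Fin p) (o : C × X × (Fin p → Z)) :
    repl Y μ ρ p o = mass Y μ ρ o.1 o.2.1 (Y o.2.1 (o.2.2 i₀)) *
      ∏ i, post Y μ ρ o.1 o.2.1 (Y o.2.1 (o.2.2 i₀)) (o.2.2 i) := by
  classical
  refine sum_eq_single _ (fun y _ hy => ?_) fun h => absurd (mem_image_of_mem _ (mem_univ _)) h
  rw [prod_eq_zero (mem_univ i₀) (by rw [post, if_neg (Ne.symm hy)]), mul_zero]

theorem pr_obs (c : C) (x : X) (y : U) :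
    pr (joint μ ρ) (fun o => (o.1.1, o.2, Y o.2 o.1.2)) (c, x, y) = mass Y μ ρ c x y := by
  classical
  simp only [pr, joint, mass, Fintype.sum_prod_type, Prod.mk.injEq]
  rw [sum_eq_single c (fun c' _ h => by simp [h]) (by simp)]
  refine sum_congr rfl fun z _ => ?_
  rw [sum_eq_single x (fun x' _ h => by simp [h]) (by simp)]
  simp

/-- given the data, the replicas are independent -/
theorem cent_repl_obs (hμ : IsPmf μ) (hρ : IsPmf ρ) {p : ℕ} (i₀ : Fin p) :
    cent (repl Y μ ρ p) (fun o => o.2.2) (fun o => (o.1, o.2.1, Y o.2.1 (o.2.2 i₀)))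
      = p * cent (joint μ ρ) (fun o => o.1.2) (fun o => (o.1.1, o.2, Y o.2 o.1.2)) := by
  classical
  have hR := repl_isPmf (Y := Y) hμ hρ i₀
  set k : C × X × (Fin p → Z) → C × X × U :=
    fun o => (o.1, o.2.1, Y o.2.1 (o.2.2 i₀)) with hk
  set g : (C × Z) × X → ℝ := fun o =>
    -log (pr (joint μ ρ) (fun o => (o.1.2, o.1.1, o.2, Y o.2 o.1.2))
      (o.1.2, o.1.1, o.2, Y o.2 o.1.2) /
      pr (joint μ ρ) (fun o => (o.1.1, o.2, Y o.2 o.1.2)) (o.1.1, o.2, Y o.2 o.1.2)) with hg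
  have hj : ∀ o : (C × Z) × X, pr (joint μ ρ) (fun o => (o.1.2, o.1.1, o.2, Y o.2 o.1.2))
      (o.1.2, o.1.1, o.2, Y o.2 o.1.2) = μ o.1 * ρ o.2 := by
    intro o
    refine (sum_eq_single o (fun o' _ h => if_neg fun e => h ?_) (by simp)).trans ?_
    · simp only [Prod.mk.injEq] at e
      exact Prod.ext (Prod.ext e.2.1 e.1) e.2.2.1
    · simp [joint]
  have hsum : cent (repl Y μ ρ p) (fun o => o.2.2) k
      = ∑ i, ev (repl Y μ ρ p) (fun o => g ((o.1, o.2.2 i), o.2.1)) := by
    rw [cent_eq hR]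
    simp only [ev]
    rw [sum_comm]
    refine sum_congr rfl fun o _ => ?_
    rw [← mul_sum]
    rcases eq_or_ne (repl Y μ ρ p o) 0 with e | e
    · simp [e]
    congr 1
    have e1 : pr (repl Y μ ρ p) (fun x => (x.2.2, k x)) (o.2.2, k o) = repl Y μ ρ p o := by
      refine (sum_eq_single o (fun o' _ h => if_neg fun e => h ?_) (by simp)).trans ?_
      · simp only [hk, Prod.mk.injEq] at e
        exact Prod.ext e.2.1 (Prod.ext e.2.2.1 e.1)
      · simp
    have e2 : pr (repl Y μ ρ p) k (k o) = mass Y μ ρ o.1 o.2.1 (Y o.2.1 (o.2.2 i₀)) := by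
      rw [← pr_obs]
      exact pr_repl (Y := Y) hμ hρ i₀ (fun o => (o.1.1, o.2, Y o.2 o.1.2)) _
    have hm : mass Y μ ρ o.1 o.2.1 (Y o.2.1 (o.2.2 i₀)) ≠ 0 := fun h0 => e (by
      rw [repl_eq i₀, h0, zero_mul])
    have hp : ∀ i, post Y μ ρ o.1 o.2.1 (Y o.2.1 (o.2.2 i₀)) (o.2.2 i) ≠ 0 := fun i h0 => e (by
      rw [repl_eq i₀, prod_eq_zero (mem_univ i) h0, mul_zero])
    rw [e1, e2]
    conv_lhs => rw [repl_eq i₀ o, mul_div_cancel_left₀ _ hm, log_prod fun i _ => hp i,
      ← sum_neg_distrib]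
    refine sum_congr rfl fun i _ => ?_
    have h3 := hj ((o.1, o.2.2 i), o.2.1)
    simp only at h3
    rw [label_eq e i i₀] at h3
    rw [hg]
    simp only [pr_obs]
    rw [label_eq e i i₀, h3, post, if_pos (label_eq e i i₀)]
  rw [hsum, sum_congr rfl fun i _ => ev_repl (Y := Y) hμ hρ i g, sum_const, card_univ,
    Fintype.card_fin, nsmul_eq_mul]
  congr 1
  rw [cent_eq (joint_isPmf hμ hρ)]
  rfl

/-- `TC`, the total correlation of the replicas given what was known, through the labels -/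
theorem totalCorr_eq (hμ : IsPmf μ) (hρ : IsPmf ρ) {p : ℕ} (i₀ : Fin p) :
    p * cent (joint μ ρ) (fun o => o.1.2) (fun o => o.1.1)
        - cent (repl Y μ ρ p) (fun o => o.2.2) (fun o => o.1)
      = (p - 1) * cent (joint μ ρ) (fun o => Y o.2 o.1.2) (fun o => (o.2, o.1.1))
        - ent ρ id + cent (repl Y μ ρ p) (fun o => o.2.1) (fun o => (o.2.2, o.1)) := by
  have hR := repl_isPmf (Y := Y) hμ hρ i₀
  have hJ := joint_isPmf hμ hρ
  set J := joint μ ρ
  set R := repl Y μ ρ p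
  -- one point
  have a1 : cent J (fun o => (o.1.2, o.2, Y o.2 o.1.2)) (fun o => o.1.1)
      = cent J (fun o => (o.2, o.1.2)) (fun o => o.1.1) :=
    cent_congr (fun x y => by simp only [Prod.mk.injEq]; aesop) fun _ _ => Iff.rfl
  have a2 : cent J (fun o => o.2) (fun o => (o.1.2, o.1.1)) = ent ρ id :=
    cent_fresh hμ hρ fun q : C × Z => (q.2, q.1)
  have a3 : cent J (fun o => o.2) (fun o => o.1.1) = ent ρ id :=
    cent_fresh hμ hρ fun q : C × Z => q.1
  have a4 := cent_chain (P := J) (fun o => o.2) (fun o => o.1.2) (fun o => o.1.1)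
  have a5 := cent_chain (P := J) (fun o => o.1.2) (fun o => (o.2, Y o.2 o.1.2)) (fun o => o.1.1)
  have a6 := cent_chain (P := J) (fun o => Y o.2 o.1.2) (fun o => o.2) (fun o => o.1.1)
  have a7 : cent J (fun o => (Y o.2 o.1.2, o.2)) (fun o => o.1.1)
      = cent J (fun o => (o.2, Y o.2 o.1.2)) (fun o => o.1.1) :=
    cent_congr (fun x y => by simp only [Prod.mk.injEq]; aesop) fun _ _ => Iff.rfl
  have a8 : cent J (fun o => o.1.2) (fun o => ((o.2, Y o.2 o.1.2), o.1.1))
      = cent J (fun o => o.1.2) (fun o => (o.1.1, o.2, Y o.2 o.1.2)) :=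
    cent_congr (fun x y => by simp only [Prod.mk.injEq]; aesop)
      fun x y => by simp only [Prod.mk.injEq]; aesop
  -- all replicas
  let Y0 : C × X × (Fin p → Z) → U := fun o => Y o.2.1 (o.2.2 i₀)
  have b1 : cent R (fun o => (o.2.2, o.2.1, Y0 o)) (fun o => o.1)
      = cent R (fun o => (o.2.1, o.2.2)) (fun o => o.1) :=
    cent_congr (fun x y => by simp only [Prod.mk.injEq, Y0]; aesop) fun _ _ => Iff.rfl
  have b4 := cent_chain (P := R) (fun o => o.2.1) (fun o => o.2.2) (fun o => o.1)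
  have b5 := cent_chain (P := R) (fun o => o.2.2) (fun o => (o.2.1, Y0 o)) (fun o => o.1)
  have b7 : cent R (fun o => (o.2.1, Y0 o)) (fun o => o.1)
      = cent J (fun o => (o.2, Y o.2 o.1.2)) (fun o => o.1.1) :=
    cent_repl hμ hρ i₀ (fun o => (o.2, Y o.2 o.1.2)) (fun o => o.1.1)
  have b8 : cent R (fun o => o.2.2) (fun o => ((o.2.1, Y0 o), o.1))
      = p * cent J (fun o => o.1.2) (fun o => (o.1.1, o.2, Y o.2 o.1.2)) := by
    rw [← cent_repl_obs hμ hρ i₀]
    exact cent_congr (fun x y => by simp only [Prod.mk.injEq, Y0]; aesop)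
      fun x y => by simp only [Prod.mk.injEq, Y0]; aesop
  linear_combination -((p : ℝ) * (a1 - a5 + a4 + a2) + b5 - b1 - b4 + b8 + b7
    - (p : ℝ) * a8 + ((p : ℝ) - 1) * (a7 - a6 - a3))

/-- the information kept about one point is bounded by the memory and the total correlation -/
theorem replica_gain (hμ : IsPmf μ) (hρ : IsPmf ρ) {p : ℕ} (i₀ : Fin p) (W : C → X → U → V) :
    let w := fun o : (C × Z) × X => W o.1.1 o.2 (Y o.2 o.1.2)
    p * (cent (joint μ ρ) (fun o => o.1.2) (fun o => o.1.1)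
          - cent (joint μ ρ) (fun o => o.1.2) (fun o => (w o, o.1.1)))
      ≤ cent (joint μ ρ) w (fun o => o.1.1)
        + (p * cent (joint μ ρ) (fun o => o.1.2) (fun o => o.1.1)
          - cent (repl Y μ ρ p) (fun o => o.2.2) (fun o => o.1)) := by
  intro w
  have hR := repl_isPmf (Y := Y) hμ hρ i₀
  let w' : C × X × (Fin p → Z) → V := fun o => w ((o.1, o.2.2 i₀), o.2.1)
  have h1 := cent_le_add hR (fun o => o.2.2) w' (fun o => o.1)
  have h2 : cent (repl Y μ ρ p) w' (fun o => o.1) = cent (joint μ ρ) w (fun o => o.1.1) :=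
    cent_repl hμ hρ i₀ w (fun o => o.1.1)
  have h3 := cent_pi_le hR (fun i o => o.2.2 i) (fun o => (w' o, o.1))
  have h4 : ∀ i, cent (repl Y μ ρ p) (fun o => o.2.2 i) (fun o => (w' o, o.1))
      = cent (joint μ ρ) (fun o => o.1.2) (fun o => (w o, o.1.1)) := by
    intro i
    rw [← cent_repl (Y := Y) hμ hρ i (fun o => o.1.2) (fun o => (w o, o.1.1))]
    have e : ∀ o, repl Y μ ρ p o ≠ 0 → w' o = w ((o.1, o.2.2 i), o.2.1) := fun o ho => by
      simp only [w', w, label_eq ho i₀ i]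
    exact cent_congr_ae hR (fun o ho => by rw [e o ho]) fun o ho => by rw [e o ho]
  simp only [h4, sum_const, card_univ, Fintype.card_fin, nsmul_eq_mul] at h3
  linarith

end Replicas

end Vale.Agent.P309
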