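import Vale.Agent.P309.Corr
import Vale.Agent.P309.Ends

/-!
One block of rows.
-/

namespace Vale.Agent.P309

open Finset Real

variable {d k : ℕ} {S Z : Finset (Fin d → ℤ)} {W W' : Type} [Fintype W] [Fintype W']

/-- the law of the new state and the signal after a block -/
noncomputable def blockLaw (η : ℝ) (L L₀ : ℕ) (μ : W × Z → ℝ) (ρ : S → ℝ)
    (G : W → (Fin k → S) → (Fin k → ℤ) → W') : W' × Z → ℝ :=
  push (fun o : (W × Z) × (Fin k → S) => μ o.1 * iid ρ k o.2)
    fun o => (G o.1.1 o.2 (fun r => lab η L L₀ (o.2 r).1 o.1.2.1), o.1.2)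

theorem blockLaw_isPmf {η : ℝ} {L L₀ : ℕ} {μ : W × Z → ℝ} {ρ : S → ℝ} (hμ : IsPmf μ)
    (hρ : IsPmf ρ) (G : W → (Fin k → S) → (Fin k → ℤ) → W') :
    IsPmf (blockLaw η L L₀ μ ρ G) :=
  push_isPmf (joint_isPmf hμ (iid_isPmf hρ k)) _

/-- what is known at a cut: the state, the level and the cell -/
abbrev Known (L : ℕ) (Z : Finset (Fin d → ℤ)) (W : Type) : Type :=
  W × Fin (L + 1) ×
    {q : Fin d → ℤ // q ∈ (univ : Finset (Z × Fin (L + 1))).image fun o => cell L o.2 o.1.1}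

/-- what is known at a cut of a coupling -/
def known {L : ℕ} (o : (W × Z) × Fin (L + 1)) : Known L Z W :=
  (o.1.1, o.2, ⟨cell L o.2 o.1.2.1, mem_image_of_mem
    (fun p : Z × Fin (L + 1) => cell L p.2 p.1.1) (mem_univ (o.1.2, o.2))⟩)

theorem push_joint_map {A B X V : Type*} [Fintype A] [Fintype B] [Fintype X] {ν : A → ℝ}
    {μ : B → ℝ} (ψ : A → B) (hψ : push ν ψ = μ) (ρ : X → ℝ) (f : B × X → V) :
    push (fun o : A × X => ν o.1 * ρ o.2) (fun o => f (ψ o.1, o.2))
      = push (fun o : B × X => μ o.1 * ρ o.2) f := by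
  classical
  funext v
  simp only [push, pr, Fintype.sum_prod_type]
  rw [sum_comm, sum_comm (s := (univ : Finset B))]
  refine sum_congr rfl fun x _ => ?_
  have h := ev_push (P := ν) ψ fun b => if f (b, x) = v then ρ x else 0
  rw [hψ] at h
  simp only [ev, Function.comp] at h
  simpa only [mul_ite, mul_zero] using h.symm

omit [Fintype W'] in
/-- few reachable values cost little -/
theorem cent_card_le {Ω : Type*} [Fintype Ω] {P : Ω → ℝ} (hP : IsPmf P) {V : Type*} [DecidableEq V]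
    (f : Ω → V) {β : Type*} (g : Ω → β) (A : β → Finset V) (hA : ∀ ω, f ω ∈ A (g ω)) {N : ℝ}
    (hN : ∀ b, ((A b).card : ℝ) ≤ N) : cent P f g ≤ log N := by
  refine (cent_le_gibbs hP f g (fun b a => if a ∈ A b then ((A b).card : ℝ)⁻¹ else 0)
    (fun b a => by split_ifs <;> positivity) (fun ω _ => ?_) fun b => ?_).trans ?_
  · rw [if_pos (hA ω)]
    exact inv_pos.2 (Nat.cast_pos.2 (card_pos.2 ⟨_, hA ω⟩))
  · rw [← sum_filter, sum_const, nsmul_eq_mul, ← div_eq_mul_inv]
    refine div_le_one_of_le₀ (Nat.cast_le.2 (card_le_card fun a ha => (mem_filter.1 ha).2)) ?_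
    exact Nat.cast_nonneg _
  · calc ∑ ω, P ω * -log (if f ω ∈ A (g ω) then ((A (g ω)).card : ℝ)⁻¹ else 0)
        ≤ ∑ ω, P ω * log N := sum_le_sum fun ω _ => by
          rw [if_pos (hA ω), log_inv, neg_neg]
          refine mul_le_mul_of_nonneg_left (log_le_log ?_ (hN _)) (hP.nonneg ω)
          exact Nat.cast_pos.2 (card_pos.2 ⟨_, hA ω⟩)
      _ = log N := by rw [← sum_mul, hP.sum_one, one_mul]

/-- one block raises the potential by at most the memory over the dimension plus the block -/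
theorem pot_step {η : ℝ} {L L₀ p : ℕ} {ρ : S → ℝ} (hd : 2 ≤ d) (hη : 0 < η)
    (hηle : η * (2 ^ L₀ * (2 * d)) ≤ 1) (hL₀ : L₀ ≤ L) (hrows : RowHyp η S ρ)
    (hnear : NearSphere L Z) (hp : 2 ≤ p) (hp4 : 4 * p ≤ d - 1) (hk : 16 * k ≤ d - 1)
    {μ : W × Z → ℝ} (hμ : IsPmf μ) (G : W → (Fin k → S) → (Fin k → ℤ) → W') (A : W → Finset W')
    (hA : ∀ w x y, G w x y ∈ A w) {N : ℝ} (hN : ∀ w, ((A w).card : ℝ) ≤ N) :
    pot L (blockLaw η L L₀ μ ρ G) ≤ pot L μ + 1 + (log N + 80 * (k * d)) / p := by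
  classical
  obtain ⟨⟨κ, hκ, hfst⟩, hcost⟩ := exists_cut (L := L) hμ
  set ν := push κ (fun o => (known o, o.1.2)) with hν
  have hνp : IsPmf ν := push_isPmf hκ _
  have hρk := iid_isPmf hrows.pmf k
  let sg : Known L Z W → ℕ := fun c => c.2.1
  let ctr : Known L Z W → EuclideanSpace ℝ (Fin d) := fun c => vec (mesh d c.2.1) c.2.2.1
  have hsupp : ∀ c z, ν (c, z) ≠ 0 → c.2.2.1 = cell L (sg c) z.1 := by
    intro c z h
    by_contra hne
    refine h (sum_eq_zero fun o _ => if_neg fun e => hne ?_)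
    simp only [Prod.mk.injEq] at e
    rw [← e.1, ← e.2]
    rfl
  have hsg : ∀ c : Known L Z W, sg c ≤ L := fun c => Nat.le_of_lt_succ c.2.1.2
  have hctr : ∀ c z, ν (c, z) ≠ 0 → ‖vec (mesh d L) z.1 - ctr c‖ ≤ 1 / 2 ^ sg c := by
    intro c z h
    show ‖vec (mesh d L) z.1 - vec (mesh d c.2.1) c.2.2.1‖ ≤ _
    rw [hsupp c z h, one_div]
    exact norm_vec_sub_cell (by omega) (hsg c) z.1
  have hpd : p ≤ d := by omega
  let i₀ : Fin p := ⟨0, by omega⟩
  have hst : push ν (fun q => (q.1.1, q.2)) = μ := (push_push κ _ _).trans hfst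
  set J := joint ν (iid ρ k) with hJdef
  have hJ : IsPmf J := joint_isPmf hνp hρk
  let Y : (Fin k → S) → Z → (Fin k → ℤ) := labs η L L₀
  let w : (Known L Z W × Z) × (Fin k → S) → W' := fun o => G o.1.1.1 o.2 (Y o.2 o.1.2)
  have hlaw : push J (fun o => (w o, o.1.2)) = blockLaw η L L₀ μ ρ G :=
    push_joint_map (fun q : Known L Z W × Z => (q.1.1, q.2)) hst (iid ρ k)
      fun o => (G o.1.1 o.2 (fun r => lab η L L₀ (o.2 r).1 o.1.2.1), o.1.2)
  have hnew := pot_le (bddBelow_cut hd hnear (blockLaw η L L₀ μ ρ G)) hJ w (fun o => o.1.2)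
    (fun o => sg o.1.1) (fun o => hsg o.1.1) hlaw
  set H := cent J (fun o => o.1.2) (fun o => o.1.1) with hH
  have hold : cutCost L κ (fun o => o.1.1) (fun o => o.1.2) (fun o => (o.2 : ℕ))
      = ((d : ℝ) - 1) * log 2 * L - 3 / 4 * ((d : ℝ) - 1) * log 2 *
        ev J (fun o => (sg o.1.1 : ℝ)) - H := by
    have e1 : ev J (fun o => (sg o.1.1 : ℝ)) = ev κ (fun o => ((o.2 : ℕ) : ℝ)) :=
      (ev_joint_fst hρk fun q => (sg q.1 : ℝ)).trans (ev_push _ _)
    have e2 : H = cent κ (fun o => o.1.2) known := by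
      have h1 : H = cent ν Prod.snd Prod.fst := by
        rw [hH, cent, cent, ← ent_joint_fst (μ := ν) hρk Prod.fst,
          ← ent_joint_fst (μ := ν) hρk fun q => (q.2, q.1)]
      rw [h1, hν, cent_push]
      rfl
    have hk : ∀ x y : (W × Z) × Fin (L + 1), known x = known y ↔
        (x.1.1, (x.2 : ℕ), cell L x.2 x.1.2.1) = (y.1.1, (y.2 : ℕ), cell L y.2 y.1.2.1) :=
      fun x y => ⟨fun e => congrArg (fun c : Known L Z W => (c.1, (c.2.1 : ℕ), c.2.2.1)) e,
        fun e => by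
          simp only [Prod.mk.injEq] at e
          exact Prod.ext e.1 (Prod.ext (Fin.ext e.2.1) (Subtype.ext e.2.2))⟩
    have e3 : cent κ (fun o => o.1.2) known
        = cent κ (fun o => o.1.2) (fun o => (o.1.1, (o.2 : ℕ), cell L o.2 o.1.2.1)) :=
      cent_congr (fun x y => and_congr_right' (hk x y)) hk
    rw [cutCost, e1, e2, e3]
  have hcell : ∀ o, J o ≠ 0 → cell L (sg o.1.1) o.1.2.1 = o.1.1.2.2.1 := fun o h =>
    (hsupp o.1.1 o.1.2 fun e => h (by simp [hJdef, joint, e])).symm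
  have hgain : cent J (fun o => o.1.2) (fun o => (w o, o.1.1))
      ≤ cent J (fun o => o.1.2) (fun o => (w o, sg o.1.1, cell L (sg o.1.1) o.1.2.1)) := by
    rw [cent_congr_ae hJ (g' := fun o => (w o, sg o.1.1, o.1.1.2.2.1)) (f' := fun o => o.1.2)
      (fun o h => by rw [hcell o h]) (fun o h => by rw [hcell o h])]
    exact cent_le_of_imp hJ _ fun x y e => by
      simp only [Prod.mk.injEq] at e ⊢
      exact ⟨e.1, by rw [e.2], by rw [e.2]⟩
  have hW : cent J w (fun o => o.1.1) ≤ log N :=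
    cent_card_le hJ w (fun o => o.1.1) (fun c => A c.1) (fun o => hA _ _ _) fun c => hN _
  -- testing the cut against deeper ones
  have hopt : ∀ i, i ≠ i₀ → cent (repl Y ν (iid ρ k) p) (fun o => o.2.2 i)
        (fun o => (o.1.1, sg o.1 + dep L sg i₀ hpd o i,
          cell L (sg o.1 + dep L sg i₀ hpd o i) (o.2.2 i).1))
      + 3 / 4 * ((d : ℝ) - 1) * log 2 *
          ev (repl Y ν (iid ρ k) p) (fun o => (dep L sg i₀ hpd o i : ℝ)) ≤ H + 1 := by
    intro i _
    have hR := repl_isPmf (Y := Y) hνp hρk i₀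
    set P := repl Y ν (iid ρ k) p with hPdef
    have hmarg : push P (fun o => (o.1.1, o.2.2 i)) = μ := by
      funext a
      calc push P (fun o => (o.1.1, o.2.2 i)) a
          = pr J (fun o => (o.1.1.1, o.1.2)) a :=
            pr_repl hνp hρk i (fun o => (o.1.1.1, o.1.2)) a
        _ = pr ν (fun q => (q.1.1, q.2)) a :=
            pr_joint_fst (μ := ν) hρk (fun q => (q.1.1, q.2)) a
        _ = μ a := congrFun hst a
    have h := pot_le (bddBelow_cut hd hnear μ) hR (fun o => o.1.1) (fun o => o.2.2 i)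
      (fun o => sg o.1 + dep L sg i₀ hpd o i) (fun o => by
        have := depth_le L (sg o.1) (res (fam L i₀ o.2.2) (Fin.castLE hpd i))
        have := hsg o.1
        show sg o.1 + depth L (sg o.1) (res (fam L i₀ o.2.2) (Fin.castLE hpd i)) ≤ L
        omega) hmarg
    have e1 : ev P (fun o => ((sg o.1 + dep L sg i₀ hpd o i : ℕ) : ℝ))
        = ev J (fun o => (sg o.1.1 : ℝ)) + ev P (fun o => (dep L sg i₀ hpd o i : ℝ)) := by
      rw [← ev_repl (Y := Y) hνp hρk i (fun o => (sg o.1.1 : ℝ))]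
      simp only [ev, Nat.cast_add, mul_add, sum_add_distrib, hPdef]
    rw [cutCost, e1] at h
    linarith
  have hTC := totalCorr_le sg ctr hνp hrows hη hηle hL₀ hsg hctr (fun c => c.1) hp hp4 hk hpd i₀
    rfl hopt
  have hrep := replica_gain (Y := Y) hνp hρk i₀ fun c x y => G c.1 x y
  simp only at hrep
  have hp0 : (0 : ℝ) < p := Nat.cast_pos.2 (by omega)
  have hG : H - cent J (fun o => o.1.2) (fun o => (w o, o.1.1))
      ≤ (log N + 80 * (k * d)) / p := by
    rw [le_div_iff₀ hp0, mul_comm]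
    exact hrep.trans (add_le_add hW hTC)
  rw [cutCost] at hnew
  linarith

end Vale.Agent.P309
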