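import Vale.Agent.P309.Protocol

/-!
A protocol with little memory and few rows: the Kaczmarz update, rounded to a grid.
-/

namespace Vale.Agent.P309

open MeasureTheory ProbabilityTheory Finset Real

variable {d N n : ℕ}

namespace Kacz

/-- the grid point of a code -/
noncomputable def gval (δ : ℝ) (j : Fin (2 * N + 1)) : ℝ := δ * (j : ℕ) - 1

/-- the code of a number, cut to the interval from `-1` to `1` -/
noncomputable def gcode (δ : ℝ) (N : ℕ) (a : ℝ) : Fin (2 * N + 1) :=
  ⟨min (2 * N) ⌊(max (-1) (min 1 a) + 1) / δ⌋₊, by omega⟩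

theorem measurable_gcode (δ : ℝ) (N : ℕ) : Measurable (gcode δ N) := by
  have h : Measurable fun a : ℝ => min (2 * N) ⌊(max (-1) (min 1 a) + 1) / δ⌋₊ :=
    (measurable_of_countable fun k : ℕ => min (2 * N) k).comp
      (Nat.measurable_floor.comp (by fun_prop))
  refine measurable_to_countable' fun j => ?_
  have e : gcode δ N ⁻¹' {j}
      = (fun a : ℝ => min (2 * N) ⌊(max (-1) (min 1 a) + 1) / δ⌋₊) ⁻¹' {(j : ℕ)} := by
    ext a
    simp [gcode, Fin.ext_iff]
  rw [e]
  exact h (measurableSet_singleton _)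

theorem gval_gcode_sub_le {δ : ℝ} (hδ : 0 < δ) (hN : 1 ≤ δ * N) {s : ℝ} (hs : |s| ≤ 1) (a : ℝ) :
    |gval δ (gcode δ N a) - s| ≤ |a - s| + δ := by
  set b := max (-1) (min 1 a) with hb
  obtain ⟨hs1, hs2⟩ := abs_le.1 hs
  have hbs : |b - s| ≤ |a - s| := by
    rw [hb, abs_le]
    have h0 := le_abs_self (a - s)
    have h1 := neg_abs_le (a - s)
    simp only [max_def, min_def]
    constructor <;> split_ifs <;> linarith
  have hb1 : -1 ≤ b := le_max_left _ _
  have hb2 : b ≤ 1 := max_le (by norm_num) (min_le_left _ _)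
  have h0 : 0 ≤ (b + 1) / δ := div_nonneg (by linarith) hδ.le
  have h2N : (b + 1) / δ ≤ (2 * N : ℕ) := by
    rw [div_le_iff₀ hδ]; push_cast; nlinarith
  have hfl : ⌊(b + 1) / δ⌋₊ ≤ 2 * N := by
    exact_mod_cast (Nat.floor_le h0).trans h2N
  have h1 := Nat.floor_le h0
  have h3 := Nat.lt_floor_add_one ((b + 1) / δ)
  rw [le_div_iff₀ hδ] at h1
  rw [div_lt_iff₀ hδ] at h3
  have hv : gval δ (gcode δ N a) = δ * (⌊(b + 1) / δ⌋₊ : ℕ) - 1 := by
    simp only [gval, gcode, ← hb, min_eq_right hfl]
  have hd' : |gval δ (gcode δ N a) - b| ≤ δ := by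
    rw [hv, abs_le]; constructor <;> nlinarith
  calc _ ≤ |gval δ (gcode δ N a) - b| + |b - s| := abs_sub_le _ _ _
    _ ≤ _ := by linarith

/-- the point of a tuple of codes -/
noncomputable def pt (δ : ℝ) (w : Fin d → Fin (2 * N + 1)) : Fin d → ℝ := fun i => gval δ (w i)

/-- squared distance to the signal -/
noncomputable def err (δ : ℝ) (s : Fin d → ℝ) (w : Fin d → Fin (2 * N + 1)) : ℝ :=
  ∑ i, (pt δ w i - s i) ^ 2

/-- one rounded update -/
noncomputable def next (δ : ℝ) (w : Fin d → Fin (2 * N + 1)) (p : (Fin d → ℝ) × ℝ) :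
    Fin d → Fin (2 * N + 1) :=
  fun i => gcode δ N (pt δ w i + (p.2 - dot p.1 (pt δ w)) / dot p.1 p.1 * p.1 i)

/-- the state after some pairs -/
noncomputable def loop (δ : ℝ) (s : Fin d → ℝ) (n : ℕ) (x : Fin n → Fin d → ℝ)
    (w : Fin d → Fin (2 * N + 1)) : Fin d → Fin (2 * N + 1) :=
  Fin.foldl n (fun v i => next δ v (x i, dot (x i) s)) w

/-- the start -/
noncomputable def start (δ : ℝ) (N : ℕ) : Fin d → Fin (2 * N + 1) := fun _ => gcode δ N 0

theorem dot_self_nonneg (x : Fin d → ℝ) : 0 ≤ dot x x :=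
  sum_nonneg fun i _ => mul_self_nonneg _

theorem dot_sq_le (x y : Fin d → ℝ) : dot x y ^ 2 ≤ dot x x * dot y y := by
  have := sum_mul_sq_le_sq_mul_sq univ x y
  simpa [dot, sq] using this

theorem square_split {γ : ℝ} (hγ : 0 < γ) {u v δ : ℝ} (h : |u| ≤ |v| + δ) :
    u ^ 2 ≤ (1 + γ) * v ^ 2 + (1 + 1 / γ) * δ ^ 2 := by
  have h1 : u ^ 2 ≤ (|v| + δ) ^ 2 := by
    rw [← sq_abs u]; exact pow_le_pow_left₀ (abs_nonneg _) h 2
  have h2 : 0 ≤ (γ * |v| - δ) ^ 2 / γ := by positivity
  have h3 : (γ * |v| - δ) ^ 2 / γ = γ * |v| ^ 2 - 2 * (|v| * δ) + δ ^ 2 / γ := by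
    field_simp; ring
  have h4 : (1 + 1 / γ) * δ ^ 2 = δ ^ 2 + δ ^ 2 / γ := by ring
  rw [← sq_abs v]
  nlinarith

theorem err_next_le {δ γ : ℝ} (hδ : 0 < δ) (hN : 1 ≤ δ * N) (hγ : 0 < γ) {s : Fin d → ℝ}
    (hs : ∀ i, |s i| ≤ 1) (w : Fin d → Fin (2 * N + 1)) (x : Fin d → ℝ) :
    err δ s (next δ w (x, dot x s)) ≤
      (1 + γ) * (err δ s w - dot x (pt δ w - s) ^ 2 / dot x x)
        + d * ((1 + 1 / γ) * δ ^ 2) := by
  set e := pt δ w - s with he
  set c := dot x e / dot x x with hc
  have hsum : ∑ i, (e i - c * x i) ^ 2 = err δ s w - dot x e ^ 2 / dot x x := by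
    have h1 : ∑ i, (e i - c * x i) ^ 2
        = err δ s w - 2 * c * dot x e + c ^ 2 * dot x x := by
      simp only [err, dot, he, Pi.sub_apply, mul_sum, ← sum_sub_distrib, ← sum_add_distrib]
      exact sum_congr rfl fun i _ => by ring
    rw [h1, hc]
    by_cases h0 : dot x x = 0
    · simp [h0]
    · field_simp; ring
  have hstep : ∀ i, (pt δ (next δ w (x, dot x s)) i - s i) ^ 2
      ≤ (1 + γ) * (e i - c * x i) ^ 2 + (1 + 1 / γ) * δ ^ 2 := by
    intro i
    refine square_split hγ ?_
    refine (gval_gcode_sub_le hδ hN (hs i) _).trans (le_of_eq ?_)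
    congr 2
    have : dot x e = dot x (pt δ w) - dot x s := by
      simp only [dot, he, Pi.sub_apply, ← sum_sub_distrib]
      exact sum_congr rfl fun i _ => by ring
    rw [hc, this, he]
    simp only [Pi.sub_apply]
    ring
  calc err δ s (next δ w (x, dot x s))
      ≤ ∑ i, ((1 + γ) * (e i - c * x i) ^ 2 + (1 + 1 / γ) * δ ^ 2) :=
        sum_le_sum fun i _ => hstep i
    _ = _ := by rw [sum_add_distrib, ← mul_sum, hsum]; simp

instance (d : ℕ) : IsProbabilityMeasure (rowLaw d) := by unfold rowLaw; infer_instance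

theorem measurable_dot_left (e : Fin d → ℝ) : Measurable fun x : Fin d → ℝ => dot x e := by
  unfold dot; fun_prop

theorem measurable_dot_self : Measurable fun x : Fin d → ℝ => dot x x := by
  unfold dot; fun_prop

/-- the mean of one product of coordinates over the squared length -/
theorem integral_coord (hd : 0 < d) (i j : Fin d) :
    ∫ x, x i * x j / dot x x ∂rowLaw d = if i = j then 1 / (d : ℝ) else 0 := by
  classical
  have hm : ∀ a b : Fin d, Measurable fun x : Fin d → ℝ => x a * x b / dot x x :=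
    fun a b => ((measurable_pi_apply a).mul (measurable_pi_apply b)).div measurable_dot_self
  have hint : ∀ a b : Fin d, Integrable (fun x : Fin d → ℝ => x a * x b / dot x x) (rowLaw d) := by
    intro a b
    refine Integrable.of_bound (hm a b).aestronglyMeasurable 1 (ae_of_all _ fun x => ?_)
    have hsa : x a * x a ≤ dot x x :=
      single_le_sum (f := fun k => x k * x k) (fun k _ => mul_self_nonneg _) (mem_univ a)
    have hsb : x b * x b ≤ dot x x :=
      single_le_sum (f := fun k => x k * x k) (fun k _ => mul_self_nonneg _) (mem_univ b)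
    rw [Real.norm_eq_abs, abs_div, abs_of_nonneg (dot_self_nonneg x)]
    refine div_le_one_of_le₀ ?_ (dot_self_nonneg x)
    rw [abs_le]
    constructor <;> nlinarith [sq_nonneg (x a - x b), sq_nonneg (x a + x b)]
  by_cases hij : i = j
  · subst hij
    rw [if_pos rfl]
    have hperm : ∀ a : Fin d, ∫ x, x a * x a / dot x x ∂rowLaw d
        = ∫ x, x i * x i / dot x x ∂rowLaw d := by
      intro a
      have hp : MeasurePreserving
          (MeasurableEquiv.piCongrLeft (fun _ : Fin d => ℝ) (Equiv.swap a i))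
          (rowLaw d) (rowLaw d) :=
        measurePreserving_piCongrLeft (fun _ : Fin d => gaussianReal 0 1) (Equiv.swap a i)
      rw [← hp.integral_comp' (fun x => x i * x i / dot x x)]
      refine integral_congr_ae (ae_of_all _ fun x => ?_)
      have he : ∀ k, MeasurableEquiv.piCongrLeft (fun _ : Fin d => ℝ) (Equiv.swap a i) x k
          = x (Equiv.swap a i k) := by
        intro k
        conv_lhs => rw [← Equiv.swap_apply_self a i k]
        rw [MeasurableEquiv.piCongrLeft_apply_apply]
      simp only [dot, he, Equiv.swap_apply_right]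
      rw [Equiv.sum_comp (Equiv.swap a i) fun k => x k * x k]
    have hsum : ∫ x, ∑ a, x a * x a / dot x x ∂rowLaw d = 1 := by
      have : (fun x : Fin d → ℝ => ∑ a, x a * x a / dot x x) =ᵐ[rowLaw d] fun _ => (1 : ℝ) := by
        have : NullSingletonClass (gaussianReal 0 1) := nullSingletonClass_gaussianReal one_ne_zero
        have hz : rowLaw d {(0 : Fin d → ℝ)} = 0 := by
          rw [rowLaw, ← Set.univ_pi_singleton, Measure.pi_pi]
          exact prod_eq_zero (mem_univ (⟨0, hd⟩ : Fin d)) (measure_singleton _)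
        filter_upwards [measure_eq_zero_iff_ae_notMem.1 hz] with x hx
        rw [← sum_div]
        refine div_self fun h => hx ?_
        refine Set.mem_singleton_iff.2 (funext fun k => ?_)
        exact mul_self_eq_zero.1
          ((sum_eq_zero_iff_of_nonneg fun k _ => mul_self_nonneg (x k)).1 h k (mem_univ k))
      rw [integral_congr_ae this]
      simp
    rw [integral_finsetSum _ fun a _ => hint a a, sum_congr rfl fun a _ => hperm a] at hsum
    simp only [sum_const, card_univ, Fintype.card_fin, nsmul_eq_mul] at hsum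
    have : (0 : ℝ) < d := by exact_mod_cast hd
    rw [eq_div_iff this.ne']
    linarith
  · rw [if_neg hij]
    let flip : (Fin d → ℝ) → Fin d → ℝ := fun x k => (if k = i then (fun a : ℝ => -a) else id) (x k)
    have hp : MeasurePreserving flip (rowLaw d) (rowLaw d) := by
      refine measurePreserving_pi _ _ fun k => ?_
      by_cases hk : k = i
      · rw [if_pos hk]
        refine ⟨measurable_neg, ?_⟩
        rw [gaussianReal_map_neg, neg_zero]
      · rw [if_neg hk]; exact MeasurePreserving.id _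
    have h1 : ∫ x, x i * x j / dot x x ∂rowLaw d
        = ∫ x, -(x i * x j / dot x x) ∂rowLaw d := by
      conv_lhs => rw [← hp.map_eq]
      rw [integral_map hp.measurable.aemeasurable (hm i j).aestronglyMeasurable]
      refine integral_congr_ae (ae_of_all _ fun x => ?_)
      have hdd : dot (flip x) (flip x) = dot x x := by
        refine sum_congr rfl fun k _ => ?_
        by_cases hk : k = i <;> simp [flip, hk]
      simp only [hdd]
      simp [flip, Ne.symm hij]
      ring
    rw [integral_neg] at h1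
    linarith

theorem integral_proj (hd : 0 < d) (e : Fin d → ℝ) :
    ∫ x, dot x e ^ 2 / dot x x ∂rowLaw d = dot e e / d := by
  have hexp : ∀ x : Fin d → ℝ, dot x e ^ 2 / dot x x
      = ∑ i, ∑ j, e i * e j * (x i * x j / dot x x) := by
    intro x
    rw [sq, dot, sum_mul_sum, sum_div]
    refine sum_congr rfl fun i _ => ?_
    rw [sum_div]
    exact sum_congr rfl fun j _ => by ring
  have hint : ∀ a b : Fin d, Integrable (fun x : Fin d → ℝ => x a * x b / dot x x) (rowLaw d) := by
    intro a b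
    refine Integrable.of_bound ((((measurable_pi_apply a).mul (measurable_pi_apply b)).div
      measurable_dot_self).aestronglyMeasurable) 1 (ae_of_all _ fun x => ?_)
    have hsa : x a * x a ≤ dot x x :=
      single_le_sum (f := fun k => x k * x k) (fun k _ => mul_self_nonneg _) (mem_univ a)
    have hsb : x b * x b ≤ dot x x :=
      single_le_sum (f := fun k => x k * x k) (fun k _ => mul_self_nonneg _) (mem_univ b)
    rw [Real.norm_eq_abs, abs_div, abs_of_nonneg (dot_self_nonneg x)]
    refine div_le_one_of_le₀ ?_ (dot_self_nonneg x)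
    rw [abs_le]
    constructor <;> nlinarith [sq_nonneg (x a - x b), sq_nonneg (x a + x b)]
  simp only [hexp]
  rw [integral_finsetSum _ fun i _ => integrable_finsetSum _ fun j _ => (hint i j).const_mul _]
  simp only [integral_finsetSum _ fun j _ => (hint _ j).const_mul _, integral_const_mul,
    integral_coord hd]
  simp [dot, mul_ite, div_eq_mul_inv, sum_mul]

theorem measurable_next (δ : ℝ) :
    Measurable fun q : (Fin d → Fin (2 * N + 1)) × ((Fin d → ℝ) × ℝ) => next δ q.1 q.2 := by
  refine measurable_from_prod_countable_right fun w => ?_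
  refine measurable_pi_lambda _ fun i => ?_
  refine (measurable_gcode δ N).comp ?_
  change Measurable fun p : (Fin d → ℝ) × ℝ =>
    pt δ w i + (p.2 - dot p.1 (pt δ w)) / dot p.1 p.1 * p.1 i
  unfold dot
  fun_prop

theorem loop_succ (δ : ℝ) (s : Fin d → ℝ) (n : ℕ) (x : Fin (n + 1) → Fin d → ℝ)
    (w : Fin d → Fin (2 * N + 1)) :
    loop δ s (n + 1) x w = loop δ s n (fun i => x i.succ) (next δ w (x 0, dot (x 0) s)) := by
  simp [loop, Fin.foldl_succ]

attribute [local irreducible] gcode next loop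

theorem measurable_loop (δ : ℝ) : ∀ n : ℕ,
    Measurable fun p : (Fin d → ℝ) × (Fin n → Fin d → ℝ) × (Fin d → Fin (2 * N + 1)) =>
      loop δ p.1 n p.2.1 p.2.2 := by
  intro n
  induction n with
  | zero => simp only [loop, Fin.foldl_zero]; exact measurable_snd.comp measurable_snd
  | succ n ih =>
    simp only [loop_succ]
    have h1 : Measurable fun p : (Fin d → ℝ) × (Fin (n + 1) → Fin d → ℝ) ×
        (Fin d → Fin (2 * N + 1)) => (p.2.2, (p.2.1 0, dot (p.2.1 0) p.1)) := by
      unfold dot; fun_prop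
    have h2 := (measurable_next (N := N) δ).comp h1
    have h3 : Measurable fun p : (Fin d → ℝ) × (Fin (n + 1) → Fin d → ℝ) ×
        (Fin d → Fin (2 * N + 1)) =>
        (p.1, (fun i : Fin n => p.2.1 i.succ), next δ p.2.2 (p.2.1 0, dot (p.2.1 0) p.1)) :=
      measurable_fst.prodMk (Measurable.prodMk (by fun_prop) h2)
    exact Measurable.comp
      (g := fun q : (Fin d → ℝ) × (Fin n → Fin d → ℝ) × (Fin d → Fin (2 * N + 1)) =>
        loop δ q.1 n q.2.1 q.2.2) ih h3

theorem measurable_loop_rows (δ : ℝ) (s : Fin d → ℝ) (n : ℕ) (w : Fin d → Fin (2 * N + 1)) :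
    Measurable fun x : Fin n → Fin d → ℝ => loop δ s n x w :=
  (measurable_loop δ n).comp
    (measurable_const.prodMk (measurable_id.prodMk measurable_const))

/-- the mean squared error falls geometrically, down to the level of the rounding -/
theorem integral_err_le (hd : 0 < d) {δ : ℝ} (hδ : 0 < δ) (hN : 1 ≤ δ * N) {s : Fin d → ℝ}
    (hs : ∀ i, |s i| ≤ 1) : ∀ (n : ℕ) (w : Fin d → Fin (2 * N + 1)),
    ∫ x, err δ s (loop δ s n x w) ∂(Measure.pi fun _ : Fin n => rowLaw d) ≤
      (1 - 1 / (2 * d)) ^ n * err δ s w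
        + 2 * d * ((1 + 2 * d) * d * δ ^ 2) * (1 - (1 - 1 / (2 * d)) ^ n) := by
  have hd1 : (1 : ℝ) ≤ d := by exact_mod_cast hd
  intro n
  induction n with
  | zero => intro w; simp [loop]
  | succ n ih =>
    intro w
    set r : ℝ := 1 - 1 / (2 * d) with hr
    set B : ℝ := (1 + 2 * d) * d * δ ^ 2 with hB
    have hγ : (0 : ℝ) < 1 / (2 * d) := by positivity
    have hr0 : 0 ≤ r := by
      rw [hr, sub_nonneg, div_le_one (by positivity)]; linarith
    set μn := Measure.pi fun _ : Fin n => rowLaw d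
    have hmp := (measurePreserving_piFinSuccAbove (fun _ : Fin (n + 1) => rowLaw d) 0).symm
    rw [← hmp.integral_comp' (fun x => err δ s (loop δ s (n + 1) x w))]
    have heq : ∀ q : (Fin d → ℝ) × (Fin n → Fin d → ℝ),
        err δ s (loop δ s (n + 1)
          ((MeasurableEquiv.piFinSuccAbove (fun _ => Fin d → ℝ) 0).symm q) w)
          = err δ s (loop δ s n q.2 (next δ w (q.1, dot q.1 s))) := by
      intro q
      simp [loop, Fin.foldl_succ, MeasurableEquiv.piFinSuccAbove]
    simp only [heq]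
    have hbd : ∀ v : Fin d → Fin (2 * N + 1), ‖err δ s v‖ ≤ ∑ v, err δ s v := fun v => by
      rw [Real.norm_eq_abs, abs_of_nonneg (sum_nonneg fun i _ => sq_nonneg _)]
      exact single_le_sum (f := fun v => err δ s v) (fun v _ => sum_nonneg fun i _ => sq_nonneg _)
        (mem_univ v)
    have hmnext : Measurable fun x : Fin d → ℝ => next δ w (x, dot x s) :=
      (measurable_next δ).comp
        (measurable_const.prodMk (measurable_id.prodMk (measurable_dot_left s)))
    have hmerr : Measurable (err δ s : (Fin d → Fin (2 * N + 1)) → ℝ) := measurable_of_countable _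
    have hint : Integrable (fun q : (Fin d → ℝ) × (Fin n → Fin d → ℝ) =>
        err δ s (loop δ s n q.2 (next δ w (q.1, dot q.1 s)))) ((rowLaw d).prod μn) := by
      refine Integrable.of_bound (Measurable.aestronglyMeasurable ?_) _
        (ae_of_all _ fun q => hbd _)
      exact hmerr.comp ((measurable_loop δ n).comp
        (measurable_const.prodMk (measurable_snd.prodMk (hmnext.comp measurable_fst))))
    refine le_of_eq_of_le (integral_prod _ hint) ?_
    have hi1 : Integrable (fun x => err δ s (next δ w (x, dot x s))) (rowLaw d) :=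
      Integrable.of_bound (hmerr.comp hmnext).aestronglyMeasurable _ (ae_of_all _ fun q => hbd _)
    have hproj : Integrable (fun x => dot x (pt δ w - s) ^ 2 / dot x x) (rowLaw d) := by
      refine Integrable.of_bound (((measurable_dot_left _).pow_const 2).div
        measurable_dot_self).aestronglyMeasurable (dot (pt δ w - s) (pt δ w - s))
        (ae_of_all _ fun x => ?_)
      rw [Real.norm_eq_abs, abs_div, abs_of_nonneg (sq_nonneg _),
        abs_of_nonneg (dot_self_nonneg x)]
      exact div_le_of_le_mul₀ (dot_self_nonneg x) (dot_self_nonneg _)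
        (by rw [mul_comm]; exact dot_sq_le _ _)
    have hone : ∫ x, err δ s (next δ w (x, dot x s)) ∂rowLaw d ≤ r * err δ s w + B := by
      have hi2 : Integrable (fun x => (1 + 1 / (2 * (d : ℝ))) *
          (err δ s w - dot x (pt δ w - s) ^ 2 / dot x x)
            + d * ((1 + 1 / (1 / (2 * (d : ℝ)))) * δ ^ 2)) (rowLaw d) :=
        (((integrable_const _).sub hproj).const_mul _).add (integrable_const _)
      refine (integral_mono hi1 hi2 fun x => err_next_le hδ hN hγ hs w x).trans ?_
      have hsub : Integrable (fun x => err δ s w - dot x (pt δ w - s) ^ 2 / dot x x) (rowLaw d) :=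
        (integrable_const _).sub hproj
      rw [integral_add (hsub.const_mul _) (integrable_const _),
        integral_const_mul, integral_sub (integrable_const _) hproj, integral_proj hd]
      have hee : dot (pt δ w - s) (pt δ w - s) = err δ s w := by
        simp [dot, err, sq]
      rw [hee]
      simp only [integral_const, probReal_univ, one_smul]
      have he0 : 0 ≤ err δ s w := sum_nonneg fun i _ => sq_nonneg _
      have h1 : (1 + 1 / (2 * (d : ℝ))) * (err δ s w - err δ s w / d) ≤ r * err δ s w := by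
        have : (1 + 1 / (2 * (d : ℝ))) * (err δ s w - err δ s w / d)
            = r * err δ s w - 1 / (2 * (d : ℝ) ^ 2) * err δ s w := by
          rw [hr]; field_simp; ring
        rw [this]
        have : 0 ≤ 1 / (2 * (d : ℝ) ^ 2) * err δ s w := by positivity
        linarith
      have h2 : (d : ℝ) * ((1 + 1 / (1 / (2 * (d : ℝ)))) * δ ^ 2) = B := by
        rw [one_div_one_div, hB]; ring
      linarith
    calc ∫ x, ∫ y, err δ s (loop δ s n y (next δ w (x, dot x s))) ∂μn ∂rowLaw d
        ≤ ∫ x, (r ^ n * err δ s (next δ w (x, dot x s)) + 2 * d * B * (1 - r ^ n)) ∂rowLaw d :=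
          integral_mono hint.integral_prod_left ((hi1.const_mul _).add (integrable_const _))
            fun x => ih _
      _ = r ^ n * (∫ x, err δ s (next δ w (x, dot x s)) ∂rowLaw d) + 2 * d * B * (1 - r ^ n) := by
          rw [integral_add (hi1.const_mul _) (integrable_const _), integral_const_mul]
          simp
      _ ≤ r ^ n * (r * err δ s w + B) + 2 * d * B * (1 - r ^ n) :=
          add_le_add (mul_le_mul_of_nonneg_left hone (pow_nonneg hr0 n)) le_rfl
      _ = r ^ (n + 1) * err δ s w + 2 * d * B * (1 - r ^ (n + 1)) := by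
          rw [pow_succ, hr]; field_simp; ring

/-- the direction of a point, with a fixed one at the origin -/
noncomputable def dir (z : Fin d → ℝ) : Fin d → ℝ :=
  if dot z z = 0 then fun i => if (i : ℕ) = 0 then 1 else 0 else (√(dot z z))⁻¹ • z

theorem dot_dir_self (hd : 0 < d) (z : Fin d → ℝ) : dot (dir z) (dir z) = 1 := by
  unfold dir
  split_ifs with h
  · rw [dot, sum_eq_single (⟨0, hd⟩ : Fin d)]
    · simp
    · intro i _ hi
      have : (i : ℕ) ≠ 0 := fun h => hi (Fin.ext h)
      simp [this]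
    · simp
  · have h0 : 0 < dot z z := lt_of_le_of_ne (dot_self_nonneg z) (Ne.symm h)
    have : dot ((√(dot z z))⁻¹ • z) ((√(dot z z))⁻¹ • z)
        = (√(dot z z))⁻¹ ^ 2 * dot z z := by
      simp only [dot, Pi.smul_apply, smul_eq_mul, mul_sum]
      exact sum_congr rfl fun i _ => by ring
    rw [this, inv_pow, sq_sqrt h0.le, inv_mul_cancel₀ h]

theorem arccos_dir_le {z s : Fin d → ℝ} (hs : dot s s = 1) {ε : ℝ} (hε0 : 0 ≤ ε) (hε1 : ε ≤ 1)
    (h : ∑ i, (z i - s i) ^ 2 ≤ ε ^ 2 / 10) : Real.arccos (dot (dir z) s) ≤ ε := by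
  set D := ∑ i, (z i - s i) ^ 2 with hD
  have hDe : D = dot z z - 2 * dot z s + 1 := by
    rw [← hs, hD]
    simp only [dot, mul_sum, ← sum_sub_distrib, ← sum_add_distrib]
    exact sum_congr rfl fun i _ => by ring
  have hD0 : 0 ≤ D := sum_nonneg fun i _ => sq_nonneg _
  have hD1 : D ≤ 1 / 10 := h.trans (by nlinarith)
  set m := √(dot z z) with hm
  have hmsq : m ^ 2 = dot z z := sq_sqrt (dot_self_nonneg z)
  have hm0 : 0 ≤ m := sqrt_nonneg _
  have hcs : dot z s ≤ m := by
    have h1 := dot_sq_le z s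
    rw [hs, mul_one, ← hmsq] at h1
    nlinarith
  have hmh : 1 / 2 ≤ m := by
    by_contra hlt
    push Not at hlt
    nlinarith
  have hne : dot z z ≠ 0 := by rw [← hmsq]; positivity
  have hdz : dot (dir z) s = dot z s / m := by
    rw [dir, if_neg hne, ← hm, div_eq_mul_inv, mul_comm]
    simp only [dot, Pi.smul_apply, smul_eq_mul, mul_sum]
    exact sum_congr rfl fun i _ => by ring
  have hge : 1 - D ≤ dot z s / m := by
    rw [le_div_iff₀ (by linarith)]
    nlinarith [sq_nonneg (m - 1)]
  have hpi : 1 / 10 ≤ 2 / π ^ 2 := by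
    rw [div_le_div_iff₀ (by norm_num) (by positivity)]
    nlinarith [pi_lt_four, pi_pos]
  have hcos : Real.cos ε ≤ dot (dir z) s := by
    rw [hdz]
    refine le_trans ?_ hge
    refine (cos_le_one_sub_mul_cos_sq (x := ε) ?_).trans ?_
    · rw [abs_of_nonneg hε0]; linarith [two_le_pi]
    · have := mul_le_mul_of_nonneg_right hpi (sq_nonneg ε)
      linarith
  calc Real.arccos (dot (dir z) s) ≤ Real.arccos (Real.cos ε) := Real.antitone_arccos hcos
    _ = ε := Real.arccos_cos hε0 (by linarith [two_le_pi])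

theorem signalLaw_unit (hd : 0 < d) : ∀ᵐ s ∂signalLaw d, dot s s = 1 := by
  have hms : MeasurableSet {s : Fin d → ℝ | dot s s = 1} :=
    measurable_dot_self (measurableSet_singleton 1)
  have hmn : Measurable fun g : Fin d → ℝ => (√(dot g g))⁻¹ • g :=
    measurable_dot_self.sqrt.inv.smul measurable_id
  rw [signalLaw, ae_map_iff hmn.aemeasurable hms]
  have : NullSingletonClass (gaussianReal 0 1) := nullSingletonClass_gaussianReal one_ne_zero
  have hz : rowLaw d {(0 : Fin d → ℝ)} = 0 := by
    rw [rowLaw, ← Set.univ_pi_singleton, Measure.pi_pi]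
    exact prod_eq_zero (mem_univ (⟨0, hd⟩ : Fin d)) (measure_singleton _)
  filter_upwards [measure_eq_zero_iff_ae_notMem.1 hz] with g hg
  have h : dot g g ≠ 0 := fun h => hg (Set.mem_singleton_iff.2 (funext fun k =>
    mul_self_eq_zero.1 ((sum_eq_zero_iff_of_nonneg fun k _ => mul_self_nonneg (g k)).1 h k
      (mem_univ k))))
  have := dot_dir_self hd g
  rwa [dir, if_neg h] at this

/-- the protocol of the rounded update -/
noncomputable def protocol (hd : 0 < d) (M T : ℕ) (δ : ℝ) (N : ℕ)
    (f : (Fin d → Fin (2 * N + 1)) ↪ Fin (2 ^ M)) : Protocol d M T where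
  Seed := Unit
  seedLaw := Measure.dirac ()
  isProb := inferInstance
  init _ := f (start δ N)
  step _ _ w p := f (next δ (Function.invFun f w) p)
  halt _ _ _ _ := false
  stop _ _ _ := false
  guess _ _ w := dir (pt δ (Function.invFun f w))
  measurable_init := measurable_const
  measurable_step _ _ := (measurable_of_countable f).comp
    ((measurable_next δ).comp (measurable_const.prodMk measurable_snd))
  measurable_halt _ _ := measurable_const
  measurable_stop _ _ := measurable_const
  measurable_guess _ _ := measurable_const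
  guess_unit _ _ _ := dot_dir_self hd _

theorem run_protocol (hd : 0 < d) {M T : ℕ} (δ : ℝ) (N : ℕ)
    (f : (Fin d → Fin (2 * N + 1)) ↪ Fin (2 ^ M)) (r : Unit) (s : Fin d → ℝ)
    (x : Fin T → Fin d → ℝ) : ∀ t (ht : t ≤ T), (protocol hd M T δ N f).run r s x t =
      (t, f (loop δ s t (fun i => x (i.castLE ht)) (start δ N)), false) := by
  intro t
  induction t with
  | zero => intro _; simp [Protocol.run, protocol, loop]
  | succ t ih =>
    intro ht
    have ht' : t < T := ht
    simp only [Protocol.run, dif_pos ht']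
    rw [ih ht'.le]
    simp [protocol, loop, Fin.foldl_succ_last, Function.leftInverse_invFun f.injective _,
      Fin.castLE]

theorem succeeds_protocol (hd : 0 < d) {M T : ℕ} {δ : ℝ} (hδ : 0 < δ) {N : ℕ} (hN : 1 ≤ δ * N)
    (f : (Fin d → Fin (2 * N + 1)) ↪ Fin (2 ^ M)) {ε : ℝ} (hε0 : 0 < ε) (hε1 : ε ≤ 1)
    (hT : 3 * (1 - 1 / (2 * (d : ℝ))) ^ T + 2 * d * ((1 + 2 * d) * d * δ ^ 2) ≤ ε ^ 2 / 30)
    (hsmall : (1 + 1) * d * δ ^ 2 ≤ 1) :
    (protocol hd M T δ N f).Succeeds ε := by
  set A := protocol hd M T δ N f with hA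
  set μT := Measure.pi fun _ : Fin T => rowLaw d with hμT
  have hout : ∀ s x, A.output () s x = dir (pt δ (loop δ s T x (start δ N))) := by
    intro s x
    simp only [Protocol.output]
    rw [run_protocol hd δ N f () s x T le_rfl]
    simp [A, protocol, Function.leftInverse_invFun f.injective _]
  set S := {q : (Fin d → ℝ) × (Fin T → Fin d → ℝ) |
    Real.arccos (dot (dir (pt δ (loop δ q.1 T q.2 (start δ N)))) q.1) ≤ ε} with hS
  have hSm : MeasurableSet S := by
    refine measurableSet_le (Real.continuous_arccos.measurable.comp ?_) measurable_const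
    have h1 : Measurable fun q : (Fin d → ℝ) × (Fin T → Fin d → ℝ) =>
        loop δ q.1 T q.2 (start δ N) :=
      (measurable_loop δ T).comp
        (measurable_fst.prodMk (measurable_snd.prodMk measurable_const))
    have h2 : Measurable fun q : (Fin d → ℝ) × (Fin T → Fin d → ℝ) =>
        dir (pt δ (loop δ q.1 T q.2 (start δ N))) :=
      (measurable_of_countable fun w : Fin d → Fin (2 * N + 1) => dir (pt δ w)).comp h1
    unfold dot
    fun_prop
  have : IsProbabilityMeasure (signalLaw d) := by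
    unfold signalLaw
    exact Measure.isProbabilityMeasure_map
      (measurable_dot_self.sqrt.inv.smul measurable_id).aemeasurable
  have hgood : ∀ᵐ s ∂signalLaw d, (2 / 3 : ENNReal) ≤ μT (Prod.mk s ⁻¹' S) := by
    filter_upwards [signalLaw_unit hd] with s hs
    have hsi : ∀ i, |s i| ≤ 1 := fun i => by
      have : s i * s i ≤ dot s s :=
        single_le_sum (f := fun k => s k * s k) (fun k _ => mul_self_nonneg _) (mem_univ i)
      rw [hs] at this
      rw [abs_le]; constructor <;> nlinarith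
    set E := fun x : Fin T → Fin d → ℝ => err δ s (loop δ s T x (start δ N)) with hE
    have hmE : Measurable E :=
      (measurable_of_countable (err δ s)).comp (measurable_loop_rows δ s T _)
    have hE0 : ∀ x, 0 ≤ E x := fun x => sum_nonneg fun i _ => sq_nonneg _
    have hstart : err δ s (start δ N : Fin d → Fin (2 * N + 1)) ≤ 3 := by
      calc err δ s (start δ N)
          ≤ ∑ i : Fin d, ((1 + 1) * s i ^ 2 + (1 + 1 / 1) * δ ^ 2) := sum_le_sum fun i _ => by
            refine square_split one_pos ?_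
            simpa [pt, start] using gval_gcode_sub_le hδ hN (hsi i) 0
        _ = 2 * dot s s + (1 + 1) * d * δ ^ 2 := by
            rw [sum_add_distrib, ← mul_sum, dot]; simp [sq]; ring
        _ ≤ 3 := by rw [hs]; linarith
    have hmean : ∫ x, E x ∂μT ≤ ε ^ 2 / 30 := by
      refine (integral_err_le hd hδ hN hsi T _).trans (le_trans ?_ hT)
      have hd1 : (1 : ℝ) ≤ d := by exact_mod_cast hd
      have hr0 : 0 ≤ (1 - 1 / (2 * (d : ℝ))) ^ T := by
        refine pow_nonneg ?_ _
        rw [sub_nonneg, div_le_one (by positivity)]; linarith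
      have hB : 0 ≤ 2 * (d : ℝ) * ((1 + 2 * d) * d * δ ^ 2) := by positivity
      have := mul_le_mul_of_nonneg_left hstart hr0
      nlinarith
    have hbd : ∀ x, ‖E x‖ ≤ ∑ v, err δ s (v : Fin d → Fin (2 * N + 1)) := fun x => by
      rw [Real.norm_eq_abs, abs_of_nonneg (hE0 x)]
      exact single_le_sum (f := fun v => err δ s v) (fun v _ => sum_nonneg fun i _ => sq_nonneg _)
        (mem_univ _)
    have hEi : Integrable E μT :=
      Integrable.of_bound hmE.aestronglyMeasurable _ (ae_of_all _ hbd)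
    have hmk := mul_meas_ge_le_integral_of_nonneg (ae_of_all μT hE0) hEi (ε ^ 2 / 10)
    have hbad : μT.real {x | ε ^ 2 / 10 ≤ E x} ≤ 1 / 3 := by
      have he : 0 < ε ^ 2 / 10 := by positivity
      by_contra hgt
      push Not at hgt
      have := mul_lt_mul_of_pos_left hgt he
      linarith
    have hsub : {x | ε ^ 2 / 10 ≤ E x}ᶜ ⊆ Prod.mk s ⁻¹' S := by
      intro x hx
      simp only [Set.mem_compl_iff, Set.mem_ofPred_eq, not_le] at hx
      exact arccos_dir_le hs hε0.le hε1 hx.le
    have hc : 2 / 3 ≤ μT.real (Prod.mk s ⁻¹' S) := by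
      refine le_trans ?_ (measureReal_mono hsub)
      rw [measureReal_compl (measurableSet_le measurable_const hmE), probReal_univ]
      linarith
    have h23 : (2 / 3 : ENNReal) = ENNReal.ofReal (2 / 3) := by
      rw [ENNReal.ofReal_div_of_pos (by norm_num)]; simp
    rw [h23]
    exact (ENNReal.ofReal_le_ofReal hc).trans (le_of_eq (ofReal_measureReal))
  have hset : {p : A.Seed × ((Fin d → ℝ) × (Fin T → Fin d → ℝ)) |
      Real.arccos (dot (A.output p.1 p.2.1 p.2.2) p.2.1) ≤ ε} = Prod.snd ⁻¹' S := by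
    ext p
    obtain ⟨⟨⟩, q⟩ := p
    exact iff_of_eq (congrArg (fun v => Real.arccos (dot v q.1) ≤ ε) (hout q.1 q.2))
  have hprob : IsProbabilityMeasure A.seedLaw := A.isProb
  rw [Protocol.Succeeds, hset, ← Measure.map_apply measurable_snd hSm, Measure.map_snd_prod,
    measure_univ, one_smul, Measure.prod_apply hSm]
  calc (2 / 3 : ENNReal) = ∫⁻ _, 2 / 3 ∂signalLaw d := by simp
    _ ≤ _ := lintegral_mono_ae hgood

theorem card_codes_le (hd : 2 ≤ d) {ε : ℝ} (hε0 : 0 < ε) (hε : ε ≤ 1 / 16) {M : ℕ}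
    (hM : 9 * (d * log (d / ε)) ≤ M) :
    (2 * ⌈1 / (ε / (20 * (d : ℝ) ^ 2))⌉₊ + 1) ^ d ≤ 2 ^ M := by
  have hdR : (2 : ℝ) ≤ d := by exact_mod_cast hd
  have hd0 : (0 : ℝ) < d := by linarith
  have hl2 : 1 / 2 ≤ log 2 := by
    have := log_two_gt_d9; linarith
  have hL : log 256 ≤ 2 * log (1 / ε) := by
    rw [show (256 : ℝ) = 16 ^ 2 by norm_num, log_pow]
    have : log 16 ≤ log (1 / ε) :=
      log_le_log (by norm_num) (by rw [le_div_iff₀ hε0]; linarith)
    push_cast; linarith
  have h256 : 0 ≤ log 256 := log_nonneg (by norm_num)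
  set δ : ℝ := ε / (20 * d ^ 2) with hδdef
  have hδ : 0 < δ := by positivity
  set N := ⌈1 / δ⌉₊ with hNdef
  have hN : 1 ≤ δ * N := by
    have := Nat.le_ceil (1 / δ)
    rw [← hNdef, div_le_iff₀ hδ] at this
    linarith
  set m := Nat.clog 2 (2 * N + 1) with hm
  have h1 : 2 * N + 1 ≤ 2 ^ m := Nat.le_pow_clog (by norm_num) _
  refine (Nat.pow_le_pow_left h1 d).trans ?_
  rw [← pow_mul]
  refine Nat.pow_le_pow_right (by norm_num) ?_
  have hN1 : 1 < 2 * N + 1 := by
    have : (0 : ℝ) < N := by nlinarith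
    have : 0 < N := by exact_mod_cast this
    omega
  have h2 : 2 ^ (m - 1) < 2 * N + 1 := Nat.pow_pred_clog_lt_self (by norm_num) hN1
  have hm1 : 1 ≤ m := Nat.clog_pos (by norm_num) hN1
  have h3 : 2 ^ m ≤ 2 * (2 * N + 1) := by
    have : 2 ^ m = 2 * 2 ^ (m - 1) := by
      rw [← pow_succ']; congr 1; omega
    omega
  have h4 : ((2 : ℝ) ^ m) ≤ 256 * ((d : ℝ) / ε) ^ 2 := by
    have h3' : ((2 : ℝ) ^ m) ≤ 2 * (2 * N + 1) := by exact_mod_cast h3
    have hNle : (N : ℝ) ≤ 20 * d ^ 2 / ε + 1 := by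
      have := Nat.ceil_lt_add_one (show 0 ≤ 1 / δ by positivity)
      rw [← hNdef, hδdef, one_div_div] at this
      linarith
    have hde : (d : ℝ) ^ 2 / ε ≤ (d / ε) ^ 2 := by
      rw [div_pow]
      exact div_le_div_of_nonneg_left (by positivity) (by positivity) (by nlinarith)
    have hone : 1 ≤ (d : ℝ) ^ 2 / ε := by
      rw [le_div_iff₀ hε0]; nlinarith
    have : 20 * (d : ℝ) ^ 2 / ε = 20 * (d ^ 2 / ε) := by ring
    linarith
  have h5 := log_le_log (by positivity) h4
  rw [log_pow, log_mul (by norm_num) (by positivity), log_pow] at h5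
  have h6 : log (1 / ε) ≤ log (d / ε) :=
    log_le_log (by positivity) (by gcongr; linarith)
  have h7 : (m : ℝ) ≤ 8 * log (d / ε) := by
    push_cast at h5
    nlinarith [m.cast_nonneg (α := ℝ)]
  have h8 : ((m * d : ℕ) : ℝ) ≤ M := by
    push_cast
    have h9 := mul_le_mul_of_nonneg_right h7 hd0.le
    have h10 : 0 ≤ (d : ℝ) * log (d / ε) := mul_nonneg hd0.le (by linarith)
    nlinarith
  exact_mod_cast h8

theorem error_budget (hd : 2 ≤ d) {ε : ℝ} (hε0 : 0 < ε) {δ : ℝ}
    (hδdef : δ = ε / (20 * (d : ℝ) ^ 2)) {T : ℕ}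
    (hTdef : T = ⌈2 * (d : ℝ) * log (256 / ε ^ 2)⌉₊) :
    3 * (1 - 1 / (2 * (d : ℝ))) ^ T + 2 * d * ((1 + 2 * d) * d * δ ^ 2) ≤ ε ^ 2 / 30 := by
  have hdR : (2 : ℝ) ≤ d := by exact_mod_cast hd
  have hd0 : (0 : ℝ) < d := by linarith
  have hr : (1 - 1 / (2 * (d : ℝ))) ^ T ≤ ε ^ 2 / 256 := by
    have h0 : 0 ≤ 1 - 1 / (2 * (d : ℝ)) := by
      rw [sub_nonneg, div_le_one (by positivity)]; linarith
    refine (pow_le_pow_left₀ h0 (one_sub_le_exp_neg _) T).trans ?_
    rw [← exp_nat_mul, ← le_log_iff_exp_le (by positivity)]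
    have hT1 := Nat.le_ceil (2 * (d : ℝ) * log (256 / ε ^ 2))
    rw [← hTdef] at hT1
    rw [show ε ^ 2 / 256 = (256 / ε ^ 2)⁻¹ by rw [inv_div], log_inv]
    have : (T : ℝ) * -(1 / (2 * d)) = -(T / (2 * d)) := by ring
    rw [this, neg_le_neg_iff, le_div_iff₀ (by positivity)]
    linarith
  have hB : 2 * (d : ℝ) * ((1 + 2 * d) * d * δ ^ 2) ≤ ε ^ 2 / 60 := by
    have : 2 * (d : ℝ) * ((1 + 2 * d) * d * δ ^ 2) ≤ 6 * d ^ 3 * δ ^ 2 := by
      have h := mul_nonneg (mul_nonneg hd0.le hd0.le) (sq_nonneg δ)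
      nlinarith
    refine this.trans ?_
    rw [hδdef, div_pow, ← mul_div_assoc, div_le_div_iff₀ (by positivity) (by norm_num)]
    have h3 : (d : ℝ) ^ 3 ≤ d ^ 4 := pow_le_pow_right₀ (by linarith) (by norm_num)
    nlinarith [mul_le_mul_of_nonneg_left h3 (sq_nonneg ε), sq_nonneg ε,
      mul_nonneg (sq_nonneg ε) (pow_nonneg hd0.le 4)]
  nlinarith [sq_nonneg ε]

theorem start_budget (hd : 2 ≤ d) {ε : ℝ} (hε0 : 0 < ε) (hε : ε ≤ 1 / 16) {δ : ℝ}
    (hδdef : δ = ε / (20 * (d : ℝ) ^ 2)) : (1 + 1) * d * δ ^ 2 ≤ 1 := by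
  have hdR : (2 : ℝ) ≤ d := by exact_mod_cast hd
  have hd0 : (0 : ℝ) < d := by linarith
  have hδ : 0 < δ := by rw [hδdef]; positivity
  have : δ ≤ 1 / (d : ℝ) ^ 2 := by
    rw [hδdef, div_le_div_iff₀ (by positivity) (by positivity)]
    have := mul_le_mul_of_nonneg_right (show ε ≤ 1 by linarith) (sq_nonneg (d : ℝ))
    have := sq_nonneg (d : ℝ)
    linarith
  have h2 := pow_le_pow_left₀ hδ.le this 2
  refine (mul_le_mul_of_nonneg_left h2 (by positivity)).trans ?_
  rw [div_pow, one_pow, mul_one_div, div_le_one (by positivity), ← pow_mul]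
  have h3 : (d : ℝ) ^ 2 ≤ d ^ (2 * 2) := pow_le_pow_right₀ (by linarith) (by norm_num)
  have h4 := mul_le_mul_of_nonneg_right hdR hd0.le
  linarith [sq (d : ℝ)]

end Kacz

/-- memory of order `d log (d / ε)` suffices for of order `d log (1 / ε)` rows -/
theorem upper_bound (hd : 2 ≤ d) {ε : ℝ} (hε0 : 0 < ε) (hε : ε ≤ 1 / 16) {M : ℕ}
    (hM : 9 * (d * log (d / ε)) ≤ M) :
    ∃ T : ℕ, (T : ℝ) ≤ 9 * (d * log (1 / ε)) ∧ ∃ A : Protocol d M T,
      (∀ r t t' w, A.guess r t w = A.guess r t' w) ∧ A.Succeeds ε := by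
  have hdR : (2 : ℝ) ≤ d := by exact_mod_cast hd
  have hd0 : (0 : ℝ) < d := by linarith
  have hl2 : 1 / 2 ≤ log 2 := by
    have := log_two_gt_d9; linarith
  have hL : log 256 ≤ 2 * log (1 / ε) := by
    rw [show (256 : ℝ) = 16 ^ 2 by norm_num, log_pow]
    have : log 16 ≤ log (1 / ε) :=
      log_le_log (by norm_num) (by rw [le_div_iff₀ hε0]; linarith)
    push_cast; linarith
  set δ : ℝ := ε / (20 * d ^ 2) with hδdef
  have hδ : 0 < δ := by positivity
  set N := ⌈1 / δ⌉₊ with hNdef
  have hN : 1 ≤ δ * N := by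
    have := Nat.le_ceil (1 / δ)
    rw [← hNdef, div_le_iff₀ hδ] at this
    linarith
  set T := ⌈2 * d * log (256 / ε ^ 2)⌉₊ with hTdef
  have hlogT : log (256 / ε ^ 2) = log 256 + 2 * log (1 / ε) := by
    rw [log_div (by norm_num) (by positivity), log_pow, one_div, log_inv]; push_cast; ring
  have h256 : 1 ≤ log 256 := by
    rw [show (256 : ℝ) = 2 ^ 8 by norm_num, log_pow]; push_cast; linarith
  have hdL : 1 ≤ d * log (1 / ε) := by nlinarith
  have hTle : (T : ℝ) ≤ 9 * (d * log (1 / ε)) := by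
    have hnn : 0 ≤ 2 * (d : ℝ) * log (256 / ε ^ 2) := by rw [hlogT]; nlinarith
    have := Nat.ceil_lt_add_one hnn
    rw [← hTdef, hlogT] at this
    nlinarith
  have hcard : (2 * N + 1) ^ d ≤ 2 ^ M := Kacz.card_codes_le hd hε0 hε hM
  obtain ⟨f⟩ : Nonempty ((Fin d → Fin (2 * N + 1)) ↪ Fin (2 ^ M)) :=
    Function.Embedding.nonempty_of_card_le (by simpa using hcard)
  refine ⟨T, hTle, Kacz.protocol (by omega) M T δ N f, fun _ _ _ _ => rfl,
    Kacz.succeeds_protocol (by omega) hδ hN f hε0 (by linarith)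
      (Kacz.error_budget hd hε0 hδdef hTdef) (Kacz.start_budget hd hε0 hε hδdef)⟩

end Vale.Agent.P309
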